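import Vale.Agent.P247E.DQ

/-!
# P247E: from two anti-invariant closed forms to `QM`
-/

set_option linter.all false

open scoped ContDiff Topology ENNReal ComplexConjugate
open Set MeasureTheory Filter

noncomputable section

namespace Vale.Agent.P247E

open Vale.Agent.P204.GX Vale.Agent.P204.T4
open Vale.Agent.P247.H74 (e)
open Vale.Agent.P247.H647 (omM hat)

variable {X : Type} [MetricSpace X] (M : CM X)

theorem cont_of_sm0 {f : X → ℝ} (h : M.Sm0 f) : Continuous f := by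
  rw [continuous_iff_continuousAt]
  intro x
  obtain ⟨a, y, -, rfl⟩ := M.cov x
  rw [← (M.ψo a).continuousAt_iff]
  exact (h a).continuous.continuousAt

theorem meas_form {u : X → L2} (hu : u ∈ M.Om) (a : M.A) (i : Fin 6) :
    Measurable fun y => u (M.ψ a y) i := by
  have h0 : Measurable (fun p : M4 × L2 => pull p.1 p.2) := contDiff_pull.continuous.measurable
  have h1 : Measurable fun y => (M.m' a y, M.cf a u y) :=
    (M.m'_meas a).prodMk (hu a).continuous.measurable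
  have h : Measurable fun y => pull (M.m' a y) (M.cf a u y) := by
    have := h0.comp h1
    exact this
  simp only [← M.eq_pull_m'] at h
  exact (measurable_pi_apply i).comp h

theorem exists_sign [ConnectedSpace X] {f : X → ℝ} (hf : Continuous f) (h : ∀ x, f x ≠ 0) :
    ∃ ε : ℝ, ∀ x, 0 < ε * f x := by
  obtain ⟨x0⟩ := (inferInstance : Nonempty X)
  refine ⟨f x0, fun x => ?_⟩
  by_contra hc
  have h1 : f x0 * f x ≤ 0 := not_lt.1 hc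
  have h2 : 0 ≤ f x0 * f x0 := mul_self_nonneg _
  obtain ⟨z, hz⟩ := mem_range_of_exists_le_of_exists_ge (continuous_const.mul hf : Continuous
    fun x => f x0 * f x) ⟨x, h1⟩ ⟨x0, h2⟩
  exact mul_ne_zero (h x0) (h z) hz

theorem Rt.tr_eq {M : CM X} (R : Rt M) (u : X → L2) (x : X) :
    R.tr u x = ![u x 0, R.c x * u x 1 - R.s x * u x 3, R.c x * u x 2 - R.s x * u x 4,
      R.c x * u x 3 + R.s x * u x 1, R.c x * u x 4 + R.s x * u x 2, u x 5] := by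
  rw [Rt.tr, Rt.r', pull_rot, neg_sq, R.unit]
  funext i
  fin_cases i <;> simp <;> ring

theorem Rt.tr_mem {M : CM X} (R : Rt M) {u : X → L2} (hu : u ∈ M.Om) : R.tr u ∈ R.cm.Om := by
  intro a
  have h := R.cf_tr a u
  have h2 : ContDiff ℝ ∞ (M.cf a u) := hu a
  rw [← h] at h2
  exact h2

theorem Rt.tr_closed {M : CM X} (R : Rt M) {u : X → L2} (hu : ∀ a, Closed (M.cf a u)) (a : M.A) :
    Closed (R.cm.cf a (R.tr u)) := by
  have h := R.cf_tr a u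
  have h2 := hu a
  rw [← h] at h2
  exact h2

theorem Rt.tr_sd {M : CM X} (R : Rt M) {u : X → L2}
    (hu : ∀ x, u x 5 = u x 0 ∧ u x 4 = -u x 1 ∧ u x 3 = u x 2) (x : X) :
    R.tr u x 5 = R.tr u x 0 ∧ R.tr u x 4 = -R.tr u x 1 ∧ R.tr u x 3 = R.tr u x 2 := by
  obtain ⟨h5, h4, h3⟩ := hu x
  rw [R.tr_eq]
  refine ⟨h5, ?_, ?_⟩
  · show R.c x * u x 4 + R.s x * u x 2 = -(R.c x * u x 1 - R.s x * u x 3)
    rw [h4, h3]; ring
  · show R.c x * u x 3 + R.s x * u x 1 = R.c x * u x 2 - R.s x * u x 4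
    rw [h4, h3]; ring

theorem exists_rt {wb wc : X → L2} (hb : wb ∈ M.Om)
    (ab : ∀ x, wb x 0 = 0 ∧ wb x 5 = 0 ∧ wb x 4 = -wb x 1 ∧ wb x 3 = wb x 2)
    (ac : ∀ x, wc x 0 = 0 ∧ wc x 5 = 0 ∧ wc x 4 = -wc x 1 ∧ wc x 3 = wc x 2)
    (hind : ∀ x, wb x 1 * wc x 2 - wb x 2 * wc x 1 ≠ 0) :
    ∃ (R : Rt M) (ρ : X → ℝ), (∀ x, 0 < ρ x) ∧ (∀ x, R.tr wb x = ρ x • eS 1) ∧
      (fun _ => eS 1) ∈ R.cm.Om ∧ ∀ x, R.tr wc x 2 ≠ 0 := by
  have hpos : ∀ x, 0 < wb x 1 ^ 2 + wb x 2 ^ 2 := by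
    intro x
    by_contra h0
    have h1 : wb x 1 = 0 := by nlinarith [sq_nonneg (wb x 1), sq_nonneg (wb x 2)]
    have h2 : wb x 2 = 0 := by nlinarith [sq_nonneg (wb x 1), sq_nonneg (wb x 2)]
    exact hind x (by rw [h1, h2]; ring)
  obtain ⟨ρ, ρpos, ρsq, ρsm⟩ : ∃ ρ : X → ℝ, (∀ x, 0 < ρ x) ∧
      (∀ x, ρ x ^ 2 = wb x 1 ^ 2 + wb x 2 ^ 2) ∧ M.Sm0 ρ := by
    refine ⟨fun x => Real.sqrt (wb x 1 ^ 2 + wb x 2 ^ 2), fun x => Real.sqrt_pos.2 (hpos x),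
      fun x => Real.sq_sqrt (hpos x).le, fun a => ?_⟩
    have h1 : ∀ x, wb x 1 ^ 2 + wb x 2 ^ 2 = Q (wb x) (wb x) / 2 := by
      intro x
      obtain ⟨h0, h5, h4, h3⟩ := ab x
      simp only [Q, h0, h5, h4, h3]; ring
    have h2 : ContDiff ℝ ∞ fun y => wb (M.ψ a y) 1 ^ 2 + wb (M.ψ a y) 2 ^ 2 := by
      simp only [h1]
      exact (sm0_Q M hb hb a).div_const 2
    exact h2.sqrt fun y => (hpos _).ne'
  obtain ⟨R, hc, hs⟩ : ∃ R : Rt M, (∀ x, R.c x = wb x 1 / ρ x) ∧ ∀ x, R.s x = -wb x 2 / ρ x :=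
    ⟨{ c := fun x => wb x 1 / ρ x
       s := fun x => -wb x 2 / ρ x
       unit := fun x => by
        rw [div_pow, div_pow, neg_sq, ← add_div, ← ρsq, div_self (pow_pos (ρpos x) 2).ne']
       c_meas := fun a => (meas_form M hb a 1).div (ρsm a).continuous.measurable
       s_meas := fun a => (meas_form M hb a 2).neg.div (ρsm a).continuous.measurable },
      fun _ => rfl, fun _ => rfl⟩
  have hb1 : ∀ x, R.tr wb x = ρ x • eS 1 := by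
    intro x
    obtain ⟨h0, h5, h4, h3⟩ := ab x
    have e1 : R.c x * wb x 1 - R.s x * wb x 2 = ρ x := by
      rw [hc, hs]
      have := ρsq x
      have := (ρpos x).ne'
      field_simp
      linarith
    have e2 : R.c x * wb x 2 + R.s x * wb x 1 = 0 := by
      rw [hc, hs]
      ring
    rw [R.tr_eq, eS1, h0, h5, h4, h3]
    funext i
    fin_cases i <;> simp <;> linarith
  refine ⟨R, ρ, ρpos, hb1, fun a => ?_, fun x => ?_⟩
  · have h2 : R.cm.cf a (fun _ => eS 1) = fun y => (ρ (M.ψ a y))⁻¹ • R.cm.cf a (R.tr wb) y := by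
      funext y
      show pull _ (eS 1) = _ • pull _ (R.tr wb (M.ψ a y))
      rw [hb1, pull_smul, smul_smul, inv_mul_cancel₀ (ρpos _).ne', one_smul]
    rw [h2]
    exact ((ρsm a).inv fun y => (ρpos _).ne').smul (R.tr_mem hb a)
  · have h2 : R.tr wc x 2 = (wb x 1 * wc x 2 - wb x 2 * wc x 1) / ρ x := by
      rw [R.tr_eq, (ac x).2.2.1]
      show R.c x * wc x 2 - R.s x * -wc x 1 = _
      rw [hc, hs]
      ring
    rw [h2]; exact div_ne_zero (hind x) (ρpos x).ne'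

theorem exists_QM [ConnectedSpace X] {wb wc : X → L2} (hb : wb ∈ M.Om)
    (hc : wc ∈ M.Om) (cb : ∀ a, Closed (M.cf a wb)) (cc : ∀ a, Closed (M.cf a wc))
    (ab : ∀ x, wb x 0 = 0 ∧ wb x 5 = 0 ∧ wb x 4 = -wb x 1 ∧ wb x 3 = wb x 2)
    (ac : ∀ x, wc x 0 = 0 ∧ wc x 5 = 0 ∧ wc x 4 = -wc x 1 ∧ wc x 3 = wc x 2)
    (hind : ∀ x, wb x 1 * wc x 2 - wb x 2 * wc x 1 ≠ 0) :
    ∃ (R : Rt M) (ε : ℝ) (Q : QM X), Q.toCM = R.cm ∧ Q.w 0 = R.tr M.om ∧ Q.w 1 = R.tr wb ∧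
      Q.w 2 = R.tr (ε • wc) := by
  obtain ⟨R, ρ, ρpos, hb1, h1, hc2⟩ := exists_rt M hb ab ac hind
  have sc : ∀ x, wc x 5 = wc x 0 ∧ wc x 4 = -wc x 1 ∧ wc x 3 = wc x 2 := fun x =>
    ⟨by rw [(ac x).1, (ac x).2.1], (ac x).2.2.1, (ac x).2.2.2⟩
  have hcont : Continuous fun x => R.tr wc x 2 := by
    have h2 := cont_of_sm0 R.cm (sm0_Q R.cm (R.tr_mem hc) (eS_mem R.cm h1 2))
    have h3 : (fun x => R.tr wc x 2) = fun x => Q (R.tr wc x) (eS 2) / 2 := by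
      funext x; rw [(Q_eS _).2.2, (R.tr_sd sc x).2.2]; ring
    rw [h3]; exact h2.div_const 2
  obtain ⟨ε, hε⟩ := exists_sign hcont hc2
  have hεc : ε • wc ∈ M.Om := M.Om.smul_mem ε hc
  have htε : ∀ x, R.tr (ε • wc) x = ε • R.tr wc x := fun x => pull_smul _ _ _
  have omO : M.om ∈ M.Om := M.om_smooth
  obtain ⟨w, w0, w1, w2⟩ : ∃ w : Fin 3 → X → L2, w 0 = R.tr M.om ∧ w 1 = R.tr wb ∧
    w 2 = R.tr (ε • wc) := ⟨![R.tr M.om, R.tr wb, R.tr (ε • wc)], rfl, rfl, rfl⟩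
  refine ⟨R, ε, mkQ R.cm h1 w ?_ ?_ ?_ ?_, rfl, w0, w1, w2⟩
  · rw [Fin.forall_fin_succ, Fin.forall_fin_two]
    show w 0 ∈ _ ∧ w 1 ∈ _ ∧ w 2 ∈ _
    rw [w0, w1, w2]
    exact ⟨R.tr_mem omO, R.tr_mem hb, R.tr_mem hεc⟩
  · rw [Fin.forall_fin_succ, Fin.forall_fin_two]
    show (∀ a, Closed (R.cm.cf a (w 0))) ∧ (∀ a, Closed (R.cm.cf a (w 1))) ∧
      ∀ a, Closed (R.cm.cf a (w 2))
    rw [w0, w1, w2]
    refine ⟨R.tr_closed M.om_closed, R.tr_closed cb, R.tr_closed fun a => ?_⟩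
    rw [M.cf_smul]
    exact Closed_smul ε (cc a) ((hc a).differentiable (by simp))
  · rw [Fin.forall_fin_succ, Fin.forall_fin_two]
    show (∀ x, w 0 x 5 = w 0 x 0 ∧ w 0 x 4 = -w 0 x 1 ∧ w 0 x 3 = w 0 x 2) ∧
      (∀ x, w 1 x 5 = w 1 x 0 ∧ w 1 x 4 = -w 1 x 1 ∧ w 1 x 3 = w 1 x 2) ∧
      ∀ x, w 2 x 5 = w 2 x 0 ∧ w 2 x 4 = -w 2 x 1 ∧ w 2 x 3 = w 2 x 2
    rw [w0, w1, w2]
    refine ⟨R.tr_sd fun x => ?_,
      R.tr_sd fun x => ⟨by rw [(ab x).1, (ab x).2.1], (ab x).2.2.1, (ab x).2.2.2⟩,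
      R.tr_sd fun x => ?_⟩
    · obtain ⟨h0, h5, h4, h3⟩ := pP_F0_iff.1 (M.om_pP x)
      exact ⟨by rw [h0, h5], h4, h3⟩
    · obtain ⟨h5, h4, h3⟩ := sc x
      simp only [Pi.smul_apply, smul_eq_mul, h5, h4, h3, mul_neg, and_self]
  · intro x
    rw [w0, w1, w2]
    refine ⟨by rw [hb1, eS1]; simp, ?_, by rw [hb1, eS1]; simp, ?_, ?_, ?_⟩
    · rw [htε, R.tr_eq]
      show ε * wc x 0 = 0
      rw [(ac x).1, mul_zero]
    · rw [R.tr_eq]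
      show 0 < M.om x 0
      rw [(pP_F0_iff.1 (M.om_pP x)).1]; exact one_pos
    · rw [hb1, eS1]; simpa using ρpos x
    · rw [htε]; exact hε x

/-- from a manifold with two anti-invariant closed forms to `QM` -/
theorem levelA [ConnectedSpace X] [MeasurableSpace X] {wb wc : X → L2} (hb : wb ∈ M.Om)
    (hc : wc ∈ M.Om) (cb : ∀ a, Closed (M.cf a wb)) (cc : ∀ a, Closed (M.cf a wc))
    (ab : ∀ x, wb x 0 = 0 ∧ wb x 5 = 0 ∧ wb x 4 = -wb x 1 ∧ wb x 3 = wb x 2)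
    (ac : ∀ x, wc x 0 = 0 ∧ wc x 5 = 0 ∧ wc x 4 = -wc x 1 ∧ wc x 3 = wc x 2)
    (hind : ∀ x, wb x 1 * wc x 2 - wb x 2 * wc x 1 ≠ 0) (L : LBc M) :
    ∃ (Q : QM X) (Lc : LBc Q.toCM), (B1 M → B1 Q.toCM) ∧ (BP3 M → BP3 Q.toCM) ∧
      (M.pr L.F M.om = 0 → M.pr L.F wb = 0 → M.pr L.F wc = 0 → ∀ j, Q.pr Lc.F (Q.w j) = 0) ∧
      Q.pr Lc.F Lc.F = M.pr L.F L.F ∧
      ((∃ η, M.Sm1 η ∧ L.F = M.dX η) → ∃ η, Q.Sm1 η ∧ Lc.F = Q.dX η) ∧
      ∀ s : X → ℂ, Lc.Sm s → L.Sm s := by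
  obtain ⟨R, ε, Q, hQ, w0, w1, w2⟩ := exists_QM M hb hc cb cc ab ac hind
  refine ⟨Q, ?_⟩
  generalize Q.w = w at w0 w1 w2 ⊢
  rw [hQ]
  have key : ∀ u, R.cm.pr (L.rot R).F (R.tr u) = M.pr L.F u := fun u => by
    rw [L.rot_F, R.pr_tr]
  refine ⟨L.rot R, R.b1, R.bp3, ?_, ?_, ?_, fun s hs => hs⟩
  · intro p0 p1 p2
    rw [Fin.forall_fin_succ, Fin.forall_fin_two]
    show R.cm.pr _ (w 0) = 0 ∧ R.cm.pr _ (w 1) = 0 ∧ R.cm.pr _ (w 2) = 0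
    rw [w0, w1, w2, key, key, key]
    refine ⟨p0, p1, ?_⟩
    unfold CM.pr at p2 ⊢
    simp only [Pi.smul_apply, Q_smul_right, integral_const_mul, p2, mul_zero]
  · rw [L.rot_F, R.pr_tr]
  · rintro ⟨η, h2, h3⟩
    refine ⟨R.tr1 η, fun a => ?_, ?_⟩
    · have h := R.cf1_tr a η
      have h4 : ContDiff ℝ ∞ (M.cf1 a η) := h2 a
      rw [← h] at h4
      exact h4
    · rw [L.rot_F, R.dX_tr, h3]

end Vale.Agent.P247E
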