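import Vale.Agent.P247E.Defs

/-!
# P247E: statements of the elliptic package

Each `XX_statement : Prop` is one row; prove `theorem XX : XX_statement` in your own file (you may
take the statements it depends on as hypotheses).
-/

open scoped ContDiff Topology ENNReal NNReal
open Set MeasureTheory Filter

noncomputable section

namespace Vale.Agent.P247E

open Vale.Agent.P204.GX Vale.Agent.P204.T4
open Vale.Agent.P247.H74 (e)
open Vale.Agent.P247.H306 (LL Sob)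
open Vale.Agent.P363.R.Sob (IsWD)

/-- the standing assumptions, as a binder: a closed manifold and two bundles -/
def ForAll2 (p : ∀ (X : Type) [MetricSpace X] [CompactSpace X] [MeasurableSpace X] [BorelSpace X]
    (M : CM X) (V W : Type) [NormedAddCommGroup V] [InnerProductSpace ℝ V] [FiniteDimensional ℝ V]
    [NormedAddCommGroup W] [InnerProductSpace ℝ W] [FiniteDimensional ℝ W]
    (_ : Bun M V) (_ : Bun M W), Prop) : Prop :=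
  ∀ (X : Type) [MetricSpace X] [CompactSpace X] [MeasurableSpace X] [BorelSpace X]
    (M : CM X) (V W : Type) [NormedAddCommGroup V] [InnerProductSpace ℝ V] [FiniteDimensional ℝ V]
    [NormedAddCommGroup W] [InnerProductSpace ℝ W] [FiniteDimensional ℝ W]
    (E : Bun M V) (F : Bun M W), p X M V W E F

/-- `MUL`: bounded measurable fields of linear maps act on `L²`. -/
def MUL_statement : Prop := ∀ (X : Type) [MetricSpace X] [CompactSpace X] [MeasurableSpace X]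
  [BorelSpace X] (M : CM X) (V W : Type) [NormedAddCommGroup V] [NormedSpace ℝ V]
  [FiniteDimensional ℝ V] [NormedAddCommGroup W] [NormedSpace ℝ W] [FiniteDimensional ℝ W]
  (B : X → V →L[ℝ] W) (C : ℝ), AEStronglyMeasurable B M.mu → (∀ x, ‖B x‖ ≤ C) →
  (∀ f, mulOp M B f =ᵐ[M.mu] fun x => B x (f x)) ∧ ‖mulOp M B‖ ≤ max C 0

/-- `BAS`: smooth sections, jets, the operator on jets. -/
def BAS_statement : Prop := ForAll2 fun X _ _ _ _ M V W _ _ _ _ _ _ E F =>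
  (∀ s ∈ E.Sm, StronglyMeasurable s ∧ (∃ C, ∀ x, ‖s x‖ ≤ C) ∧ StronglyMeasurable (E.jet s) ∧
    (∃ C, ∀ x, ‖E.jet s x‖ ≤ C) ∧ ∃ w : E.H1, E.Rep w s) ∧
  Dense {w : E.H1 | ∃ s ∈ E.Sm, E.Rep w s} ∧
  Dense {f : LL2 M V | ∃ s ∈ E.Sm, (f : X → V) =ᵐ[M.mu] s} ∧
  (∀ s ∈ E.Sm, ∀ t ∈ E.Sm, s =ᵐ[M.mu] t → s = t) ∧
  (∀ w s, E.Rep w s → (E.J w : X → V) =ᵐ[M.mu] s) ∧
  (∀ B, E.Hom F B → StronglyMeasurable B ∧ (∃ C, ∀ x, ‖B x‖ ≤ C) ∧
    ∀ s ∈ E.Sm, (fun x => B x (s x)) ∈ F.Sm) ∧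
  ∀ P : Op E F, StronglyMeasurable P.sym ∧ (∃ C, ∀ x, ‖P.sym x‖ ≤ C) ∧
    (∀ w : E.H1, (P.clm w : X → W) =ᵐ[M.mu]
      fun x => P.sym x (((w : LL2 M (Jt M V)) : X → Jt M V) x)) ∧
    ∀ s ∈ E.Sm, P.app s ∈ F.Sm ∧ (∀ a, F.lo a (P.app s) = locOp (P.Mi a) (P.N a) (E.lo a s)) ∧
      (∀ x, P.sym x (E.jet s x) = P.app s x) ∧
      ∀ w, E.Rep w s → (P.clm w : X → W) =ᵐ[M.mu] P.app s

/-- `ADJ`: existence of the formal adjoint, and integration by parts in `H¹`. -/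
def ADJ_statement : Prop := ForAll2 fun _ _ _ _ _ M V W _ _ _ _ _ _ E F =>
  ∀ P : Op E F, (∃ P' : Op F E, P.IsAdj P' ∧
    ∀ a i y (v : V) (w : W), inner ℝ (P.Mi a i y v) w = - inner ℝ v (P'.Mi a i y w)) ∧
  ∀ P' : Op F E, P.IsAdj P' → (∀ a i y (v : V) (w : W),
      inner ℝ (P.Mi a i y v) w = - inner ℝ v (P'.Mi a i y w)) ∧
    ∀ (w : E.H1) (w' : F.H1),
      inner ℝ (P.clm w) (F.J w' : LL2 M W) = inner ℝ (E.J w : LL2 M V) (P'.clm w')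

/-- `LOC`: `H¹` read in the charts. -/
def LOC_statement : Prop := ForAll2 fun X _ _ _ _ M V W _ _ _ _ _ _ E F =>
  Function.Injective E.J ∧
  (∀ (w : E.H1) (a : M.A), LL 2 (E.lo a (E.J w)) ∧ ∃ Pd : Fin 4 → V4 → V,
    (∀ i, LL 2 (Pd i) ∧ IsWD volume (e i) (E.lo a (E.J w)) (Pd i)) ∧
    ∀ P : Op E F, ∀ᵐ y, F.lo a (P.clm w) y =
      ∑ i, P.Mi a i y (Pd i y) + P.N a y (E.lo a (E.J w) y)) ∧
  (∀ f : LL2 M V, E.SobX 1 f → ∃ w : E.H1, E.J w = f) ∧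
  (∀ f : X → V, (∀ k, E.SobX k f) → ∃ s ∈ E.Sm, f =ᵐ[M.mu] s) ∧
  (∀ f g : X → V, f =ᵐ[M.mu] g ↔ ∀ a, E.lo a f =ᵐ[volume] E.lo a g)

/-- `REL`: Rellich's theorem. -/
def REL_statement : Prop := ForAll2 fun _ _ _ _ _ _ _ _ _ _ _ _ _ _ E _ => IsCompactOperator E.J

/-- `GN4`: the Sobolev embedding `H¹ ⊂ L⁴`. -/
def GN4_statement : Prop := ForAll2 fun _ _ _ _ _ M _ _ _ _ _ _ _ _ E _ =>
  ∃ C : ℝ, 0 ≤ C ∧ ∀ w : E.H1, eLpNorm (E.J w) 4 M.mu ≤ ENNReal.ofReal (C * ‖w‖)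

/-- `CLG`: Gårding's inequality on `ℝ⁴` for symbols of Clifford type. -/
def CLG_statement : Prop := ∀ (V W : Type) [NormedAddCommGroup V] [InnerProductSpace ℝ V]
  [FiniteDimensional ℝ V] [NormedAddCommGroup W] [InnerProductSpace ℝ W] [FiniteDimensional ℝ W]
  (Mi : Fin 4 → V4 → V →L[ℝ] W), (∀ i, ContDiff ℝ ∞ (Mi i)) →
  (∀ y (ξ : V4), ξ ≠ 0 → ∃ c : ℝ, 0 < c ∧ ∀ v, ‖(∑ i, ξ i • Mi i y) v‖ = c * ‖v‖) →
  Vale.Agent.P247.H447.E5.Gar Mi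

/-- `GAR`: the global Gårding inequality. -/
def GAR_statement : Prop := ForAll2 fun _ _ _ _ _ _ _ _ _ _ _ _ _ _ E F =>
  ∀ P : Op E F, P.Gar → ∃ C : ℝ, 0 < C ∧ ∀ w : E.H1, ‖w‖ ≤ C * (‖P.clm w‖ + ‖E.J w‖)

/-- `WS0`: weak solutions in `L²_loc` of a system with Gårding's inequality are in `H¹_loc`
(Friedrichs' lemma). -/
def WS0_statement : Prop := ∀ (V W : Type) [NormedAddCommGroup V] [InnerProductSpace ℝ V]
  [FiniteDimensional ℝ V] [NormedAddCommGroup W] [InnerProductSpace ℝ W] [FiniteDimensional ℝ W]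
  (Mi : Fin 4 → V4 → V →L[ℝ] W), (∀ i, ContDiff ℝ ∞ (Mi i)) → Vale.Agent.P247.H447.E5.Gar Mi →
  ∀ (f : V4 → V) (g : V4 → W), LL 2 f → LL 2 g →
  (∀ φ : V4 → W, ContDiff ℝ ∞ φ → HasCompactSupport φ →
    ∫ y, ∑ i, (inner ℝ (Mi i y (f y)) (fderiv ℝ φ y (e i)) +
      inner ℝ (fderiv ℝ (Mi i) y (e i) (f y)) (φ y)) = - ∫ y, inner ℝ (g y) (φ y)) →
  Sob 1 f

/-- `WS`: weak solutions are strong solutions. -/
def WS_statement : Prop := ForAll2 fun X _ _ _ _ M V W _ _ _ _ _ _ E F =>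
  ∀ (P : Op E F) (P' : Op F E), P.IsAdj P' → P.Gar → ∀ (f : LL2 M V) (g : LL2 M W),
    (∀ t ∈ F.Sm, ∫ x, inner ℝ ((f : X → V) x) (P'.app t x) ∂M.mu =
      ∫ x, inner ℝ ((g : X → W) x) (t x) ∂M.mu) →
    ∃ w : E.H1, E.J w = f ∧ P.clm w = g

/-- `REG`: elliptic regularity. -/
def REG_statement : Prop := ForAll2 fun X _ _ _ _ M V W _ _ _ _ _ _ E F =>
  ∀ P : Op E F, P.Gar → ∀ w : E.H1,
    (∀ k, F.SobX k (P.clm w) → E.SobX (k + 1) (E.J w)) ∧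
    ∀ g ∈ F.Sm, (P.clm w : X → W) =ᵐ[M.mu] g → ∃ s ∈ E.Sm, E.Rep w s ∧ P.app s = g

/-- `FRED`: the Fredholm property; kernel and cokernel consist of smooth sections. -/
def FRED_statement : Prop := ForAll2 fun X _ _ _ _ M V W _ _ _ _ _ _ E F =>
  ∀ (P : Op E F) (P' : Op F E), P.IsAdj P' → P.Gar → P'.Gar →
    FiniteDimensional ℝ (LinearMap.ker (P.clm : E.H1 →ₗ[ℝ] LL2 M W)) ∧
    IsClosed (Set.range P.clm) ∧
    FiniteDimensional ℝ (LL2 M W ⧸ LinearMap.range (P.clm : E.H1 →ₗ[ℝ] LL2 M W)) ∧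
    (∀ g : LL2 M W, g ∈ Set.range P.clm ↔
      ∀ t ∈ P'.kerS, ∫ x, inner ℝ ((g : X → W) x) (t x) ∂M.mu = 0) ∧
    FiniteDimensional ℝ (Submodule.span ℝ P.kerS) ∧
    FiniteDimensional ℝ (Submodule.span ℝ P'.kerS) ∧
    P.ind = (Module.finrank ℝ (Submodule.span ℝ P.kerS) : ℤ) -
      Module.finrank ℝ (Submodule.span ℝ P'.kerS)

/-- `CLA`: the adjoint of an operator of Clifford type between bundles of the same rank is of
Clifford type. -/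
def CLA_statement : Prop := ForAll2 fun _ _ _ _ _ _ V W _ _ _ _ _ _ E F =>
  Module.finrank ℝ V = Module.finrank ℝ W → ∀ (P : Op E F) (P' : Op F E), P.IsAdj P' →
    P.Cliff → P'.Cliff

/-- `HTP`: homotopy invariance of the index. -/
def HTP_statement : Prop := ForAll2 fun _ _ _ _ _ _ V W _ _ _ _ _ _ E F =>
  Module.finrank ℝ V = Module.finrank ℝ W → ∀ P : ℝ → Op E F, (∀ t ∈ Icc (0 : ℝ) 1, (P t).Cliff) →
    (∀ a i, ContinuousOn (fun q : ℝ × V4 => (P q.1).Mi a i q.2) (Icc 0 1 ×ˢ univ)) →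
    (∀ a, ContinuousOn (fun q : ℝ × V4 => (P q.1).N a q.2) (Icc 0 1 ×ˢ univ)) →
    (P 0).ind = (P 1).ind

/-- `ZER`: operators with the same symbol have the same index; adding a homomorphism. -/
def ZER_statement : Prop := ForAll2 fun _ _ _ _ _ M V W _ _ _ _ _ _ E F =>
  (∀ (P : Op E F) (B : _ → V →L[ℝ] W), E.Hom F B → ∃ P₁ : Op E F, P₁.Mi = P.Mi ∧
    (∀ s x, P₁.app s x = P.app s x + B x (s x)) ∧ P₁.clm = P.clm + (mulOp M B).comp E.J) ∧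
  (Module.finrank ℝ V = Module.finrank ℝ W → ∀ P P₁ : Op E F, P.Cliff → P₁.Mi = P.Mi →
    P₁.ind = P.ind)

/-- `FBU0`: the Fredholm Borsuk-Ulam theorem for positive real index. -/
def FBU0_statement : Prop := ∀ (H₁ H₂ : Type) [NormedAddCommGroup H₁] [InnerProductSpace ℝ H₁]
  [CompleteSpace H₁] [NormedAddCommGroup H₂] [InnerProductSpace ℝ H₂] [CompleteSpace H₂]
  (D : H₁ →L[ℝ] H₂), FiniteDimensional ℝ (LinearMap.ker (D : H₁ →ₗ[ℝ] H₂)) →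
  IsClosed (Set.range D) → FiniteDimensional ℝ (H₂ ⧸ LinearMap.range (D : H₁ →ₗ[ℝ] H₂)) →
  1 ≤ (D : H₁ →ₗ[ℝ] H₂).index →
  ∀ K : H₁ → H₂, ContinuousOn K (Metric.sphere 0 1) → (∀ w, ‖w‖ = 1 → K (-w) = -K w) →
  (∃ S : Set H₂, IsCompact S ∧ ∀ w, ‖w‖ = 1 → K w ∈ S) → ∃ w, ‖w‖ = 1 ∧ D w + K w = 0

end Vale.Agent.P247E
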