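import Vale.Agent.P247E.QDirac
import Vale.Agent.P247E.Sta
import Vale.Agent.P247X.Spec

/-!
# P247E: statements of the Seiberg-Witten block

Each `XX_statement : Prop` is one row; prove `theorem XX : XX_statement` in your own file (you may
take the statements it depends on as hypotheses, or import their proofs when they are landed).
-/

set_option linter.all false

open scoped ContDiff Topology ENNReal ComplexConjugate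
open Set MeasureTheory Filter

noncomputable section

namespace Vale.Agent.P247E

open Vale.Agent.P204.GX Vale.Agent.P204.T4
open Vale.Agent.P247.H74 (e)
open Vale.Agent.P247.H647 (Sp En sig pau omM hat len jz symb cov P3)

/-! ## Definitions -/

section defs

variable {X : Type} [MetricSpace X]

/-- the covariant derivative of a section of `L` for the connection `A + a` -/
def LBc.cva {M : CM X} (L : LBc M) (a : X → V4) (s : X → ℂ) (x : X) (c : Fin 4) : ℂ :=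
  L.cv s x c - Complex.I * (a x c : ℂ) * s x

/-- the truncation factor: `1` for `t ≤ R²`, `R² / t` for `t ≥ R²` -/
def gq (R t : ℝ) : ℝ := R ^ 2 / max t (R ^ 2)

/-- the truncated quadratic map -/
def qT (R : ℝ) (ψ : Sp) (k : Fin 3) : ℝ := gq R (‖ψ‖ ^ 2) * (inner ℂ ψ (pau k ψ)).re

/-- `Tᵗ u`, the components of `∑ uⱼ wⱼ` -/
def QM.nu (Q : QM X) (u : Fin 3 → ℝ) (x : X) : Fin 3 → ℝ := Matrix.vecMul u (Q.T x)

/-- eigenspinors for the direction `u` (a unit vector), with bounds `B`; `Z` is the zero order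
term added to the Dirac operator -/
structure Eig (Q : QM X) (B : ℝ) (Z : X → En) (u : Fin 3 → ℝ) where
  fp : X → Sp
  fm : X → Sp
  gp : X → Sp
  gm : X → Sp
  h : Fin 3 → X → ℂ
  fp_sm : SmF Q.toCM fp
  fm_sm : SmF Q.toCM fm
  gp_sm : SmF Q.toCM gp
  gm_sm : SmF Q.toCM gm
  h_sm : ∀ j, SmF Q.toCM (h j)
  lam_ge : ∀ x, B⁻¹ ≤ len (Q.nu u x)
  lam_le : ∀ x, len (Q.nu u x) ≤ B
  fp_norm : ∀ x, ‖fp x‖ ^ 2 = 2 * len (Q.nu u x)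
  fm_norm : ∀ x, ‖fm x‖ ^ 2 = 2 * len (Q.nu u x)
  fp_eig : ∀ x, P3 (Q.nu u x) (fp x) = (len (Q.nu u x) : ℂ) • fp x
  fm_eig : ∀ x, P3 (Q.nu u x) (fm x) = -(len (Q.nu u x) : ℂ) • fm x
  gp_eq : ∀ x, gp x = (((2 * len (Q.nu u x))⁻¹ : ℝ) : ℂ) • fp x
  gm_eq : ∀ x, gm x = (((2 * len (Q.nu u x))⁻¹ : ℝ) : ℂ) • fm x
  dec : ∀ x (ψ : Sp), ψ = inner ℂ (gp x) ψ • fp x + inner ℂ (gm x) ψ • fm x
  ddec : ∀ x (ψ : Sp) c, inner ℂ (df Q.toCM gp x c) ψ • fp x + inner ℂ (gp x) ψ • df Q.toCM fp x c +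
    (inner ℂ (df Q.toCM gm x c) ψ • fm x + inner ℂ (gm x) ψ • df Q.toCM fm x c) = 0
  dir_fp : ∀ x, ∑ c, sig c (df Q.toCM fp x c) + Z x (fp x) = 0
  Z_fm : ∀ x, Z x (fm x) = 0
  dfm_le : ∀ x c, ‖df Q.toCM fm x c‖ ≤ B
  h_eq : ∀ x k, ∑ j, h j x * (Q.T x j k : ℂ) = inner ℂ (fp x) (pau k (fm x))
  dh_le : ∀ j x c, ‖df Q.toCM (h j) x c‖ ≤ B

/-- the family of zero order terms -/
structure ZFam (Q : QM X) (B : ℝ) (Z : (Fin 3 → ℝ) → X → En) : Prop where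
  pos : 0 < B
  hom : ∀ c (L : LBc Q.toCM), L.bp.Hom (Q.bm L) fun x => reL (Z c x)
  bd : ∀ c x, ‖Z c x‖ ≤ B
  cont : ∀ c₀ (ε : ℝ), 0 < ε → ∀ᶠ c in 𝓝 c₀, ∀ x, ‖Z c x - Z c₀ x‖ ≤ ε
  eig : ∀ c, 1 ≤ len c → Nonempty (Eig Q B (Z c) ((len c)⁻¹ • c))

variable [MeasurableSpace X] [BorelSpace X]

/-- the covariant derivative of `w ∈ H¹` for the connection `A + a` -/
def LBc.nabA {M : CM X} (L : LBc M) (w : L.bp.H1) (a : X → V4) (x : X) (c : Fin 4) : Sp :=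
  (L.nabH c w : X → Sp) x - (Complex.I * (a x c : ℂ)) • (L.bp.J w : X → Sp) x

/-- the one-form of `φ ∈ H¹` -/
def QM.av (Q : QM X) (φ : Q.t1.H1) (x : X) : V4 := vec ((Q.t1.J φ : X → Sp) x)

/-- the self-dual part of the curvature of `A + a` -/
def QM.Fa (Q : QM X) (L : LBc Q.toCM) (H : Op Q.t1 Q.t0) (φ : Q.t1.H1) (x : X) (k : Fin 3) : ℝ :=
  L.Fh x k + vec ((H.clm φ : X → Sp) x) k.succ

/-- weak solutions of the truncated system -/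
structure WSol (Q : QM X) (L : LBc Q.toCM) (H : Op Q.t1 Q.t0) (Z : (Fin 3 → ℝ) → X → En) (R : ℝ)
    (w : L.bp.H1) (φ : Q.t1.H1) (c : Fin 3 → ℝ) : Prop where
  dirac : ∀ᵐ x ∂Q.mu, ∑ d, sig d (L.nabA w (Q.av φ) x d) + Z c x ((L.bp.J w : X → Sp) x) = 0
  div : ∀ᵐ x ∂Q.mu, vec ((H.clm φ : X → Sp) x) 0 = 0
  curv : ∀ᵐ x ∂Q.mu, ∀ k, Q.Fa L H φ x k = Q.nu c x k - (1 / 2) * qT R ((L.bp.J w : X → Sp) x) k
  mean : ∀ j, ∫ x, ∑ k, Q.T x j k * Q.Fa L H φ x k ∂Q.mu = 0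

/-- `G` inverts the Hodge operator -/
structure IsGreen (Q : QM X) (H : Op Q.t1 Q.t0) (G : LL2 Q.toCM Sp →L[ℝ] Q.t1.H1) : Prop where
  left : ∀ φ, G (H.clm φ) = φ
  right : ∀ g : LL2 Q.toCM Sp, ∫ x, vec ((g : X → Sp) x) 0 ∂Q.mu = 0 →
    (∀ j, ∫ x, ∑ k, Q.T x j k * vec ((g : X → Sp) x) k.succ ∂Q.mu = 0) → H.clm (G g) = g

end defs

/-- the standing assumptions, as a binder -/
def ForAllQ (p : ∀ (X : Type) [MetricSpace X] [CompactSpace X] [ConnectedSpace X]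
    [MeasurableSpace X] [BorelSpace X] (Q : QM X) (_ : LBc Q.toCM), Prop) : Prop :=
  ∀ (X : Type) [MetricSpace X] [CompactSpace X] [ConnectedSpace X] [MeasurableSpace X]
    [BorelSpace X] (Q : QM X) (L : LBc Q.toCM), p X Q L

/-! ## Basic facts -/

/-- `BQ1`: smooth functions, sections and forms are bounded and measurable; Leibniz rules. -/
def BQ1_statement : Prop := ForAllQ fun X _ _ _ _ _ Q L =>
  (∀ (E : Type) [NormedAddCommGroup E] [NormedSpace ℝ E] [FiniteDimensional ℝ E] (f : X → E),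
    SmF Q.toCM f → Continuous f ∧ (∀ c, StronglyMeasurable fun x => df Q.toCM f x c) ∧
      ∃ C, ∀ x c, ‖f x‖ ≤ C ∧ ‖df Q.toCM f x c‖ ≤ C) ∧
  (∀ s : X → ℂ, L.Sm s → StronglyMeasurable s ∧ (Continuous fun x => ‖s x‖) ∧
    (∀ c, StronglyMeasurable fun x => L.cv s x c) ∧ ∃ C, ∀ x c, ‖s x‖ ≤ C ∧ ‖L.cv s x c‖ ≤ C) ∧
  (∀ u ∈ Q.Om, StronglyMeasurable u ∧ ∃ C, ∀ x, ‖u x‖ ≤ C) ∧
  (∀ η, Q.Sm1 η → StronglyMeasurable η ∧ ∃ C, ∀ x, ‖η x‖ ≤ C) ∧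
  (∀ (f ψ : X → Sp), SmF Q.toCM f → L.Sm ψ → L.Sm (fun x => inner ℂ (f x) (ψ x)) ∧
    ∀ x c, L.cv (fun x => inner ℂ (f x) (ψ x)) x c =
      inner ℂ (f x) (L.cv ψ x c) + inner ℂ (df Q.toCM f x c) (ψ x)) ∧
  (∀ (h : X → ℂ) (f : X → Sp), SmF Q.toCM h → SmF Q.toCM f →
    SmF Q.toCM (fun x => conj (h x) • f x) ∧ ∀ x c, df Q.toCM (fun x => conj (h x) • f x) x c =
      conj (df Q.toCM h x c) • f x + conj (h x) • df Q.toCM f x c) ∧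
  (∃ S : Fin 3 → Fin 3 → X → ℝ, (∀ k j, SmF Q.toCM (S k j)) ∧
    ∀ x k k', ∑ j, S k j x * Q.T x j k' = if k = k' then 1 else 0)

/-- `BQ2`: forms; the curvature; the operators on `H¹`. -/
def BQ2_statement : Prop := ForAllQ fun X _ _ _ _ _ Q L =>
  (∀ j, Q.w j ∈ Q.Om) ∧ (∀ j x (A : L2), P204.T4.Q A (Q.w j x) = ∑ k, Q.T x j k * hat (ent A) k) ∧
  L.F ∈ Q.Om ∧ (∀ a, Q.cf a L.F = d1 fun y i => L.A a y (e i)) ∧ (∀ a, Closed (Q.cf a L.F)) ∧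
  (LBc.triv Q.toCM).F = 0 ∧
  (∀ φ : X → Sp, φ ∈ Q.t1.Sm ↔ Q.Sm1 fun x => vec (φ x)) ∧
  (∀ f : X → ℝ, Q.Sm0 f → Q.Sm1 (df Q.toCM f) ∧ Q.dX (df Q.toCM f) = 0) ∧
  (∀ η, Q.Sm1 η → L.bp.Hom (Q.bm L) fun x => reL ((-Complex.I) • sgm (η x))) ∧
  (Q.dirac L).Cliff ∧
  (∀ (w : L.bp.H1) (s : X → Sp), s ∈ L.bp.Sm → L.bp.Rep w s → ∀ c,
    (L.nabH c w : X → Sp) =ᵐ[Q.mu] fun x => L.cv s x c) ∧
  ∀ w : L.bp.H1, ((Q.dirac L).clm w : X → Sp) =ᵐ[Q.mu]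
    fun x => ∑ c, sig c ((L.nabH c w : X → Sp) x)

/-! ## The Stokes identity -/

/-- `JAC`: the Jacobian form of a smooth section. -/
def JAC_statement : Prop := ForAllQ fun X _ _ _ _ _ Q L =>
  ∀ (a : X → V4) (s : X → ℂ), Q.Sm1 a → L.Sm s →
    Q.Sm1 (fun x c => (conj (s x) * L.cva a s x c).im) ∧
    ∀ x, Q.dX (fun x c => (conj (s x) * L.cva a s x c).im) x =
      ofEnt (jz (L.cva a s x)) - ‖s x‖ ^ 2 • (L.F x + Q.dX a x)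

/-- `UNI`: a line bundle with a unit section has exact curvature. -/
def UNI_statement : Prop := ForAllQ fun X _ _ _ _ _ Q L =>
  ∀ s : X → ℂ, L.Sm s → (∀ x, ‖s x‖ = 1) → (∃ η, Q.Sm1 η ∧ L.F = Q.dX η) ∧ Q.pr L.F L.F = 0

/-- `ST1`: the Stokes identity in `H¹`. -/
def ST1_statement : Prop := ForAllQ fun X _ _ _ _ _ Q L =>
  ∀ H : Op Q.t1 Q.t0, Q.IsHod H → ∀ (w : L.bp.H1) (φ : Q.t1.H1) (f : X → Sp), SmF Q.toCM f → ∀ j,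
    (∀ k, Integrable (fun x => hat (jz fun c => inner ℂ (f x) (L.nabA w (Q.av φ) x c) +
      inner ℂ (df Q.toCM f x c) ((L.bp.J w : X → Sp) x)) k) Q.mu) ∧
    (∀ k, Integrable (fun x => ‖inner ℂ (f x) ((L.bp.J w : X → Sp) x)‖ ^ 2 * Q.Fa L H φ x k) Q.mu) ∧
    ∫ x, ∑ k, Q.T x j k * (hat (jz fun c => inner ℂ (f x) (L.nabA w (Q.av φ) x c) +
      inner ℂ (df Q.toCM f x c) ((L.bp.J w : X → Sp) x)) k -
      ‖inner ℂ (f x) ((L.bp.J w : X → Sp) x)‖ ^ 2 * Q.Fa L H φ x k) ∂Q.mu = 0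

/-- `KATO`: the Kato-Sobolev inequality; the constant does not depend on `a`. -/
def KATO_statement : Prop := ForAllQ fun X _ _ _ _ _ Q L =>
  ∃ C : ℝ, 0 ≤ C ∧ ∀ (w : L.bp.H1) (a : X → V4), MemLp a 4 Q.mu →
    (∀ c, MemLp (fun x => L.nabA w a x c) 2 Q.mu) ∧
    ∀ B : ℝ, 0 ≤ B → ∫ x, (∑ c, ‖L.nabA w a x c‖ ^ 2 + ‖(L.bp.J w : X → Sp) x‖ ^ 2) ∂Q.mu ≤ B ^ 2 →
      eLpNorm (L.bp.J w : X → Sp) 4 Q.mu ≤ ENNReal.ofReal (C * B)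

/-! ## The Hodge operator and the index -/

/-- `HODX` -/
def HODX_statement : Prop := ForAllQ fun _ _ _ _ _ _ Q _ =>
  (∃ H : Op Q.t1 Q.t0, Q.IsHod H) ∧ ∀ H : Op Q.t1 Q.t0, Q.IsHod H → H.Cliff

/-- `SOLV` -/
def SOLV_statement : Prop := ForAllQ fun _ _ _ _ _ _ Q _ => B1 Q.toCM → BP3 Q.toCM →
  ∀ H : Op Q.t1 Q.t0, Q.IsHod H →
    (∃ G, IsGreen Q H G) ∧ (Q.dirac (LBc.triv Q.toCM)).ind = 4

/-- `IND` (block I) -/
def IND_statement : Prop := ForAllQ fun _ _ _ _ _ _ Q L =>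
  ((Q.dirac L).ind : ℝ) =
    (Q.dirac (LBc.triv Q.toCM)).ind + Q.pr L.F L.F / (4 * Real.pi ^ 2)

/-! ## The nonlinear system -/

/-- `EIG` -/
def EIG_statement : Prop := ForAllQ fun _ _ _ _ _ _ Q _ => ∃ B Z, ZFam Q B Z

/-- `EXIST` -/
def EXIST_statement : Prop := ForAllQ fun _ _ _ _ _ _ Q L =>
  ∀ (H : Op Q.t1 Q.t0) G B Z, Q.IsHod H → IsGreen Q H G → ZFam Q B Z →
    (∀ j, Q.pr L.F (Q.w j) = 0) → 1 ≤ (Q.dirac L).ind → ∀ ρ R : ℝ, 0 < ρ → 0 < R →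
    ∃ w φ c, WSol Q L H Z R w φ c ∧ ‖w‖ = ρ

/-- `APR` -/
def APR_statement : Prop := ForAllQ fun _ _ _ _ _ _ Q L =>
  ∀ (H : Op Q.t1 Q.t0) G B Z, Q.IsHod H → IsGreen Q H G → ZFam Q B Z →
    (∃ C : ℝ, ∀ R w φ c, 0 < R → WSol Q L H Z R w φ c → len c ≤ C * ‖w‖ ^ 2) ∧
    ∀ r₀ : ℝ, ∃ ρ₀ R₀ : ℝ, ∀ R w φ c, 0 < R → R₀ ≤ R → WSol Q L H Z R w φ c → len c ≤ r₀ →
      ‖w‖ ≤ ρ₀

/-- `VAN` -/
def VAN_statement : Prop := ForAllQ fun X _ _ _ _ _ Q L =>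
  ∀ (H : Op Q.t1 Q.t0) B Z, Q.IsHod H → ZFam Q B Z →
    ∃ r₀ C : ℝ, ∀ R w φ c, 0 < R → WSol Q L H Z R w φ c → r₀ ≤ len c → C * len c ≤ R ^ 2 →
      (∀ᵐ x ∂Q.mu, ∀ k, Q.Fa L H φ x k = 0) ∧
      ∃ g : X → Sp, SmF Q.toCM g ∧ ∀ᵐ x ∂Q.mu, ‖inner ℂ (g x) ((L.bp.J w : X → Sp) x)‖ = 1

/-- `FIN` -/
def FIN_statement : Prop := ForAllQ fun X _ _ _ _ _ Q L =>
  ∀ (H : Op Q.t1 Q.t0) B Z, Q.IsHod H → ZFam Q B Z → ∀ R w φ c, WSol Q L H Z R w φ c →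
    (∀ᵐ x ∂Q.mu, ∀ k, Q.Fa L H φ x k = 0) → ∀ g : X → Sp, SmF Q.toCM g →
    (∀ᵐ x ∂Q.mu, ‖inner ℂ (g x) ((L.bp.J w : X → Sp) x)‖ = 1) →
    ∃ s : X → ℂ, L.Sm s ∧ ∀ x, ‖s x‖ = 1

/-- the theorem on `QM` -/
def TRIV_statement : Prop := ForAllQ fun X _ _ _ _ _ Q L => B1 Q.toCM → BP3 Q.toCM →
  (∀ j, Q.pr L.F (Q.w j) = 0) → -(16 * Real.pi ^ 2) < Q.pr L.F L.F →
  (∃ s : X → ℂ, L.Sm s ∧ ∀ x, ‖s x‖ = 1) ∧ Q.pr L.F L.F = 0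

/-- `ASMR` -/
def ASMR_statement : Prop := HODX_statement → SOLV_statement → IND_statement → EIG_statement →
  EXIST_statement → APR_statement → VAN_statement → FIN_statement → UNI_statement →
  TRIV_statement

/-! ## The dictionary -/

open Vale.Agent.P247X Vale.Agent.P247.SCY in
/-- `DICT`: a property of all pairs `(Q, L)` can be used on a manifold with a triple and a line
bundle. -/
def DICT_statement : Prop := ∀ (X : Type) [i : Cl4 X] (μ : HS.Form X 4), HS.Volume μ →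
  ∀ w : Tri X, HS.Hypersymplectic μ w → ∀ L : LB X,
  ∃ (d : MetricSpace X) (_ : d.toPseudoMetricSpace.toUniformSpace.toTopologicalSpace =
      i.toTopologicalSpace) (Q : QM X) (Lc : LBc Q.toCM),
    (B1Zero X → B1 Q.toCM) ∧ (HS.BPlusLe3 μ → BP3 Q.toCM) ∧
    ((∀ j, HS.pair μ L.F (w j) = 0) → ∀ j, Q.pr Lc.F (Q.w j) = 0) ∧
    Q.pr Lc.F Lc.F = 4 * Real.pi ^ 2 * HS.pair μ L.F L.F ∧
    (HS.Exact L.F → ∃ η, Q.Sm1 η ∧ Lc.F = Q.dX η) ∧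
    ((∃ s : X → ℂ, Lc.Sm s ∧ ∀ x, ‖s x‖ = 1) → L.Triv)

/-- `RF`: the statements of the interface file -/
def RF_statement : Prop := DICT_statement → BQ2_statement → TRIV_statement →
  P247X.ROOT_statement ∧ P247X.FLAT_statement

end Vale.Agent.P247E
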