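import Vale.Agent.P247E.DB2
import Vale.Agent.P247E.DQ2
import Vale.Agent.P247E.QSta

/-!
# P247E, row `DICT`
-/

set_option linter.all false

open scoped ContDiff Topology Manifold
open Set Filter MeasureTheory

noncomputable section

namespace Vale.Agent.P247E

open Vale.Agent.P204.T4 Vale.Agent.P204.Mfd Vale.Agent.P247.SCY Vale.Agent.P204.GX
open Vale.Agent.P247X (LB B1Zero Cl4 Tri)

theorem anti_comp0 {E : L2} (h : pM J0 E = E) :
    E 0 = 0 ∧ E 5 = 0 ∧ E 4 = -E 1 ∧ E 3 = E 2 := by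
  have h1 : pull J0 E = -E := by
    unfold pM at h
    have h2 : pull J0 E = E - (2 : ℝ) • ((1 / 2 : ℝ) • (E - pull J0 E)) := by module
    rw [h] at h2
    rw [h2]; module
  rw [pull_J0] at h1
  have e0 := congrFun h1 0
  have e1 := congrFun h1 1
  have e2 := congrFun h1 2
  have e5 := congrFun h1 5
  simp only [Nat.succ_eq_add_one, Nat.reduceAdd, Fin.isValue, Matrix.cons_val_zero, Pi.neg_apply,
    Matrix.cons_val_one, Matrix.cons_val, neg_inj] at e0 e1 e2 e5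
  exact ⟨by linarith only [e0], by linarith only [e5], e1, e2⟩

theorem ind_of_dsc {B C : L2} (hB : B 0 = 0 ∧ B 5 = 0 ∧ B 4 = -B 1 ∧ B 3 = B 2)
    (hC : C 0 = 0 ∧ C 5 = 0 ∧ C 4 = -C 1 ∧ C 3 = C 2) (h : 0 < dsc B C) :
    B 1 * C 2 - B 2 * C 1 ≠ 0 := by
  obtain ⟨b0, b5, b4, b3⟩ := hB
  obtain ⟨c0, c5, c4, c3⟩ := hC
  have h2 : dsc B C = 4 * (B 1 * C 2 - B 2 * C 1) ^ 2 := by
    simp only [dsc, Q, b0, b5, b4, b3, c0, c5, c4, c3]; ring
  intro h0
  rw [h2, h0] at h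
  norm_num at h

theorem dict : DICT_statement := by
  intro X i μ hμ w hw L
  have hpos : TriPos μ (w 2) (w 0) (w 1) := (tri_of_posDef hw.posDef).rot
  have hdef := defAt_of_triPos hpos
  set J : EndField X := Jf (w 2) (w 0) (w 1) with hJdef
  have hJ : AlmostComplex J := Jf_almostComplex hdef (hw.smooth 2) (hw.smooth 0) (hw.smooth 1)
  have hT : Tames (w 2) J := Jf_tames hdef
  have hS : SmoothForm (w 2) := hw.smooth 2
  have hC : ClosedForm (w 2) := hw.closed 2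
  obtain ⟨A, k, hk⟩ := exists_finAtlas_in hJ L.U L.opn L.cov
  letI := A.metric
  have hbM := fx_anti A hJ hT (fun x u v => Jf_anti_B hdef x u v)
  have hcM := fx_anti A hJ hT (fun x u v => Jf_anti_C hdef x u v)
  have hh0 : ∀ x, 0 < hx A (w 2) μ x := by
    intro x
    have h1 := hpos x 1 0 0 (Or.inl one_ne_zero)
    have h2 : 0 < HS.quot μ (w 2) (w 2) x := by linarith
    rw [quot_eq A hJ hT] at h2
    have h3 : 0 < Q (fx A (w 2) (w 2) x) (fx A (w 2) (w 2) x) := by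
      rw [Q_self_split isCx_J0 CM.posJ0, ← om_eq_fx A hJ hS hC hT, CM.om_pP, Q_F0]
      have := CM.Q_pM_self_nonneg ((CMA A hJ hS hC hT).om x)
      linarith
    exact (div_pos_iff_of_pos_left h3).1 h2
  have hpr := fun a b => pair_eq A hJ hS hC hT hμ.smooth hh0 a b
  have hind : ∀ x, fx A (w 2) (w 0) x 1 * fx A (w 2) (w 1) x 2 -
      fx A (w 2) (w 0) x 2 * fx A (w 2) (w 1) x 1 ≠ 0 := by
    intro x
    refine ind_of_dsc (anti_comp0 (hbM x)) (anti_comp0 (hcM x)) ?_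
    obtain ⟨s, hs⟩ := hdef x
    rw [fx_eq, fx_eq]
    exact (def3_pull hs (det_frame_ne A hJ hT x)).dsc_pos
  obtain ⟨Q, Lc, q1, q2, q3, q4, q5, q6⟩ := levelA (CMA A hJ hS hC hT)
    (fx_mem A hJ hS hC hT (hw.smooth 0)) (fx_mem A hJ hS hC hT (hw.smooth 1))
    (fx_closed A hJ hS hC hT (hw.smooth 0) (hw.closed 0))
    (fx_closed A hJ hS hC hT (hw.smooth 1) (hw.closed 1))
    (fun x => anti_comp0 (hbM x)) (fun x => anti_comp0 (hcM x)) hind
    (toLBc L A k hk hJ hS hC hT)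
  have hF := toLBc_F L A k hk hJ hS hC hT
  have hsm : ∀ (c : ℝ) (u v : X → L2), (CMA A hJ hS hC hT).pr (c • u) v =
      c * (CMA A hJ hS hC hT).pr u v := fun c u v => by
    unfold CM.pr
    simp only [Pi.smul_apply, Q_smul_left, integral_const_mul]
  have hsm' : ∀ (c : ℝ) (u v : X → L2), (CMA A hJ hS hC hT).pr u (c • v) =
      c * (CMA A hJ hS hC hT).pr u v := fun c u v => by
    unfold CM.pr
    simp only [Pi.smul_apply, Q_smul_right, integral_const_mul]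
  refine ⟨A.metric, rfl, Q, Lc, fun h => q1 (b1_of A hJ hS hC hT h), fun h => q2 ?_,
    fun h => q3 ?_ ?_ ?_, ?_, fun h => q5 ?_, ?_⟩
  · rintro ⟨c, hc, hp⟩
    refine h ⟨fun j => A.back (w 2) (c j), fun j => ⟨back_smooth A hJ hS hC hT (hc j).1,
      back_closed A hJ hS hC hT (hc j).1 (hc j).2⟩, ?_⟩
    simp only [hpr, fx_back A hJ hT]
    exact hp
  · rw [hF, hsm, om_eq_fx, ← hpr, h, mul_zero]
  · rw [hF, hsm, ← hpr, h, mul_zero]
  · rw [hF, hsm, ← hpr, h, mul_zero]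
  · rw [q4, hF, hsm, hsm', ← hpr]; ring
  · obtain ⟨η, h1, h2⟩ := dX_of_exact A hJ hS hC hT h
    refine ⟨(2 * Real.pi) • η, fun a => ?_, ?_⟩
    · rw [CM.cf1_smul]; exact (h1 a).const_smul (2 * Real.pi)
    · rw [hF, h2, CM.dX_smul _ _ h1]
  · rintro ⟨s, h1, h2⟩
    exact triv_of L A k hk hJ hS hC hT (q6 s h1) h2

end Vale.Agent.P247E
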