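import Vale.Agent.P247.H647.Alg

/-!
# P247E, `EIG`: the algebra of the eigenspinors and the universal smooth maps
-/

set_option linter.all false

open scoped ContDiff Topology ComplexConjugate
open Set Filter

noncomputable section

namespace Vale.Agent.P247E.QEig

open Vale.Agent.P247.H647

/-! ## Algebra -/

theorem rsmul (c : ℝ) (u : Sp) : c • u = (c : ℂ) • u := by
  ext i; simp

theorem jf_add (f g : Sp) : jf (f + g) = jf f + jf g := by
  ext i; fin_cases i <;> simp [jf, add_comm]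

theorem jf_rsmul (c : ℝ) (f : Sp) : jf (c • f) = c • jf f := by
  ext i; fin_cases i <;> simp [jf]

/-- `jf` as a real linear map -/
def jfL : Sp →L[ℝ] Sp :=
  LinearMap.toContinuousLinearMap
    { toFun := jf
      map_add' := jf_add
      map_smul' := jf_rsmul }

theorem jfL_apply (f : Sp) : jfL f = jf f := rfl

theorem norm_jf_sq (f : Sp) : ‖jf f‖ ^ 2 = ‖f‖ ^ 2 := by
  rw [norm_sq_sp, norm_sq_sp, jf0, jf1, norm_neg, RCLike.norm_conj, RCLike.norm_conj, add_comm]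

theorem P3_jf {ν : Fin 3 → ℝ} {f : Sp} {l : ℝ} (h : P3 ν f = (l : ℂ) • f) :
    P3 ν (jf f) = -(l : ℂ) • jf f := by
  have h0 := congrArg (fun v : Sp => conj (v 0)) h
  have h1 := congrArg (fun v : Sp => conj (v 1)) h
  simp only [P3_fin, PiLp.smul_apply, smul_eq_mul, Matrix.cons_val_zero, Matrix.cons_val_one,
    map_add, map_mul, map_sub, Complex.conj_ofReal, Complex.conj_I] at h0 h1
  ext i
  fin_cases i
  · simp only [P3_fin, jf0, jf1, PiLp.smul_apply, smul_eq_mul, Fin.zero_eta,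
      Matrix.cons_val_zero]
    linear_combination h1
  · simp only [P3_fin, jf0, jf1, PiLp.smul_apply, smul_eq_mul, Fin.mk_one, Matrix.cons_val_one,
      Matrix.cons_val_zero]
    linear_combination -h0

theorem dec_jf (f ψ : Sp) :
    inner ℂ f ψ • f + inner ℂ (jf f) ψ • jf f = ((‖f‖ ^ 2 : ℝ) : ℂ) • ψ := by
  have h : ((‖f‖ ^ 2 : ℝ) : ℂ) = f 0 * conj (f 0) + f 1 * conj (f 1) := by
    rw [norm_sq_sp, Complex.ofReal_add, norm_sq_c, norm_sq_c]
  rw [h]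
  ext i
  fin_cases i
  · simp only [inner_sp, jf0, jf1, PiLp.add_apply, PiLp.smul_apply, smul_eq_mul, Fin.zero_eta,
      map_neg, Complex.conj_conj]
    ring
  · simp only [inner_sp, jf0, jf1, PiLp.add_apply, PiLp.smul_apply, smul_eq_mul, Fin.mk_one,
      map_neg, Complex.conj_conj]
    ring

theorem exists_eig (u : Fin 3 → ℝ) (hu : len u = 1) : ∃ s : Sp, ‖s‖ = 1 ∧ P3 u s = s := by
  have hs : (∑ k, u k ^ 2 : ℝ) = 1 := by rw [← len_sq, hu, one_pow]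
  have key : ∀ v : Sp, v + P3 u v ≠ 0 → ∃ s : Sp, ‖s‖ = 1 ∧ P3 u s = s := by
    intro v hv
    refine ⟨((‖v + P3 u v‖⁻¹ : ℝ) : ℂ) • (v + P3 u v), ?_, ?_⟩
    · rw [norm_smul, Complex.norm_real, norm_inv, norm_norm,
        inv_mul_cancel₀ (norm_ne_zero_iff.2 hv)]
    · rw [map_smul, map_add, P3_sq, hs, Complex.ofReal_one, one_smul, add_comm]
  by_cases h : u 2 = -1
  · refine key (EuclideanSpace.single 1 1) fun h0 => ?_
    have h1 := congrArg (fun v : Sp => v 1) h0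
    simp [P3_fin, h] at h1
  · refine key (EuclideanSpace.single 0 1) fun h0 => h ?_
    have h1 := congrArg (fun v : Sp => (v 0).re) h0
    simp [P3_fin] at h1
    linarith

theorem proj_P3 {u : Fin 3 → ℝ} {s : Sp} (hs : P3 u s = s) (ν : Fin 3 → ℝ) :
    P3 ν s + P3 u (P3 ν s) = (2 * (∑ k, ν k * u k : ℝ) : ℂ) • s := by
  have h := P3_anti ν u s
  rwa [hs] at h

theorem inner_P3 {u : Fin 3 → ℝ} {s : Sp} (hs : P3 u s = s) (h1 : ‖s‖ = 1) (ν : Fin 3 → ℝ) :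
    inner ℂ s (P3 ν s) = ((∑ k, ν k * u k : ℝ) : ℂ) := by
  have h := congrArg (inner ℂ s) (proj_P3 hs ν)
  rw [inner_add_right, P3_symm u, hs, inner_smul_right, inner_self_eq_norm_sq_to_K, h1] at h
  simp only [RCLike.ofReal_one, one_pow, mul_one] at h
  linear_combination (1 / 2 : ℂ) * h

/-- Cauchy-Schwarz with the case of equality -/
theorem den_pos {u ν : Fin 3 → ℝ} (hu : len u = 1) (h : ν ≠ -(len ν • u)) :
    0 < len ν + ∑ k, ν k * u k := by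
  have hs : (∑ k, u k ^ 2 : ℝ) = 1 := by rw [← len_sq, hu, one_pow]
  have h2 := len_sq ν
  have h3 : ∑ k, (ν k + len ν * u k) ^ 2 = 2 * len ν * (len ν + ∑ k, ν k * u k) := by
    rw [Fin.sum_univ_three] at hs h2
    rw [Fin.sum_univ_three, Fin.sum_univ_three]
    linear_combination -h2 + len ν ^ 2 * hs
  have h4 : 0 < ∑ k, (ν k + len ν * u k) ^ 2 := by
    refine lt_of_le_of_ne (Finset.sum_nonneg fun _ _ => sq_nonneg _) fun h0 => h ?_
    funext k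
    have := (Finset.sum_eq_zero_iff_of_nonneg fun _ _ => sq_nonneg _).1 h0.symm k
      (Finset.mem_univ k)
    have := pow_eq_zero_iff two_ne_zero |>.1 this
    simp only [Pi.neg_apply, Pi.smul_apply, smul_eq_mul]
    linarith
  rw [h3] at h4
  by_contra hb
  nlinarith [mul_nonneg (len_nonneg ν) (neg_nonneg.2 (not_lt.1 hb))]

/-- the operator `(λ + ν·P) / √d` -/
def NN (ν : Fin 3 → ℝ) (d : ℝ) : En := (√d)⁻¹ • (len ν • (1 : En) + P3 ν)

theorem NN_apply (ν : Fin 3 → ℝ) (d : ℝ) (s : Sp) :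
    NN ν d s = (((√d)⁻¹ : ℝ) : ℂ) • ((len ν : ℂ) • s + P3 ν s) := by
  rw [← rsmul, ← rsmul]; rfl

theorem len_c (ν : Fin 3 → ℝ) : ((∑ k, ν k ^ 2 : ℝ) : ℂ) = (len ν : ℂ) ^ 2 := by
  rw [← len_sq]; push_cast; rfl

theorem P3_NN (ν : Fin 3 → ℝ) (d : ℝ) (s : Sp) :
    P3 ν (NN ν d s) = (len ν : ℂ) • NN ν d s := by
  rw [NN_apply, map_smul, map_add, map_smul, P3_sq, len_c]
  module

theorem NN_neg (ν : Fin 3 → ℝ) (d : ℝ) {s : Sp} (h : P3 ν s = -(len ν : ℂ) • s) :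
    NN ν d s = 0 := by
  rw [NN_apply, h]; module

theorem sqrt_c {d : ℝ} (hd : 0 < d) :
    (((√d)⁻¹ : ℝ) : ℂ) * (((√d)⁻¹ : ℝ) : ℂ) * (d : ℂ) = 1 := by
  have h : (√d)⁻¹ * (√d)⁻¹ * d = 1 := by
    rw [← mul_inv, Real.mul_self_sqrt hd.le, inv_mul_cancel₀ hd.ne']
  exact_mod_cast h

theorem NN_NN (ν : Fin 3 → ℝ) (d : ℝ) (s : Sp) : NN ν d (NN ν d s) =
    ((((√d)⁻¹ : ℝ) : ℂ) * (((√d)⁻¹ : ℝ) : ℂ) * (2 * len ν)) • ((len ν : ℂ) • s + P3 ν s) := by
  rw [NN_apply ν d (NN ν d s), P3_NN, NN_apply]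
  module

theorem norm_NN {u ν : Fin 3 → ℝ} {s : Sp} (hs : P3 u s = s) (h1 : ‖s‖ = 1) {d : ℝ}
    (hd : d = len ν + ∑ k, ν k * u k) (h0 : 0 < d) : ‖NN ν d s‖ ^ 2 = 2 * len ν := by
  have h2 : inner ℂ (NN ν d s) (NN ν d s) = inner ℂ s (NN ν d (NN ν d s)) := by
    conv_lhs => enter [2]; rw [NN_apply]
    rw [NN_apply ν d (NN ν d s), inner_smul_left, inner_smul_right, inner_add_left,
      inner_add_right, inner_smul_left, inner_smul_right, P3_symm, Complex.conj_ofReal,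
      Complex.conj_ofReal]
  rw [NN_NN, inner_smul_right, inner_add_right, inner_smul_right, inner_P3 hs h1,
    inner_self_eq_norm_sq_to_K, inner_self_eq_norm_sq_to_K, h1] at h2
  have h3 := sqrt_c h0
  have h4 : (d : ℂ) = len ν + ((∑ k, ν k * u k : ℝ) : ℂ) := by rw [hd, Complex.ofReal_add]
  have h5 : ((‖NN ν d s‖ ^ 2 : ℝ) : ℂ) = ((2 * len ν : ℝ) : ℂ) := by
    rw [Complex.ofReal_pow, Complex.ofReal_mul]
    have h6 : (RCLike.ofReal ‖NN ν d s‖ : ℂ) = (‖NN ν d s‖ : ℂ) := rfl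
    rw [h6] at h2
    rw [h2]
    simp only [RCLike.ofReal_one, one_pow, mul_one, Complex.ofReal_ofNat]
    rw [← h4]
    linear_combination (2 * len ν : ℂ) * h3
  exact_mod_cast h5

/-- `-(1 + u·P) N / (4 λ)` -/
def RR (u ν : Fin 3 → ℝ) (d : ℝ) : En := (-(4 * len ν)⁻¹) • ((1 + P3 u) * NN ν d)

theorem RR_apply (u ν : Fin 3 → ℝ) (d : ℝ) (f : Sp) :
    RR u ν d f = ((-(4 * len ν)⁻¹ : ℝ) : ℂ) • (NN ν d f + P3 u (NN ν d f)) := by
  rw [← rsmul]; rfl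

theorem RR_NN {u ν : Fin 3 → ℝ} {s : Sp} (hs : P3 u s = s) {d : ℝ}
    (hd : d = len ν + ∑ k, ν k * u k) (h0 : 0 < d) (hl : 0 < len ν) :
    RR u ν d (NN ν d s) = -s := by
  have h3 := sqrt_c h0
  have h4 : (d : ℂ) = len ν + ((∑ k, ν k * u k : ℝ) : ℂ) := by rw [hd, Complex.ofReal_add]
  have h5 := proj_P3 hs ν
  have h6 : P3 u (P3 ν s) = (2 * (∑ k, ν k * u k : ℝ) : ℂ) • s - P3 ν s := by
    rw [← h5]; abel
  have h7 : (len ν : ℂ) ≠ 0 := by exact_mod_cast hl.ne'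
  rw [RR_apply, NN_NN, map_smul, map_add, map_smul, hs, h6]
  have h8 : ((-(4 * len ν)⁻¹ : ℝ) : ℂ) * ((((√d)⁻¹ : ℝ) : ℂ) * (((√d)⁻¹ : ℝ) : ℂ) * (2 * len ν)) *
      (2 * (len ν + ((∑ k, ν k * u k : ℝ) : ℂ))) = -1 := by
    rw [← h4]
    have h9 : ((-(4 * len ν)⁻¹ : ℝ) : ℂ) * (4 * len ν) = -1 := by
      push_cast; field_simp
    linear_combination ((((√d)⁻¹ : ℝ) : ℂ) * (((√d)⁻¹ : ℝ) : ℂ) * d) * h9 - h3
  rw [← neg_one_smul ℂ s, ← h8]
  module

theorem RR_neg (u ν : Fin 3 → ℝ) (d : ℝ) {s : Sp} (h : P3 ν s = -(len ν : ℂ) • s) :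
    RR u ν d s = 0 := by
  rw [RR_apply, NN_neg ν d h]; simp

/-! ## Smoothness -/

section smooth

variable {V : Type} [NormedAddCommGroup V] [NormedSpace ℝ V] {v : V}

theorem cd_P3 {ν : V → Fin 3 → ℝ} (h : ContDiffAt ℝ ∞ ν v) :
    ContDiffAt ℝ ∞ (fun w => P3 (ν w)) v := by
  unfold P3
  exact ContDiffAt.sum fun k _ =>
    (Complex.ofRealCLM.contDiff.contDiffAt.comp v (contDiffAt_pi.1 h k)).smul contDiffAt_const

theorem cd_len {ν : V → Fin 3 → ℝ} (h : ContDiffAt ℝ ∞ ν v) (h0 : 0 < len (ν v)) :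
    ContDiffAt ℝ ∞ (fun w => len (ν w)) v := by
  unfold len
  refine ContDiffAt.sqrt (ContDiffAt.sum fun k _ => (contDiffAt_pi.1 h k).pow 2) ?_
  rw [← len_sq]
  positivity

theorem cd_NN {ν : V → Fin 3 → ℝ} {d : V → ℝ} (h : ContDiffAt ℝ ∞ ν v) (h0 : 0 < len (ν v))
    (hd : ContDiffAt ℝ ∞ d v) (hd0 : 0 < d v) : ContDiffAt ℝ ∞ (fun w => NN (ν w) (d w)) v := by
  unfold NN
  exact ((hd.sqrt hd0.ne').inv (Real.sqrt_pos.2 hd0).ne').smul
    (((cd_len h h0).smul contDiffAt_const).add (cd_P3 h))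

theorem cd_RR {u ν : V → Fin 3 → ℝ} {d : V → ℝ} (hu : ContDiffAt ℝ ∞ u v)
    (h : ContDiffAt ℝ ∞ ν v) (h0 : 0 < len (ν v))
    (hd : ContDiffAt ℝ ∞ d v) (hd0 : 0 < d v) :
    ContDiffAt ℝ ∞ (fun w => RR (u w) (ν w) (d w)) v := by
  unfold RR
  exact ((contDiffAt_const.mul (cd_len h h0)).inv (by positivity)).neg.smul
    ((contDiffAt_const.add (cd_P3 hu)).mul (cd_NN h h0 hd hd0))

theorem cd_app {A : V → En} {f : V → Sp} (hA : ContDiffAt ℝ ∞ A v) (hf : ContDiffAt ℝ ∞ f v) :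
    ContDiffAt ℝ ∞ (fun w => A w (f w)) v :=
  (((ContinuousLinearMap.restrictScalarsL ℂ Sp Sp ℝ ℝ).contDiff.contDiffAt.comp v hA).clm_apply hf :)

end smooth

theorem continuous_len : Continuous len := by
  unfold len; fun_prop

theorem len_smul (t : ℝ) (v : Fin 3 → ℝ) : len (t • v) = |t| * len v := by
  unfold len
  simp only [Pi.smul_apply, smul_eq_mul, mul_pow, ← Finset.mul_sum]
  rw [Real.sqrt_mul (sq_nonneg _), Real.sqrt_sq_eq_abs]

theorem len_unit {c : Fin 3 → ℝ} (h : 0 < len c) : len ((len c)⁻¹ • c) = 1 := by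
  rw [len_smul, abs_of_pos (inv_pos.2 h), inv_mul_cancel₀ h.ne']

theorem len_zero : len 0 = 0 := by simp [len]

theorem eq_zero_of_len {c : Fin 3 → ℝ} (h : len c = 0) : c = 0 := by
  funext k
  have := abs_le_len c k
  rw [h] at this
  exact abs_nonpos_iff.1 this

theorem isCompact_sph : IsCompact {u : Fin 3 → ℝ | len u = 1} := by
  refine (isCompact_closedBall (0 : Fin 3 → ℝ) 1).of_isClosed_subset
    (isClosed_eq continuous_len continuous_const) fun u hu => ?_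
  rw [mem_closedBall_zero_iff]
  exact (pi_norm_le_iff_of_nonneg zero_le_one).2 fun k => (abs_le_len u k).trans (le_of_eq hu)

end Vale.Agent.P247E.QEig
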