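import Vale.Agent.P247E.Bq2
import Vale.Agent.P204.Bdl.B4

/-!
# P247E: the Jacobian form of a section, bundles with a unit section
-/

set_option linter.all false

open scoped ContDiff Topology ENNReal ComplexConjugate
open Set MeasureTheory Filter

noncomputable section

namespace Vale.Agent.P247E

open Vale.Agent.P204.GX Vale.Agent.P204.T4
open Vale.Agent.P247.H74 (e)
open Vale.Agent.P247.H647 (jz cov)

variable {X : Type} [MetricSpace X] {M : CM X}

/-- the covariant derivative along the coordinate vectors of a chart -/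
theorem LBc.sum_cva (L : LBc M) (a : X → V4) {s : X → ℂ} (hs : L.Sm s) (b : M.A) (y : V4)
    (i : Fin 4) : ∑ c, (M.m b y c i : ℂ) * L.cva a s (M.ψ b y) c = L.γ b y *
      (fderiv ℝ (L.lo b s) y (e i) - Complex.I * (((fun j => L.A b y (e j)) + M.cf1 b a y : V4) i : ℝ) *
        L.lo b s y) := by
  simp only [LBc.cva, L.cv_psi hs, cov, ← L.γ_lo b s y, Pi.add_apply, CM.cf1, copp]
  rw [← sum_m_fv (fderiv ℝ (L.lo b s) y) b y, ← sum_m_fv (L.A b y) b y]
  simp only [Fin.sum_univ_four, smul_eq_mul, Complex.real_smul]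
  push_cast
  ring

theorem LBc.cf1_jac (L : LBc M) (a : X → V4) {s : X → ℂ} (hs : L.Sm s) (b : M.A) :
    M.cf1 b (fun x c => (conj (s x) * L.cva a s x c).im) = fun y i => (conj (L.lo b s y) *
      (fderiv ℝ (L.lo b s) y (e i) - Complex.I * (((fun j => L.A b y (e j)) + M.cf1 b a y : V4) i : ℝ) *
        L.lo b s y)).im := by
  funext y i
  have h := congrArg (fun z => (conj (s (M.ψ b y)) * z).im) (L.sum_cva a hs b y i)
  simp only [← mul_assoc] at h
  rw [show conj (s (M.ψ b y)) * L.γ b y = conj (L.lo b s y) by simp [LBc.lo, mul_comm]] at h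
  rw [← h]
  simp [CM.cf1, copp, Fin.sum_univ_four]
  ring

theorem LBc.jac (L : LBc M) {a : X → V4} {s : X → ℂ} (ha : M.Sm1 a) (hs : L.Sm s) :
    M.Sm1 (fun x c => (conj (s x) * L.cva a s x c).im) ∧
    ∀ x, M.dX (fun x c => (conj (s x) * L.cva a s x c).im) x =
      ofEnt (jz (L.cva a s x)) - ‖s x‖ ^ 2 • (L.F x + M.dX a x) := by
  have hB : ∀ b, ContDiff ℝ ∞ fun y => ((fun j => L.A b y (e j)) + M.cf1 b a y : V4) :=
    fun b => (L.cd_A b).add (ha b)
  have h1 : M.Sm1 (fun x c => (conj (s x) * L.cva a s x c).im) := fun b => by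
    rw [L.cf1_jac a hs]
    exact contDiff_pi.2 fun i => Complex.imCLM.contDiff.comp ((cd_conj (hs b)).mul
      ((((hs b).fderiv_right (m := ∞) le_rfl).clm_apply contDiff_const).sub
        ((contDiff_const.mul (Complex.ofRealCLM.contDiff.comp (contDiff_pi.1 (hB b) i))).mul (hs b))))
  refine ⟨h1, congrFun (M.ext_cf fun b y _ => ?_)⟩
  rw [M.cf_dX h1, L.cf1_jac a hs, d1_jac (hs b).contDiffAt ((hB b).differentiable (by simp) y),
    CM.cf, pull_sub, pull_smul, pull_add, pull_jz, ← CM.cf, ← CM.cf, L.cf_F, M.cf_dX ha,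
    ← d1_add ((L.cd_A b).differentiable (by simp)) ((ha b).differentiable (by simp)), L.norm_lo]
  simp only [L.sum_cva a hs, jz_mul (L.γ_norm b y)]
  rfl

theorem JAC : JAC_statement := fun _ _ _ _ _ _ Q L _ _ ha hs => L.jac ha hs

/-- the covariant derivative of a unit section is an imaginary multiple of it -/
theorem LBc.re_cva (L : LBc M) {s : X → ℂ} (hs : L.Sm s) (h1 : ∀ x, ‖s x‖ = 1) (x : X)
    (c : Fin 4) : (conj (s x) * L.cva 0 s x c).re = 0 := by
  obtain ⟨b, y, -, rfl⟩ := M.cov x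
  have h2 := (((hs b).differentiable (by simp) y).hasFDerivAt.norm_sq).fderiv
  simp only [L.norm_lo, h1, fderiv_fun_const] at h2
  have h3 := congrArg (fun T : V4 →L[ℝ] ℝ => T (fv M b y c)) h2
  have h4 : ‖L.lo b s y‖ = 1 := by rw [L.norm_lo, h1]
  simp only [LBc.cva, L.cv_psi hs, cov, smul_eq_mul, Pi.zero_apply, Complex.ofReal_zero, mul_zero,
    zero_mul, sub_zero, ← mul_assoc]
  rw [show conj (s (M.ψ b y)) * L.γ b y = conj (L.lo b s y) by simp [LBc.lo, mul_comm]]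
  simp [Complex.inner] at h3 ⊢
  linarith

theorem jz_unit {z : ℂ} (hz : ‖z‖ = 1) {ζ : Fin 4 → ℂ} (h : ∀ c, (conj z * ζ c).re = 0) :
    ofEnt (jz ζ) = 0 := by
  rw [← jz_mul (γ := conj z) (by rw [RCLike.norm_conj, hz])]
  funext k
  fin_cases k <;> simp only [ofEnt, jz, Complex.mul_im (conj _), Complex.conj_re, h] <;> simp

theorem LBc.F_unit (L : LBc M) {s : X → ℂ} (hs : L.Sm s) (h1 : ∀ x, ‖s x‖ = 1) :
    ∃ η, M.Sm1 η ∧ L.F = M.dX η := by
  have h0 : M.Sm1 0 := fun b => by rw [M.cf1_zero]; exact contDiff_const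
  obtain ⟨h2, h3⟩ := L.jac h0 hs
  refine ⟨(-1 : ℝ) • _, fun b => by rw [M.cf1_smul]; exact (h2 b).const_smul (-1 : ℝ), ?_⟩
  have h4 := M.dX_smul 0 h0
  rw [zero_smul, zero_smul] at h4
  funext x
  rw [M.dX_smul _ h2, Pi.smul_apply, h3, jz_unit (h1 x) (L.re_cva hs h1 x), h1, h4]
  simp

/-- Stokes for a global one-form -/
theorem pr_dX [CompactSpace X] [MeasurableSpace X] [BorelSpace X] {η : X → V4} (h : M.Sm1 η)
    {u : X → L2} (hu : u ∈ M.Om) (hc : ∀ a, Closed (M.cf a u)) : M.pr (M.dX η) u = 0 :=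
  M.stokesX (c := ⟨u, hu⟩) (M.dX_mem_Ex h) hc

theorem UNI : UNI_statement := fun _ _ _ _ _ _ Q L s hs h1 => by
  obtain ⟨η, h2, h3⟩ := L.F_unit hs h1
  refine ⟨⟨η, h2, h3⟩, ?_⟩
  conv_lhs => enter [2]; rw [h3]
  exact pr_dX h2 L.F_mem L.F_closed

end Vale.Agent.P247E
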