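import Vale.Agent.P247E.Bq1
import Vale.Agent.P247E.QEigA

/-!
# P247E, `EIG`: eigenspinors and the family of zero order terms
-/

set_option linter.all false

open scoped ContDiff Topology ENNReal ComplexConjugate
open Set MeasureTheory Filter

noncomputable section

namespace Vale.Agent.P247E

open Vale.Agent.P204.GX Vale.Agent.P204.T4
open Vale.Agent.P247.H74 (e)
open Vale.Agent.P247.H647 (Sp En sig pau len P3 jf)

namespace QEig

/-! ## Families of functions which factor through a finite dimensional space -/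

section fam

variable {X : Type} [MetricSpace X] {M : CM X}
variable {P Y E : Type} [NormedAddCommGroup P] [NormedSpace ℝ P] [NormedAddCommGroup Y]
  [NormedSpace ℝ Y] [NormedAddCommGroup E] [NormedSpace ℝ E] {τ : X → Y}

theorem smF_of (hτ : SmF M τ) {Φ : P × Y → E} {p : P} (h : ∀ x, ContDiffAt ℝ ∞ Φ (p, τ x)) :
    SmF M fun x => Φ (p, τ x) := fun a => contDiff_iff_contDiffAt.2 fun y =>
  (h (M.ψ a y)).comp y (contDiffAt_const.prodMk (hτ a).contDiffAt)

theorem df_of (hτ : SmF M τ) {Φ : P × Y → E} {p : P} (h : ∀ x, ContDiffAt ℝ ∞ Φ (p, τ x))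
    (x : X) (c : Fin 4) :
    df M (fun x => Φ (p, τ x)) x c = fderiv ℝ Φ (p, τ x) (0, df M τ x c) := by
  have h1 := ((hτ (M.ch x)).differentiable (by simp) (M.cy x)).hasFDerivAt
  have h2 := ((h (M.ψ (M.ch x) (M.cy x))).differentiableAt (by simp)).hasFDerivAt
  have h3 := (h2.comp (M.cy x) ((hasFDerivAt_const p (M.cy x)).prodMk h1)).fderiv
  unfold df
  erw [h3]
  simp [M.ψ_cy]

theorem df_app {Φ : X → En} (h : SmF M Φ) (s : Sp) (x : X) (c : Fin 4) :
    df M (fun x => Φ x s) x c = df M Φ x c s := by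
  have h1 := ((h (M.ch x)).differentiable (by simp) (M.cy x)).hasFDerivAt
  have h3 := ((((ContinuousLinearMap.apply ℝ Sp s).comp reL).hasFDerivAt).comp (M.cy x) h1).fderiv
  unfold df
  erw [h3]
  rfl

theorem df_dec {f g f' g' : X → Sp} (hf : SmF M f) (hg : SmF M g) (hf' : SmF M f')
    (hg' : SmF M g') (ψ : Sp) (h : ∀ x, ψ = inner ℂ (g x) ψ • f x + inner ℂ (g' x) ψ • f' x)
    (x : X) (c : Fin 4) :
    inner ℂ (df M g x c) ψ • f x + inner ℂ (g x) ψ • df M f x c +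
      (inner ℂ (df M g' x c) ψ • f' x + inner ℂ (g' x) ψ • df M f' x c) = 0 := by
  have d : ∀ {f : X → Sp}, SmF M f → HasFDerivAt (fun y => f (M.ψ (M.ch x) y))
      (fderiv ℝ (fun y => f (M.ψ (M.ch x) y)) (M.cy x)) (M.cy x) := fun hf =>
    ((hf (M.ch x)).differentiable (by simp) (M.cy x)).hasFDerivAt
  have h1 := ((((d hg).inner ℂ (hasFDerivAt_const ψ (M.cy x))).smul (d hf)).add
    (((d hg').inner ℂ (hasFDerivAt_const ψ (M.cy x))).smul (d hf')))
  have h2 : HasFDerivAt (fun _ : V4 => ψ) _ (M.cy x) :=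
    h1.congr_of_eventuallyEq (Eventually.of_forall fun y => h (M.ψ (M.ch x) y))
  have h3 := congrArg (fun T : V4 →L[ℝ] Sp => T (fv M (M.ch x) (M.cy x) c))
    (h2.unique (hasFDerivAt_const ψ (M.cy x)))
  simp only [ContinuousLinearMap.add_apply, ContinuousLinearMap.smul_apply,
    ContinuousLinearMap.smulRight_apply, ContinuousLinearMap.comp_apply,
    ContinuousLinearMap.prod_apply, fderivInnerCLM_apply, ContinuousLinearMap.zero_apply,
    inner_zero_right, zero_add, M.ψ_cy] at h3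
  unfold df
  rw [← h3]
  abel

variable [CompactSpace X] [MeasurableSpace X] [BorelSpace X] [FiniteDimensional ℝ Y]

theorem bd_of (hτ : SmF M τ) {Φ : P × Y → E} {K : Set P} (hK : IsCompact K)
    (h : ∀ p ∈ K, ∀ x, ContDiffAt ℝ ∞ Φ (p, τ x)) : ∃ C, ∀ B, C ≤ B → ∀ p ∈ K, ∀ x c,
      ‖Φ (p, τ x)‖ ≤ B ∧ ‖df M (fun x => Φ (p, τ x)) x c‖ ≤ B := by
  obtain ⟨D, hD⟩ := bm_two hτ.bm hτ.bm_df
  have hc : Continuous fun q : P × X => (q.1, τ q.2) :=
    continuous_fst.prodMk (hτ.continuous.comp continuous_snd)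
  have hK' : IsCompact ((fun q : P × X => (q.1, τ q.2)) '' (K ×ˢ univ)) :=
    (hK.prod isCompact_univ).image hc
  obtain ⟨C₁, h1⟩ := hK'.exists_bound_of_continuousOn (f := Φ) (by
    rintro _ ⟨q, hq, rfl⟩
    exact (h q.1 hq.1 q.2).continuousAt.continuousWithinAt)
  obtain ⟨C₂, h2⟩ := hK'.exists_bound_of_continuousOn (f := fderiv ℝ Φ) (by
    rintro _ ⟨q, hq, rfl⟩
    exact ((h q.1 hq.1 q.2).fderiv_right (m := 0) (by simp)).continuousAt.continuousWithinAt)
  refine ⟨max C₁ (C₂ * D), fun B hB p hp x c => ⟨?_, ?_⟩⟩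
  · exact (h1 _ ⟨(p, x), ⟨hp, mem_univ _⟩, rfl⟩).trans ((le_max_left _ _).trans hB)
  · rw [df_of hτ (h p hp)]
    have h3 := h2 _ ⟨(p, x), ⟨hp, mem_univ _⟩, rfl⟩
    refine (ContinuousLinearMap.le_opNorm _ _).trans (le_trans ?_ ((le_max_right _ _).trans hB))
    refine mul_le_mul h3 ?_ (norm_nonneg _) ((norm_nonneg _).trans h3)
    simpa using (hD x c).2

end fam

/-! ## The universal maps -/

abbrev R3 : Type := Fin 3 → ℝ
abbrev Yt : Type := (Fin 3 → Fin 3 → ℝ) × (Fin 3 → Fin 3 → ℝ)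

def nuU (u : R3) (t : Yt) : R3 := fun k => ∑ j, u j * t.1 j k
def dU (u : R3) (t : Yt) : ℝ := len (nuU u t) + ∑ k, nuU u t k * u k
def NU (v : R3 × Yt) : En := NN (nuU v.1 v.2) (dU v.1 v.2)
def RU (v : R3 × Yt) : En := RR v.1 (nuU v.1 v.2) (dU v.1 v.2)
def Good (u : R3) (t : Yt) : Prop := 0 < len (nuU u t) ∧ 0 < dU u t

theorem cd_nuU : ContDiff ℝ ∞ fun v : R3 × Yt => nuU v.1 v.2 := by
  unfold nuU; fun_prop

theorem cd_lam {v : R3 × Yt} (h : Good v.1 v.2) :
    ContDiffAt ℝ ∞ (fun v : R3 × Yt => len (nuU v.1 v.2)) v := cd_len cd_nuU.contDiffAt h.1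

theorem cd_dU {v : R3 × Yt} (h : Good v.1 v.2) :
    ContDiffAt ℝ ∞ (fun v : R3 × Yt => dU v.1 v.2) v :=
  (cd_lam h).add (ContDiffAt.sum fun k _ => (contDiffAt_pi.1 cd_nuU.contDiffAt k).mul
    (contDiffAt_pi.1 contDiffAt_fst k))

theorem cd_NU {v : R3 × Yt} (h : Good v.1 v.2) : ContDiffAt ℝ ∞ NU v :=
  cd_NN cd_nuU.contDiffAt h.1 (cd_dU h) h.2

theorem cd_RU {v : R3 × Yt} (h : Good v.1 v.2) : ContDiffAt ℝ ∞ RU v :=
  cd_RR contDiffAt_fst cd_nuU.contDiffAt h.1 (cd_dU h) h.2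

abbrev Wt : Type := (R3 × Sp) × Yt

def lamU (w : Wt) : ℝ := len (nuU w.1.1 w.2)
def fpU (w : Wt) : Sp := NU (w.1.1, w.2) w.1.2
def fmU (w : Wt) : Sp := jf (fpU w)
def gpU (w : Wt) : Sp := (2 * lamU w)⁻¹ • fpU w
def gmU (w : Wt) : Sp := (2 * lamU w)⁻¹ • fmU w
def hU (j : Fin 3) (w : Wt) : ℂ := ∑ k, inner ℂ (fpU w) (pau k (fmU w)) * (w.2.2 k j : ℂ)

theorem cd_pr {w : Wt} : ContDiffAt ℝ ∞ (fun w : Wt => ((w.1.1, w.2) : R3 × Yt)) w := by
  fun_prop

theorem cd_lamU {w : Wt} (h : Good w.1.1 w.2) : ContDiffAt ℝ ∞ lamU w :=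
  ((cd_lam (v := (w.1.1, w.2)) h).comp w cd_pr :)

theorem cd_inv {w : Wt} (h : Good w.1.1 w.2) : ContDiffAt ℝ ∞ (fun w => (lamU w)⁻¹) w :=
  (cd_lamU h).inv h.1.ne'

theorem cd_fpU {w : Wt} (h : Good w.1.1 w.2) : ContDiffAt ℝ ∞ fpU w :=
  cd_app (A := fun w : Wt => NU (w.1.1, w.2)) ((cd_NU (v := (w.1.1, w.2)) h).comp w cd_pr :)
    (by fun_prop)

theorem cd_fmU {w : Wt} (h : Good w.1.1 w.2) : ContDiffAt ℝ ∞ fmU w :=
  jfL.contDiff.contDiffAt.comp w (cd_fpU h)

theorem cd_two {w : Wt} (h : Good w.1.1 w.2) : ContDiffAt ℝ ∞ (fun w => (2 * lamU w)⁻¹) w :=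
  (contDiffAt_const.mul (cd_lamU h)).inv (mul_pos two_pos h.1).ne'

theorem cd_gpU {w : Wt} (h : Good w.1.1 w.2) : ContDiffAt ℝ ∞ gpU w :=
  (cd_two h).smul (cd_fpU h)

theorem cd_gmU {w : Wt} (h : Good w.1.1 w.2) : ContDiffAt ℝ ∞ gmU w :=
  (cd_two h).smul (cd_fmU h)

theorem cd_hU (j : Fin 3) {w : Wt} (h : Good w.1.1 w.2) : ContDiffAt ℝ ∞ (hU j) w :=
  ContDiffAt.sum fun k _ => ((cd_fpU h).inner ℂ (cd_app contDiffAt_const (cd_fmU h))).mul
    (Complex.ofRealCLM.contDiff.contDiffAt.comp w (f := fun w : Wt => w.2.2 k j) (by fun_prop))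

/-- the zero order term, as a function of `u`, of the values and of the derivatives of `T` -/
def GU (u : R3) (t : Yt) (η : Fin 4 → Yt) : En :=
  ∑ d, sig d * (fderiv ℝ NU (u, t) (0, η d) * RU (u, t))

theorem cont_GU {Z : Type} [TopologicalSpace Z] {u : Z → R3} {t : Z → Yt} {η : Z → Fin 4 → Yt}
    {z : Z} (hu : ContinuousAt u z) (ht : ContinuousAt t z) (hη : ContinuousAt η z)
    (h : Good (u z) (t z)) : ContinuousAt (fun z => GU (u z) (t z) (η z)) z := by
  have h0 : ContinuousAt (fun z => (u z, t z)) z := hu.prodMk ht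
  have h1 : ContinuousAt (fun z => fderiv ℝ NU (u z, t z)) z :=
    ContinuousAt.comp (f := fun z => (u z, t z))
      ((cd_NU (v := (u z, t z)) h).fderiv_right (m := 0) (by simp)).continuousAt h0
  have h2 : ContinuousAt (fun z => RU (u z, t z)) z :=
    ContinuousAt.comp (f := fun z => (u z, t z)) (cd_RU (v := (u z, t z)) h).continuousAt h0
  unfold GU
  refine tendsto_finset_sum _ fun d _ => ?_
  exact continuousAt_const.mul ((h1.clm_apply (continuousAt_const.prodMk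
    ((continuous_apply d).continuousAt.comp hη))).mul h2)

/-! ## On the manifold -/

variable {X : Type} [MetricSpace X] (Q : QM X)

/-- the matrix `T` and its inverse -/
def tau (x : X) : Yt := (fun j k => Q.T x j k, fun k j => (Q.T x)⁻¹ k j)

theorem tau_sm : SmF Q.toCM (tau Q) := fun a =>
  (contDiff_pi.2 fun j => contDiff_pi.2 fun k => Q.T_smooth j k a).prodMk
    (contDiff_pi.2 fun k => contDiff_pi.2 fun j => Q.sm_inv k j a)

theorem nu_eq (u : R3) (x : X) : nuU u (tau Q x) = Q.nu u x := rfl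

theorem good {u : R3} (hu : len u = 1) (x : X) : Good u (tau Q x) := by
  have h0 : u ≠ 0 := fun h => by rw [h, len_zero] at hu; exact zero_ne_one hu
  refine ⟨(Vale.Agent.P247.H647.len_nonneg _).lt_of_ne fun h => h0 ?_, den_pos hu fun h => h0 ?_⟩
  · refine Q.T_pos x u 0 le_rfl ?_
    rw [zero_smul, neg_zero]
    exact eq_zero_of_len h.symm
  · exact Q.T_pos x u _ (Vale.Agent.P247.H647.len_nonneg _) h

theorem hom_of {P Y : Type} [NormedAddCommGroup P] [NormedSpace ℝ P] [NormedAddCommGroup Y]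
    [NormedSpace ℝ Y] {τ : X → Y} (hτ : SmF Q.toCM τ) {A : X → P × Y →L[ℝ] En} {R : X → En}
    (hA : SmF Q.toCM A) (hR : SmF Q.toCM R) (r : ℝ) (L : LBc Q.toCM) :
    L.bp.Hom (Q.bm L) fun x => reL (r • ∑ d, sig d * (A x (0, df Q.toCM τ x d) * R x)) := by
  intro a
  have h1 : ContDiff ℝ ∞ fun y => r • ∑ d, sig d *
      (A (Q.ψ a y) (0, fderiv ℝ (fun z => τ (Q.ψ a z)) y (Q.b a y d)) * R (Q.ψ a y)) :=
    (ContDiff.sum fun d _ => contDiff_const.mul (((hA a).clm_apply (contDiff_const.prodMk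
      (((hτ a).fderiv_right (m := ∞) (by simp)).clm_apply (Q.b_smooth a d)))).mul
        (hR a))).const_smul r
  convert contDiff_reL h1 using 2 with y
  ext1 v
  set B : V4 →L[ℝ] Sp := ((ContinuousLinearMap.apply ℝ Sp (R (Q.ψ a y) v)).comp reL).comp
    ((A (Q.ψ a y)).comp ((ContinuousLinearMap.inr ℝ P Y).comp
      (fderiv ℝ (fun z => τ (Q.ψ a z)) y))) with hB
  have h2 : ∑ c, sig c (B (fv Q.toCM a y c)) = sgm (Q.p a y) (∑ d, sig d (B (Q.b a y d))) := by
    simp only [Q.fv_eq, map_sum, map_smul, rsmul]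
    rw [Finset.sum_comm]
    refine Finset.sum_congr rfl fun d _ => ?_
    rw [← sgm_e d, sgm_sgm, sgm_apply]
    refine Finset.sum_congr rfl fun c _ => ?_
    rw [app_e]
  have h3 : (∑ d, sig d * (A (Q.ψ a y) (0, df Q.toCM τ (Q.ψ a y) d) * R (Q.ψ a y))) v =
      ∑ c, sig c (B (fv Q.toCM a y c)) := by
    rw [ContinuousLinearMap.sum_apply]
    refine Finset.sum_congr rfl fun d _ => ?_
    rw [df_psi hτ]; rfl
  have h4 : (∑ d, sig d * (A (Q.ψ a y) (0, fderiv ℝ (fun z => τ (Q.ψ a z)) y (Q.b a y d)) *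
      R (Q.ψ a y))) v = ∑ d, sig d (B (Q.b a y d)) := by
    rw [ContinuousLinearMap.sum_apply]; rfl
  show conj (L.γ a y) • sgm (cq (Q.p a y)) (r • (∑ d, sig d *
    (A (Q.ψ a y) (0, df Q.toCM τ (Q.ψ a y) d) * R (Q.ψ a y))) (L.γ a y • v)) =
    r • (∑ d, sig d * (A (Q.ψ a y) (0, fderiv ℝ (fun z => τ (Q.ψ a z)) y (Q.b a y d)) *
      R (Q.ψ a y))) v
  rw [map_smul _ (L.γ a y), h3, h4, h2, rsmul r, rsmul r, map_smul, map_smul, sgm_cq, Q.p_unit,
    smul_comm, smul_smul (conj (L.γ a y)), L.conj_mul, one_smul, Complex.ofReal_one, one_smul]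

/-- the zero order term for the direction `u` -/
def Zu (u : R3) (x : X) : En := GU u (tau Q x) (df Q.toCM (tau Q) x)

/-- the family of zero order terms -/
def ZZ (c : R3) (x : X) : En := min (len c) 1 • Zu Q ((len c)⁻¹ • c) x

theorem ZZ_zero (x : X) : ZZ Q 0 x = 0 := by
  rw [ZZ, len_zero, min_eq_left zero_le_one]
  ext1 v
  rw [ContinuousLinearMap.smul_apply, zero_smul, ContinuousLinearMap.zero_apply]

theorem len_pos {c : R3} (h : c ≠ 0) : 0 < len c :=
  (Vale.Agent.P247.H647.len_nonneg _).lt_of_ne fun h0 => h (eq_zero_of_len h0.symm)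

theorem ZZ_hom (c : R3) (L : LBc Q.toCM) : L.bp.Hom (Q.bm L) fun x => reL (ZZ Q c x) := by
  by_cases h : c = 0
  · subst h
    intro a
    simp only [ZZ_zero, map_zero, ContinuousLinearMap.zero_comp, ContinuousLinearMap.comp_zero]
    exact contDiff_const
  · have hu := len_unit (len_pos h)
    have h1 : SmF Q.toCM fun x => fderiv ℝ NU ((len c)⁻¹ • c, tau Q x) :=
      smF_of (tau_sm Q) fun x =>
        (cd_NU (v := ((len c)⁻¹ • c, tau Q x)) (good Q hu x)).fderiv_right (by simp)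
    have h2 : SmF Q.toCM fun x => RU ((len c)⁻¹ • c, tau Q x) :=
      smF_of (tau_sm Q) fun x => cd_RU (v := ((len c)⁻¹ • c, tau Q x)) (good Q hu x)
    exact hom_of Q (tau_sm Q) h1 h2 (min (len c) 1) L

variable [CompactSpace X] [MeasurableSpace X] [BorelSpace X]

theorem exists_D : ∃ D, ∀ x, df Q.toCM (tau Q) x ∈ Metric.closedBall (0 : Fin 4 → Yt) D := by
  obtain ⟨D, hD⟩ := bm_two (tau_sm Q).bm (tau_sm Q).bm_df
  exact ⟨D, fun x => mem_closedBall_zero_iff.2 ((pi_norm_le_iff_of_nonempty _).2 fun c =>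
    (hD x c).2)⟩

theorem Zu_bd : ∃ C, 0 ≤ C ∧ ∀ u, len u = 1 → ∀ x, ‖Zu Q u x‖ ≤ C := by
  obtain ⟨D, hD⟩ := exists_D Q
  have hK := isCompact_sph.prod ((isCompact_univ (X := X)).prod
    (isCompact_closedBall (0 : Fin 4 → Yt) D))
  obtain ⟨C, hC⟩ := hK.exists_bound_of_continuousOn
    (f := fun z => GU z.1 (tau Q z.2.1) z.2.2) fun z hz =>
      (cont_GU continuousAt_fst ((tau_sm Q).continuous.continuousAt.comp (by fun_prop))
        (by fun_prop) (good Q hz.1 _)).continuousWithinAt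
  exact ⟨max C 0, le_max_right _ _, fun u hu x =>
    (hC (u, x, df Q.toCM (tau Q) x) ⟨hu, mem_univ _, hD x⟩).trans (le_max_left _ _)⟩

theorem ZZ_bd : ∃ C, 0 ≤ C ∧ ∀ c x, ‖ZZ Q c x‖ ≤ min (len c) 1 * C := by
  obtain ⟨C, h0, hC⟩ := Zu_bd Q
  refine ⟨C, h0, fun c x => ?_⟩
  have h1 : 0 ≤ min (len c) 1 := le_min (Vale.Agent.P247.H647.len_nonneg _) zero_le_one
  by_cases h : c = 0
  · rw [h, ZZ_zero, norm_zero, ← h]; positivity
  · rw [ZZ, norm_smul, Real.norm_of_nonneg h1]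
    exact mul_le_mul_of_nonneg_left (hC _ (len_unit (len_pos h)) x) h1

theorem ZZ_cont (c₀ : R3) (ε : ℝ) (hε : 0 < ε) :
    ∀ᶠ c in 𝓝 c₀, ∀ x, ‖ZZ Q c x - ZZ Q c₀ x‖ ≤ ε := by
  by_cases h : c₀ = 0
  · subst h
    obtain ⟨C, h0, hC⟩ := ZZ_bd Q
    have h1 : ContinuousAt (fun c : R3 => min (len c) 1 * C) 0 :=
      ((continuous_len.min continuous_const).mul continuous_const).continuousAt
    have h2 := h1.eventually (gt_mem_nhds (a := ε) (by
      simpa only [len_zero, min_eq_left zero_le_one, zero_mul] using hε))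
    filter_upwards [h2] with c hc x
    rw [ZZ_zero, sub_zero]
    exact (hC c x).trans hc.le
  · obtain ⟨D, hD⟩ := exists_D Q
    have hl := len_pos h
    have hK := (isCompact_univ (X := X)).prod (isCompact_closedBall (0 : Fin 4 → Yt) D)
    have key := hK.eventually_forall_of_forall_eventually (x₀ := c₀)
      (P := fun c z => ‖min (len c) 1 • GU ((len c)⁻¹ • c) (tau Q z.1) z.2 -
        min (len c₀) 1 • GU ((len c₀)⁻¹ • c₀) (tau Q z.1) z.2‖ < ε) fun z _ => by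
      have ht : ContinuousAt (fun w : R3 × X × (Fin 4 → Yt) => tau Q w.2.1) (c₀, z) :=
        (tau_sm Q).continuous.continuousAt.comp (by fun_prop)
      have hc : ContinuousAt (fun w : R3 × X × (Fin 4 → Yt) => len w.1) (c₀, z) :=
        (continuous_len.comp continuous_fst).continuousAt
      have h1 := cont_GU (z := (c₀, z)) ((hc.inv₀ hl.ne').smul continuousAt_fst) ht
        (η := fun w => w.2.2) (by fun_prop) (good Q (len_unit hl) _)
      have h2 := cont_GU (z := (c₀, z)) (u := fun _ => (len c₀)⁻¹ • c₀) continuousAt_const ht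
        (η := fun w => w.2.2) (by fun_prop) (good Q (len_unit hl) _)
      have h3 := (((hc.min (continuousAt_const (y := (1 : ℝ)))).smul h1).sub
        (h2.const_smul (min (len c₀) 1))).norm
      exact h3.eventually (gt_mem_nhds (a := ε) (by simpa using hε))
    filter_upwards [key] with c hc x
    exact (hc (x, df Q.toCM (tau Q) x) ⟨mem_univ _, hD x⟩).le

theorem eig : ∃ C, ∀ B, C ≤ B → ∀ u, len u = 1 → Nonempty (Eig Q B (Zu Q u) u) := by
  have hK := isCompact_sph.prod (isCompact_closedBall (0 : Sp) 1)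
  have hτ := tau_sm Q
  obtain ⟨C₁, h1⟩ := bd_of hτ hK (Φ := lamU) fun p hp x => cd_lamU (good Q hp.1 x)
  obtain ⟨C₂, h2⟩ := bd_of hτ hK (Φ := fun w => (lamU w)⁻¹) fun p hp x => cd_inv (good Q hp.1 x)
  obtain ⟨C₃, h3⟩ := bd_of hτ hK (Φ := fmU) fun p hp x => cd_fmU (good Q hp.1 x)
  choose C₄ h4 using fun j => bd_of hτ hK (Φ := hU j) fun p hp x => cd_hU j (good Q hp.1 x)
  obtain ⟨C₅, h5⟩ := (Set.finite_range C₄).bddAbove
  refine ⟨max (max C₁ C₂) (max C₃ C₅), fun B hB u hu => ?_⟩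
  simp only [max_le_iff] at hB
  obtain ⟨s, hs1, hs⟩ := exists_eig u hu
  have hp : (u, s) ∈ {u : R3 | len u = 1} ×ˢ Metric.closedBall (0 : Sp) 1 :=
    ⟨hu, mem_closedBall_zero_iff.2 hs1.le⟩
  have g := good Q hu
  have fp_sm : SmF Q.toCM fun x => fpU ((u, s), tau Q x) := smF_of hτ fun x => cd_fpU (g x)
  have fm_sm : SmF Q.toCM fun x => fmU ((u, s), tau Q x) := smF_of hτ fun x => cd_fmU (g x)
  have gp_sm : SmF Q.toCM fun x => gpU ((u, s), tau Q x) := smF_of hτ fun x => cd_gpU (g x)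
  have gm_sm : SmF Q.toCM fun x => gmU ((u, s), tau Q x) := smF_of hτ fun x => cd_gmU (g x)
  have fp_norm : ∀ x, ‖fpU ((u, s), tau Q x)‖ ^ 2 = 2 * len (Q.nu u x) := fun x =>
    norm_NN hs hs1 rfl (g x).2
  have fp_eig : ∀ x, P3 (Q.nu u x) (fpU ((u, s), tau Q x)) =
      (len (Q.nu u x) : ℂ) • fpU ((u, s), tau Q x) := fun x => P3_NN _ _ _
  have dec : ∀ x (ψ : Sp), ψ = inner ℂ (gpU ((u, s), tau Q x)) ψ • fpU ((u, s), tau Q x) +
      inner ℂ (gmU ((u, s), tau Q x)) ψ • fmU ((u, s), tau Q x) := by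
    intro x ψ
    have h0 : (2 * len (Q.nu u x) : ℝ) ≠ 0 := (mul_pos two_pos (g x).1).ne'
    rw [gpU, gmU, rsmul, rsmul, inner_smul_left, inner_smul_left, mul_smul, mul_smul, ← smul_add,
      fmU, dec_jf, fp_norm, smul_smul, Complex.conj_ofReal, ← Complex.ofReal_mul]
    erw [inv_mul_cancel₀ h0]
    rw [Complex.ofReal_one, one_smul]
  refine ⟨{
    fp := fun x => fpU ((u, s), tau Q x)
    fm := fun x => fmU ((u, s), tau Q x)
    gp := fun x => gpU ((u, s), tau Q x)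
    gm := fun x => gmU ((u, s), tau Q x)
    h := fun j x => hU j ((u, s), tau Q x)
    fp_sm := fp_sm
    fm_sm := fm_sm
    gp_sm := gp_sm
    gm_sm := gm_sm
    h_sm := fun j => smF_of hτ fun x => cd_hU j (g x)
    lam_ge := fun x => inv_le_of_inv_le₀ (g x).1
      ((le_abs_self _).trans (h2 B hB.1.2 _ hp x 0).1)
    lam_le := fun x => (le_abs_self _).trans (h1 B hB.1.1 _ hp x 0).1
    fp_norm := fp_norm
    fm_norm := fun x => (norm_jf_sq _).trans (fp_norm x)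
    fp_eig := fp_eig
    fm_eig := fun x => P3_jf (fp_eig x)
    gp_eq := fun x => rsmul _ _
    gm_eq := fun x => rsmul _ _
    dec := dec
    ddec := fun x ψ c => df_dec fp_sm gp_sm fm_sm gm_sm ψ (fun x => dec x ψ) x c
    dir_fp := fun x => ?_
    Z_fm := fun x => ?_
    dfm_le := fun x c => (h3 B hB.2.1 _ hp x c).2
    h_eq := fun x k => ?_
    dh_le := fun j x c => (h4 j B ((h5 ⟨j, rfl⟩).trans hB.2.2) _ hp x c).2 }⟩
  · have hN : SmF Q.toCM fun x => NU (u, tau Q x) := smF_of hτ fun x => cd_NU (g x)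
    have e1 : RU (u, tau Q x) (fpU ((u, s), tau Q x)) = -s := RR_NN hs rfl (g x).2 (g x).1
    rw [Zu, GU, ContinuousLinearMap.sum_apply, ← Finset.sum_add_distrib]
    refine Finset.sum_eq_zero fun c _ => ?_
    have e2 : df Q.toCM (fun x => fpU ((u, s), tau Q x)) x c =
        fderiv ℝ NU (u, tau Q x) (0, df Q.toCM (tau Q) x c) s := by
      rw [← df_of hτ fun x => cd_NU (g x)]
      exact df_app hN s x c
    rw [e2, ContinuousLinearMap.mul_apply, ContinuousLinearMap.mul_apply, e1, map_neg, map_neg,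
      add_neg_cancel]
  · have e1 : RU (u, tau Q x) (fmU ((u, s), tau Q x)) = 0 := RR_neg _ _ _ (P3_jf (fp_eig x))
    rw [Zu, GU, ContinuousLinearMap.sum_apply]
    refine Finset.sum_eq_zero fun c _ => ?_
    rw [ContinuousLinearMap.mul_apply, ContinuousLinearMap.mul_apply, e1, map_zero, map_zero]
  · simp only [hU, Finset.sum_mul, mul_assoc]
    rw [Finset.sum_comm]
    have e1 : ∀ k', ∑ j, (((tau Q x).2 k' j : ℝ) : ℂ) * (Q.T x j k : ℂ) =
        if k' = k then 1 else 0 := fun k' => by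
      have := congrArg (fun r : ℝ => (r : ℂ)) (Q.inv_T x k' k)
      simp only [Complex.ofReal_sum, Complex.ofReal_mul] at this
      refine Eq.trans this ?_
      split_ifs <;> simp
    simp only [← Finset.mul_sum, e1, mul_ite, mul_one, mul_zero, Finset.sum_ite_eq',
      Finset.mem_univ, if_true]

end QEig

open QEig in
theorem EIG : EIG_statement := fun X _ _ _ _ _ Q _ => by
  obtain ⟨C₁, h1⟩ := eig Q
  obtain ⟨C₂, h0, h2⟩ := ZZ_bd Q
  refine ⟨max (max C₁ C₂) 1, ZZ Q, ⟨lt_of_lt_of_le one_pos (le_max_right _ _), ZZ_hom Q,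
    fun c x => (h2 c x).trans ?_, ZZ_cont Q, fun c hc => ?_⟩⟩
  · exact (mul_le_of_le_one_left h0 (min_le_right _ _)).trans
      ((le_max_right _ _).trans (le_max_left _ _))
  · have h3 : ZZ Q c = Zu Q ((len c)⁻¹ • c) := funext fun x => by
      rw [ZZ, min_eq_right hc, one_smul]
    rw [h3]
    exact h1 _ ((le_max_left _ _).trans (le_max_left _ _)) _ (len_unit (one_pos.trans_le hc))

end Vale.Agent.P247E
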