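import Vale.Agent.P247E.QKato
import Vale.Agent.P247E.Jac

/-!
# P247E: the row `ST1`
-/

set_option linter.all false

open scoped ContDiff Topology ENNReal ComplexConjugate
open Set MeasureTheory Filter

noncomputable section

namespace Vale.Agent.P247E

open Vale.Agent.P204.GX Vale.Agent.P204.T4
open Vale.Agent.P247.H647 (Sp hat jz)

attribute [local instance] fact4 holder442

theorem hat_jac (ζ : Fin 4 → ℂ) (n : ℝ) (F D : L2) (k : Fin 3) :
    hat (ent (ofEnt (jz ζ) - n • (F + D))) k =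
      hat (jz ζ) k - n * (hat (ent F) k + hat (ent D) k) := by
  fin_cases k <;> simp [hat, ent, ofEnt, jz] <;> ring

theorem cont_hat (k : Fin 3) : Continuous fun A : L2 => hat (ent A) k := by
  fin_cases k <;> simp [hat, ent] <;> fun_prop

/-- the inner product as a real bilinear map -/
def inB (K E : Type) [RCLike K] [NormedAddCommGroup E] [InnerProductSpace K E] [NormedSpace ℝ E]
    [IsScalarTower ℝ K E] : E →L[ℝ] E →L[ℝ] K :=
  (isBoundedBilinearMap_inner (𝕜 := K)).toContinuousLinearMap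

theorem cl_jz {X Y : Type*} [MeasurableSpace X] [TopologicalSpace Y] {μ : Measure X}
    {ζ : Y → X → Fin 4 → ℂ} (h : ∀ c, CL μ 2 fun y x => ζ y x c) (k : Fin 3) :
    CL μ 1 fun y x => hat (jz (ζ y x)) k := by
  have h1 : ∀ a c, CL μ 1 fun y x => jz (ζ y x) a c := fun a c =>
    ((h a).bil (h c) ((ContinuousLinearMap.mul ℝ ℂ).comp
      Complex.conjCLE.toContinuousLinearMap)).lin ((2 : ℝ) • Complex.imCLM)
  fin_cases k
  exacts [(h1 0 1).add (h1 2 3), (h1 0 2).add (h1 3 1), (h1 0 3).add (h1 1 2)]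

theorem ST1 : ST1_statement := by
  intro X _ _ _ _ _ Q L H hH w φ f hf j
  have ha : CL Q.mu 4 fun y : L.bp.H1 × Q.t1.H1 => Q.av y.2 :=
    (Q.t1.cl4.comp continuous_snd).lin vecL
  have f0 : CL Q.mu ⊤ fun _ : L.bp.H1 × Q.t1.H1 => f := cl_const (hf.bm.memLp ⊤)
  have h1 := cl_jz (ζ := fun (y : L.bp.H1 × Q.t1.H1) x c => inner ℂ (f x) (L.nabA y.1 (Q.av y.2) x c)
      + inner ℂ (df Q.toCM f x c) ((L.bp.J y.1 : X → Sp) x)) fun c =>
    (f0.bil (L.cl_nabA continuous_fst ha c) (inB ℂ Sp)).add ((cl_const ((hf.bm_df c).memLp ⊤)).bil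
      (cl_lp (L.bp.J.continuous.comp continuous_fst)) (inB ℂ Sp))
  have hσ : CL Q.mu 4 _ := f0.bil (L.bp.cl4.comp continuous_fst) (inB ℂ Sp)
  have h2 : ∀ k, CL Q.mu 1 fun (y : L.bp.H1 × Q.t1.H1) x =>
      ‖inner ℂ (f x) ((L.bp.J y.1 : X → Sp) x)‖ ^ 2 * Q.Fa L H y.2 x k := fun k =>
    CL.bil (p := 2) (q := 2) ((hσ.bil hσ (inB ℝ ℂ)).congr fun y => .of_forall fun x =>
      real_inner_self_eq_norm_sq (F := ℂ) _) ((cl_const (((bm_Om L.F_mem).cont (cont_hat k)).memLp 2)).add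
      ((cl_lp (H.clm.continuous.comp continuous_snd)).lin
        ((ContinuousLinearMap.proj k.succ).comp vecL))) (ContinuousLinearMap.mul ℝ ℝ)
  have h3 := (cl_sum Finset.univ fun k => (cl_const ((SmF.bm (f := fun x => Q.T x j k)
    (Q.T_smooth j k)).memLp ⊤)).bil (r := 1) ((h1 k).sub (h2 k)) (ContinuousLinearMap.mul ℝ ℝ)).int.2
  refine ⟨fun k => (h1 k).int.1 (w, φ), fun k => (h2 k).int.1 (w, φ), ?_⟩
  refine (L.bp.H1_ind (isClosed_eq (h3.comp (.prodMk_left φ)) (continuous_const (y := 0)))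
    (fun w s hs r => ?_) w :)
  refine (Q.t1.H1_ind (isClosed_eq (h3.comp (.prodMk_right w)) (continuous_const (y := 0)))
    (fun φ t ht r' => ?_) φ :)
  obtain ⟨k1, k2⟩ := L.jac ((Q.mem_t1 t).1 ht) (LBc.Sm.inner hf hs)
  refine (integral_congr_ae ?_).trans (pr_dX k1 (Q.w_mem j) (Q.w_closed j))
  filter_upwards [r.J_ae, r'.J_ae, eventually_all.2 (L.nabH_rep hs r), r'.clm_ae ht H]
    with x a1 a2 a3 a4
  rw [k2, Q.Q_w]
  refine Finset.sum_congr rfl fun k _ => ?_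
  simp only [hat_jac, LBc.nabA, QM.av, QM.Fa, a1, a2, a3, a4, hH.curl t ht, LBc.Fh,
    ContinuousLinearMap.mul_apply']
  congr 4
  funext c
  simp only [LBc.cva, LBc.cv_inner hf hs, inner_sub_right, inner_smul_right]
  ring

end Vale.Agent.P247E
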