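import Vale.Agent.P247E.Bq1

/-!
# P247E: forms, the curvature, the operators on `H¹`
-/

set_option linter.all false

open scoped ContDiff Topology ENNReal ComplexConjugate
open Set MeasureTheory Filter

noncomputable section

namespace Vale.Agent.P247E

open Vale.Agent.P204.GX Vale.Agent.P204.T4
open Vale.Agent.P247.H74 (e)
open Vale.Agent.P247.H647 (Sp En sig pau omM hat len jz symb cov P3)

/-! ## Algebra -/

theorem eS_eq (k : Fin 3) :
    eS k = ![![1, 0, 0, 0, 0, 1], ![0, 1, 0, 0, -1, 0], ![0, 0, 1, 1, 0, 0]] k := by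
  fin_cases k <;> simp [eS, ofEnt, omM]

theorem Q_eS_hat (A : L2) (k : Fin 3) : P204.T4.Q A (eS k) = hat (ent A) k := by
  fin_cases k <;> simp [eS_eq, P204.T4.Q, hat, ent] <;> ring

theorem pull_Rq_eS (p : V4) (k : Fin 3) : pull (Rq p) (eS k) = (∑ c, p c ^ 2) • eS k := by
  apply ext_ev
  intro v w
  rw [ev_pull, ev_smul]
  fin_cases k <;> simp [eS_eq, ev_eq, app_eq, Rq, Fin.sum_univ_four] <;> ring

theorem Q_sum (A : L2) (t : Fin 3 → ℝ) (B : Fin 3 → L2) :
    P204.T4.Q A (∑ k, t k • B k) = ∑ k, t k * P204.T4.Q A (B k) := by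
  simp only [Fin.sum_univ_three, Q_add_right, Q_smul_right]

theorem spn_fin (t : V4) (i : Fin 2) :
    spn t i = ![(t 0 : ℂ) + Complex.I * t 3, Complex.I * t 1 - t 2] i := by
  fin_cases i <;> simp [spn, sgm_fin, s0]

theorem vec_eq (φ : Sp) : vec φ = ![(φ 0).re, (φ 1).im, -(φ 1).re, (φ 0).im] := by
  funext c
  fin_cases c <;>
    simp [vec, Vale.Agent.P247.H647.inner_sp, Vale.Agent.P247.H647.sig_fin, s0]

theorem vec_spn (t : V4) : vec (spn t) = t := by
  funext c
  fin_cases c <;> simp [vec_eq, spn_fin]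

theorem spn_vec (φ : Sp) : spn (vec φ) = φ := by
  ext i
  fin_cases i <;> apply Complex.ext <;> simp [vec_eq, spn_fin]

theorem sgm_spn (p t : V4) : sgm p (spn t) = spn (app (Rq p) t) := sgm_sgm p t s0

theorem vec_sgm (p : V4) (φ : Sp) : vec (sgm p φ) = app (Rq p) (vec φ) := by
  conv_lhs => rw [← spn_vec φ, sgm_spn, vec_spn]

theorem copp_Rq (v p : V4) : copp v (Rq p) = app (Rq (cq p)) v := by
  funext i
  simp only [copp, app, Rq_cq, mul_comm]

/-- `vec` as a continuous linear map -/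
def vecL : Sp →L[ℝ] V4 :=
  LinearMap.toContinuousLinearMap
    { toFun := vec
      map_add' := fun a b => by funext c; simp [vec, inner_add_right]
      map_smul' := fun r a => by
        funext c
        fin_cases c <;> simp [vec_eq] }

@[simp] theorem vecL_apply (φ : Sp) : vecL φ = vec φ := rfl

/-- `spn` as a continuous linear map -/
def spnL : V4 →L[ℝ] Sp := ((ContinuousLinearMap.apply ℝ Sp s0).comp reL).comp sgmL

@[simp] theorem spnL_apply (t : V4) : spnL t = spn t := rfl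

theorem pull_jz (P : M4) (ζ : Fin 4 → ℂ) :
    pull P (ofEnt (jz ζ)) = ofEnt (jz fun i => ∑ c, (P c i : ℂ) * ζ c) := by
  have h : ∀ ζ : Fin 4 → ℂ, ofEnt (jz ζ) = (2 : ℝ) • wd (fun i => (ζ i).re) fun i => (ζ i).im := by
    intro ζ
    funext k
    fin_cases k <;> simp [ofEnt, jz, wd] <;> ring
  rw [h, h, pull_smul, pull_wd]
  congr 2 <;> funext i <;> simp [copp, mul_comm]

theorem jz_mul {γ : ℂ} (h : ‖γ‖ = 1) (ζ : Fin 4 → ℂ) : jz (fun i => γ * ζ i) = jz ζ := by
  funext i j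
  have h1 : conj γ * γ = 1 := by rw [Complex.conj_mul', h]; simp
  simp only [jz, map_mul]
  rw [mul_mul_mul_comm, h1, one_mul]

/-! ## The Jacobian form in a chart -/

theorem d1_jac {g : V4 → ℂ} {B : V4 → V4} {y : V4} (hg : ContDiffAt ℝ ∞ g y)
    (hB : DifferentiableAt ℝ B y) :
    d1 (fun z i => (conj (g z) * (fderiv ℝ g z (e i) - Complex.I * B z i * g z)).im) y =
      ofEnt (jz fun i => fderiv ℝ g y (e i) - Complex.I * B y i * g y) - ‖g y‖ ^ 2 • d1 B y := by
  set u : V4 → ℝ := fun z => (g z).re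
  set v : V4 → ℝ := fun z => (g z).im
  have hu : ContDiffAt ℝ ∞ u y := Complex.reCLM.contDiff.contDiffAt.comp y hg
  have hv : ContDiffAt ℝ ∞ v y := Complex.imCLM.contDiff.contDiffAt.comp y hg
  have h1 : ∀ z, DifferentiableAt ℝ g z → ∀ i,
      (fderiv ℝ g z (e i)).re = pd i u z ∧ (fderiv ℝ g z (e i)).im = pd i v z := by
    intro z hz i
    constructor
    · exact (congrArg (fun T : V4 →L[ℝ] ℝ => T (e i))
        (Complex.reCLM.hasFDerivAt.comp z hz.hasFDerivAt).fderiv).symm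
    · exact (congrArg (fun T : V4 →L[ℝ] ℝ => T (e i))
        (Complex.imCLM.hasFDerivAt.comp z hz.hasFDerivAt).fderiv).symm
  have h2 : (fun z i => (conj (g z) * (fderiv ℝ g z (e i) - Complex.I * B z i * g z)).im) =ᶠ[𝓝 y]
      fun z i => u z * pd i v z - v z * pd i u z - B z i * (u z * u z + v z * v z) := by
    filter_upwards [(hg.of_le (m := 1) (by simp)).eventually (by simp)] with z hz
    funext i
    obtain ⟨a, b⟩ := h1 z (hz.differentiableAt (by simp)) i
    simp [a, b, u, v]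
    ring
  have du := hu.differentiableAt (by simp)
  have dv := hv.differentiableAt (by simp)
  have dpu := fun i => (contDiffAt_pd hu i).differentiableAt (by simp)
  have dpv := fun i => (contDiffAt_pd hv i).differentiableAt (by simp)
  have dB := fun i => differentiableAt_pi.1 hB i
  have h3 : ∀ i j, pd i (fun z => u z * pd j v z - v z * pd j u z -
      B z j * (u z * u z + v z * v z)) y = u y * pd i (pd j v) y + pd i u y * pd j v y -
      (v y * pd i (pd j u) y + pd i v y * pd j u y) - (B y j * (2 * (u y * pd i u y) +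
        2 * (v y * pd i v y)) + pd i (fun z => B z j) y * (u y * u y + v y * v y)) := by
    intro i j
    rw [P204.GX.pd_sub ((du.fun_mul (dpv j)).fun_sub (dv.fun_mul (dpu j)))
      ((dB j).fun_mul ((du.fun_mul du).fun_add (dv.fun_mul dv))),
      P204.GX.pd_sub (du.fun_mul (dpv j)) (dv.fun_mul (dpu j)), P204.GX.pd_mul du (dpv j), P204.GX.pd_mul dv (dpu j),
      P204.GX.pd_mul (dB j) ((du.fun_mul du).fun_add (dv.fun_mul dv)),
      P204.GX.pd_add (du.fun_mul du) (dv.fun_mul dv), P204.GX.pd_mul du du, P204.GX.pd_mul dv dv]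
    ring
  have h4 : ∀ i j, ent (d1 (fun z i => u z * pd i v z - v z * pd i u z -
      B z i * (u z * u z + v z * v z)) y) i j =
      jz (fun i => fderiv ℝ g y (e i) - Complex.I * B y i * g y) i j -
        ‖g y‖ ^ 2 * ent (d1 B y) i j := by
    intro i j
    obtain ⟨a, b⟩ := h1 y (hg.differentiableAt (by simp)) i
    obtain ⟨c, d⟩ := h1 y (hg.differentiableAt (by simp)) j
    rw [P204.GX.ent_d1, P204.GX.ent_d1, h3, h3, pd_symm hu i j, pd_symm hv i j, Complex.sq_norm,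
      Complex.normSq_apply]
    simp [jz, a, b, c, d, u, v]
    ring
  rw [d1_congr h2]
  funext k
  fin_cases k
  exacts [h4 0 1, h4 0 2, h4 0 3, h4 1 2, h4 1 3, h4 2 3]

variable {X : Type} [MetricSpace X] {M : CM X}

theorem sum_m_fv {E : Type} [NormedAddCommGroup E] [NormedSpace ℝ E] (T : V4 →L[ℝ] E) (a : M.A)
    (y : V4) (i : Fin 4) : ∑ c, M.m a y c i • T (fv M a y c) = T (e i) := by
  conv_rhs => rw [← M.m'_m a y (e i)]
  simp only [← map_smul, ← map_sum]
  congr 1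
  funext k
  simp [fv, app_e, app, mul_comm, e, Pi.single_apply]

/-! ## The curvature -/

theorem LBc.cf_F (L : LBc M) (a : M.A) : M.cf a L.F = d1 fun y i => L.A a y (e i) := by
  refine M.cf_glue (fun a b y hy => ?_) a
  have hO := (M.isOpen_O a b).mem_nhds hy
  have hA : ∀ a, ContDiff ℝ ∞ fun y i => L.A a y (e i) := fun a =>
    contDiff_pi.2 fun i => (L.A_smooth a).clm_apply contDiff_const
  have hτ := M.contDiffAt_τ hy
  have h1 := d1_pull (((hA b).differentiable (by simp)) (M.τ a b y)) hτ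
  have h2 : ContDiffAt ℝ ∞ (fun z => copp (fun i => L.A b (M.τ a b z) (e i)) (Dm (M.τ a b) z)) y :=
    contDiffAt_copp (contDiffAt_Dm hτ) ((hA b).contDiffAt.comp y hτ)
  have h3 : ∀ z ∈ M.O a b, ∀ i, fderiv ℝ (fun y => conj (L.γ b (M.τ a b y)) * L.γ a y) z (e i) -
      Complex.I * ((copp (fun i => L.A b (M.τ a b z) (e i)) (Dm (M.τ a b) z) -
        (fun i => L.A a z (e i)) : V4) i : ℝ) * (conj (L.γ b (M.τ a b z)) * L.γ a z) = 0 := by
    intro z hz i
    rw [L.G_der a b z hz, clm_vec (L.A b _), sub_eq_zero]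
    simp only [Pi.sub_apply, copp, Dm_eq (M.differentiableAt_τ hz), smul_eq_mul, mul_comm]
    rfl
  have h4 := d1_jac ((L.G_smooth a b).contDiffAt hO)
    ((h2.sub (hA a).contDiffAt).differentiableAt (by simp))
  rw [d1_congr (b := fun _ => 0) (by
    filter_upwards [hO] with z hz
    funext i
    rw [h3 z hz i]; simp), d1_zero] at h4
  simp only [h3 y hy] at h4
  have h5 : ofEnt (jz fun _ => 0) = 0 := by
    funext k; fin_cases k <;> simp [ofEnt, jz]
  rw [h5, norm_mul, RCLike.norm_conj, L.γ_norm, L.γ_norm, zero_sub, eq_comm, neg_eq_zero] at h4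
  simp only [mul_one, one_pow, one_smul] at h4
  rw [CM.Dt, ← h1]
  funext k
  have d2 := fun i => differentiableAt_pi.1 (h2.differentiableAt (by simp)) i
  have d3 := fun i => differentiableAt_pi.1 ((hA a).differentiable (by simp) y) i
  have h6 : ∀ i j, ent (d1 (fun y i => L.A a y (e i)) y) i j = ent (d1 (fun z =>
      copp (fun i => L.A b (M.τ a b z) (e i)) (Dm (M.τ a b) z)) y) i j := by
    intro i j
    have := congrArg (fun A => ent A i j) h4
    simp only [P204.GX.ent_d1, ent_zero, Pi.sub_apply] at this ⊢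
    rw [P204.GX.pd_sub (d2 j) (d3 j), P204.GX.pd_sub (d2 i) (d3 i)] at this
    linarith
  fin_cases k
  exacts [h6 0 1, h6 0 2, h6 0 3, h6 1 2, h6 1 3, h6 2 3]

theorem LBc.cd_A (L : LBc M) (a : M.A) : ContDiff ℝ ∞ fun y i => L.A a y (e i) :=
  contDiff_pi.2 fun i => (L.A_smooth a).clm_apply contDiff_const

theorem LBc.F_mem (L : LBc M) : L.F ∈ M.Om := fun a => by
  rw [L.cf_F]; exact contDiff_d1 (L.cd_A a)

theorem LBc.F_closed (L : LBc M) (a : M.A) : Closed (M.cf a L.F) := by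
  rw [L.cf_F]; exact closed_d1 (L.cd_A a)

theorem LBc.triv_F (M : CM X) : (LBc.triv M).F = 0 := by
  funext x
  exact (congrArg (pull _) (d1_zero _)).trans (pull_zero _)

theorem cf1_df {f : X → ℝ} (hf : M.Sm0 f) (a : M.A) :
    M.cf1 a (df M f) = fun y i => pd i (fun z => f (M.ψ a z)) y := by
  funext y i
  simp only [CM.cf1, copp, df_psi (E := ℝ) hf]
  rw [pd, ← e, ← sum_m_fv _ a y]
  simp only [smul_eq_mul, mul_comm]

theorem sm1_df {f : X → ℝ} (hf : M.Sm0 f) : M.Sm1 (df M f) := fun a => by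
  rw [cf1_df hf]; exact contDiff_pi.2 fun i => P204.GX.contDiff_pd (hf a) i

theorem dX_df {f : X → ℝ} (hf : M.Sm0 f) : M.dX (df M f) = 0 :=
  M.ext_cf fun a y _ => by
    rw [M.cf_dX (sm1_df hf), cf1_df hf, M.cf_zero, ← ofEnt_ent (d1 _ _)]
    funext k
    have := fun i j => pd_symm (hf a).contDiffAt (x := y) i j
    fin_cases k <;> simp only [ofEnt, P204.GX.ent_d1] <;> exact sub_eq_zero.2 (this _ _)

/-! ## The quaternionic frames -/

variable (Q : QM X)

theorem QM.w_mem (j : Fin 3) : Q.w j ∈ Q.Om := fun a => by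
  have : Q.cf a (Q.w j) = fun y => ∑ k, Q.T (Q.ψ a y) j k • pull (Q.n a y) (eS k) := by
    funext y
    simp only [CM.cf, Q.w_eq, Fin.sum_univ_three, pull_add, pull_smul, Q.m_eq, pull_mm, pull_Rq_eS,
      Q.p_unit, one_smul]
  rw [this]
  have h : ∀ k, ContDiff ℝ ∞ fun y => pull (Q.n a y) (eS k) := fun k =>
    contDiff_iff_contDiffAt.2 fun y => contDiffAt_pull (Q.n_smooth a).contDiffAt contDiffAt_const
  exact ContDiff.sum fun k _ => (Q.T_smooth j k a).smul (h k)

theorem QM.Q_w (j : Fin 3) (x : X) (A : L2) :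
    P204.T4.Q A (Q.w j x) = ∑ k, Q.T x j k * hat (ent A) k := by
  simp only [Q.w_eq, Q_sum, Q_eS_hat]

theorem QM.copp_n_n' (a : Q.A) (y v : V4) : copp (copp v (Q.n a y)) (Q.n' a y) = v := by
  rw [← copp_mm, m4_ext (P := mm (Q.n a y) (Q.n' a y)) (R := oneM) fun v => by
    rw [app_mm, Q.n_n', app_one], copp_one]

theorem QM.copp_n'_n (a : Q.A) (y v : V4) : copp (copp v (Q.n' a y)) (Q.n a y) = v := by
  rw [← copp_mm, m4_ext (P := mm (Q.n' a y) (Q.n a y)) (R := oneM) fun v => by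
    rw [app_mm, Q.n'_n, app_one], copp_one]

theorem QM.cf1_eq (a : Q.A) (η : X → V4) (y : V4) :
    Q.cf1 a η y = copp (app (Rq (cq (Q.p a y))) (η (Q.ψ a y))) (Q.n a y) := by
  rw [CM.cf1, Q.m_eq, copp_mm, copp_Rq]

theorem QM.t1_lo (a : Q.A) (φ : X → Sp) (y : V4) :
    Q.t1.lo a φ y = sgm (cq (Q.p a y)) (φ (Q.ψ a y)) := by
  show conj (1 : ℂ) • sgm (cq (Q.p a y)) (φ (Q.ψ a y)) = _
  simp

theorem QM.cf1_vec (a : Q.A) (φ : X → Sp) (y : V4) :
    Q.cf1 a (fun x => vec (φ x)) y = copp (vec (Q.t1.lo a φ y)) (Q.n a y) := by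
  rw [Q.cf1_eq, Q.t1_lo, vec_sgm]

theorem QM.mem_t1 (φ : X → Sp) : φ ∈ Q.t1.Sm ↔ Q.Sm1 fun x => vec (φ x) := by
  refine forall_congr' fun a => ⟨fun h => ?_, fun h => ?_⟩
  · rw [funext (Q.cf1_vec a φ)]
    exact contDiff_copp.comp ((vecL.contDiff.comp h).prodMk (Q.n_smooth a))
  · have : Q.t1.lo a φ = fun y => spnL (copp (Q.cf1 a (fun x => vec (φ x)) y) (Q.n' a y)) := by
      funext y
      rw [Q.cf1_vec, Q.copp_n_n', spnL_apply, spn_vec]
    rw [this]
    exact spnL.contDiff.comp (contDiff_copp.comp (h.prodMk (Q.n'_smooth a)))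

theorem QM.hom_sgm (L : LBc Q.toCM) {η : X → V4} (h : Q.Sm1 η) :
    L.bp.Hom (Q.bm L) fun x => reL ((-Complex.I) • sgm (η x)) := fun a => by
  have h1 := contDiff_reL ((contDiff_sgm
    (contDiff_copp.comp ((h a).prodMk (Q.n'_smooth a)))).const_smul (-Complex.I))
  convert h1 using 2 with y
  ext1 v
  show conj (L.γ a y) • sgm (cq (Q.p a y)) ((-Complex.I) • sgm (η (Q.ψ a y)) (L.γ a y • v)) =
    (-Complex.I) • sgm (copp (Q.cf1 a η y) (Q.n' a y)) v
  rw [Q.cf1_eq, Q.copp_n_n', map_smul, map_smul, map_smul, sgm_sgm, smul_comm, smul_smul (conj _),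
    L.conj_mul, one_smul]

theorem QM.sum_dM (a : Q.A) (y ξ : V4) (v : Sp) :
    (∑ i, ξ i • Q.dM a i y) v = sgm (copp ξ (Q.n' a y)) v := by
  have : copp ξ (Q.n' a y) = ∑ i, ξ i • fun d => Q.b a y d i := by
    funext d
    simp [copp, QM.b_apply]
  rw [this, ← sgmL_apply, map_sum, ← reL_apply, map_sum]
  simp only [map_smul]; rfl

theorem QM.dirac_cliff (L : LBc Q.toCM) : (Q.dirac L).Cliff := by
  intro a y ξ hξ
  refine ⟨Real.sqrt (∑ c, copp ξ (Q.n' a y) c ^ 2), Real.sqrt_pos.2 ?_, fun v => ?_⟩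
  · by_contra h
    have h1 := (Finset.sum_eq_zero_iff_of_nonneg fun c _ => sq_nonneg _).1
      (le_antisymm (not_lt.1 h) (Finset.sum_nonneg fun c _ => sq_nonneg _))
    have h2 : copp ξ (Q.n' a y) = 0 := funext fun c => pow_eq_zero_iff two_ne_zero |>.1
      (h1 c (Finset.mem_univ c))
    exact hξ (by rw [← Q.copp_n'_n a y ξ, h2, copp_zero])
  · show ‖(∑ i, ξ i • Q.dM a i y) v‖ = _
    rw [Q.sum_dM, ← Real.sqrt_sq (norm_nonneg _), norm_sgm_sq,
      Real.sqrt_mul (Finset.sum_nonneg fun c _ => sq_nonneg _), Real.sqrt_sq (norm_nonneg _)]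

/-! ## The covariant derivative on `H¹` -/

theorem LBc.cvJ_jet (L : LBc M) {s : X → Sp} (hs : s ∈ L.bp.Sm) (c : Fin 4) (x : X) :
    L.cvJ c x (L.bp.jet s x) = L.cv s x c := by
  have hs' : L.Sm s := hs
  rw [← sum_zeta_smul M x (L.cv s x c), LBc.cvJ, sum_apply]
  refine Finset.sum_congr rfl fun a _ => ?_
  simp only [sub_apply, sum_apply, smul_apply, ContinuousLinearMap.comp_apply, jproj,
    PiLp.proj_apply, Bun.jet]
  rcases zeta_cases a x with h | ⟨y, hy, rfl⟩
  · simp [Bun.nab, h]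
  · simp only [L.bp.nab_ψ, M.inv_ψ, M.ext0_ψ_self, theta_one (hy.le.trans (by norm_num)), one_mul,
      L.cv_psi hs', cov, smul_sub, reL_apply]
    congr 1
    · erw [clm_vec (fderiv ℝ (L.bp.lo a s) y)]
      simp only [Finset.smul_sum]
      refine Finset.sum_congr rfl fun i _ => ?_
      show fv M a y c i • M.zl a y • L.γ a y • fderiv ℝ (L.bp.lo a s) y (e i) =
        M.zl a y • L.γ a y • fv M a y c i • fderiv ℝ (L.bp.lo a s) y (e i)
      rw [smul_comm, smul_comm (fv M a y c i)]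
    · rw [smul_comm (L.γ a y), L.γ_lo, mul_smul, mul_comm, mul_smul]
      rfl

variable [CompactSpace X] [MeasurableSpace X] [BorelSpace X]

theorem LBc.bm_cvJ (L : LBc M) (c : Fin 4) : BM (L.cvJ c) := by
  refine bm_sum _ fun a => ?_
  simp only [sub_eq_add_neg, mul_smul, ← smul_neg]
  refine (bm_sum _ fun i => bm_theta a (g := fun y => fv M a y c i • jproj M Sp (some (a, i)))
    ((lb_fv a c).cont (F := fun v => v i • jproj M Sp (some (a, i))) (by fun_prop))).add
    (bm_zeta a (g := fun y => L.A a y (fv M a y c) •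
      -(reL (Complex.I • (1 : En))).comp (jproj M Sp none)) ?_)
  exact ((lb_cont (L.A_smooth a).continuous).app (lb_fv a c)).cont
    (F := fun r : ℝ => r • -(reL (Complex.I • (1 : En))).comp (jproj M Sp none)) (by fun_prop)

theorem LBc.nabH_ae (L : LBc M) (c : Fin 4) (w : L.bp.H1) : (L.nabH c w : X → Sp) =ᵐ[M.mu]
    fun x => L.cvJ c x ((w : LL2 M (Jt M Sp)) x) := (L.bm_cvJ c).mulOp_ae _

theorem LBc.nabH_rep (L : LBc M) {w : L.bp.H1} {s : X → Sp} (hs : s ∈ L.bp.Sm)
    (h : L.bp.Rep w s) (c : Fin 4) : (L.nabH c w : X → Sp) =ᵐ[M.mu] fun x => L.cv s x c :=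
  (L.nabH_ae c w).trans (Eventually.mono h fun x hx => by simp only [hx, L.cvJ_jet hs])

theorem QM.dirac_ae (L : LBc Q.toCM) (w : L.bp.H1) : ((Q.dirac L).clm w : X → Sp) =ᵐ[Q.mu]
    fun x => ∑ c, sig c ((L.nabH c w : X → Sp) x) := by
  have h1 : ∀ w : L.bp.H1, (∑ c, (reL (sig c)).compLpL 2 Q.mu (L.nabH c w) : LL2 Q.toCM Sp) =ᵐ[Q.mu]
      fun x => ∑ c, sig c ((L.nabH c w : X → Sp) x) := by
    intro w
    filter_upwards [Lp.coeFn_fun_finsetSum Finset.univ
      fun c => (reL (sig c)).compLpL 2 Q.mu (L.nabH c w),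
      eventually_all.2 fun c => (reL (sig c)).coeFn_compLpL (L.nabH c w)] with x h1 h2
    rw [h1]
    exact Finset.sum_congr rfl fun c _ => h2 c
  have h2 : (Q.dirac L).clm w = ∑ c, (reL (sig c)).compLpL 2 Q.mu (L.nabH c w) := by
    refine L.bp.H1_ind (p := fun w => (Q.dirac L).clm w =
      ∑ c, (reL (sig c)).compLpL 2 Q.mu (L.nabH c w)) (isClosed_eq (by fun_prop) (by fun_prop))
      (fun w s hs h => Lp.ext ?_) w
    filter_upwards [h.clm_ae hs (Q.dirac L), h1 w, eventually_all.2 (L.nabH_rep hs h)]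
      with x a1 a2 a3
    rw [a1, a2, Q.dirac_app]
    simp only [a3]
  rw [h2]
  exact h1 w

theorem BQ2 : BQ2_statement := fun _ _ _ _ _ _ Q L =>
  ⟨Q.w_mem, Q.Q_w, L.F_mem, L.cf_F, L.F_closed, LBc.triv_F _, Q.mem_t1,
    fun _ hf => ⟨sm1_df hf, dX_df hf⟩, fun _ => Q.hom_sgm L, Q.dirac_cliff L,
    fun _ _ => L.nabH_rep, Q.dirac_ae L⟩

end Vale.Agent.P247E
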