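import Vale.Agent.P247E.Sta

/-!
# P247E: passing between the manifold and the charts
-/

open scoped ContDiff Topology ENNReal NNReal
open Set MeasureTheory Filter Metric

set_option linter.all false

noncomputable section

namespace Vale.Agent.P247E

open Vale.Agent.P204.GX Vale.Agent.P204.T4
open Vale.Agent.P247.H74 (e)

variable {X : Type} [MetricSpace X] {M : CM X}
variable {V W : Type} [NormedAddCommGroup V] [InnerProductSpace ℝ V]
  [NormedAddCommGroup W] [InnerProductSpace ℝ W] {E : Bun M V} {F : Bun M W}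
variable {A B C : Type} [NormedAddCommGroup A] [NormedSpace ℝ A] [NormedAddCommGroup B]
  [NormedSpace ℝ B] [NormedAddCommGroup C] [NormedSpace ℝ C]

/-! ## Algebra -/

theorem Bun.u'_norm (E : Bun M V) (a : M.A) (y : V4) (v : V) : ‖E.u' a y v‖ = ‖v‖ := by
  rw [← E.u_norm a y, E.u_u']

theorem Bun.inner_u (E : Bun M V) (a : M.A) (y : V4) (v w : V) :
    inner ℝ (E.u a y v) (E.u a y w) = inner ℝ v w :=
  (⟨(E.u a y : V →ₗ[ℝ] V), E.u_norm a y⟩ : V →ₗᵢ[ℝ] V).inner_map_map v w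

theorem Bun.u_lo (E : Bun M V) (a : M.A) (s : X → V) (y : V4) :
    E.u a y (E.lo a s y) = s (M.ψ a y) := E.u_u' _ _ _

theorem Bun.norm_lo (E : Bun M V) (a : M.A) (s : X → V) (y : V4) :
    ‖E.lo a s y‖ = ‖s (M.ψ a y)‖ := E.u'_norm _ _ _

theorem Bun.inner_lo (E : Bun M V) (a : M.A) (s t : X → V) (y : V4) :
    inner ℝ (E.lo a s y) (E.lo a t y) = inner ℝ (s (M.ψ a y)) (t (M.ψ a y)) := by
  rw [← E.inner_u a y, E.u_lo, E.u_lo]

theorem Bun.lo_add (E : Bun M V) (a : M.A) (s t : X → V) :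
    E.lo a (s + t) = E.lo a s + E.lo a t := funext fun _ => map_add _ _ _

theorem Bun.lo_sub (E : Bun M V) (a : M.A) (s t : X → V) :
    E.lo a (s - t) = E.lo a s - E.lo a t := funext fun _ => map_sub _ _ _

theorem Bun.lo_smul (E : Bun M V) (a : M.A) (c : ℝ) (s : X → V) :
    E.lo a (c • s) = c • E.lo a s := funext fun _ => map_smul _ _ _

theorem Bun.lo_fsmul (E : Bun M V) (a : M.A) (f : X → ℝ) (s : X → V) :
    E.lo a (fun x => f x • s x) = fun y => f (M.ψ a y) • E.lo a s y :=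
  funext fun _ => map_smul _ _ _

/-- the transition function -/
def Bun.tr (E : Bun M V) (a b : M.A) (y : V4) : V →L[ℝ] V := (E.u' b (M.τ a b y)).comp (E.u a y)

theorem Bun.sm_tr (E : Bun M V) {a b : M.A} {y : V4} (h : y ∈ M.O a b) :
    ContDiffAt ℝ ∞ (E.tr a b) y := (E.trans a b).contDiffAt ((M.isOpen_O a b).mem_nhds h)

theorem Bun.lo_tr (E : Bun M V) {a b : M.A} {y : V4} (h : y ∈ M.O a b) (s : X → V) :
    E.lo a s y = E.tr b a (M.τ a b y) (E.lo b s (M.τ a b y)) := by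
  simp only [Bun.tr, ContinuousLinearMap.comp_apply, E.u_lo, M.τ_τ h, M.ψ_τ h]; rfl

theorem ext_charts {Y : Type} {f g : X → Y} (h : ∀ a y, f (M.ψ a y) = g (M.ψ a y)) : f = g :=
  funext fun x => by rw [← M.ψ_cy x, h]

theorem Bun.ext_lo (E : Bun M V) {s t : X → V} (h : ∀ a, E.lo a s = E.lo a t) : s = t :=
  ext_charts fun a y => by rw [← E.u_lo a s, h, E.u_lo]

theorem Bun.fsmul_mem (E : Bun M V) {f : X → ℝ} {s : X → V} (hf : M.Sm0 f) (hs : s ∈ E.Sm) :
    (fun x => f x • s x) ∈ E.Sm := fun a => by rw [E.lo_fsmul]; exact (hf a).smul (hs a)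

open Classical in
/-- extension by zero of a function on a chart -/
def Bun.ext (E : Bun M V) (a : M.A) (f : V4 → V) (x : X) : V :=
  if x ∈ range (M.ψ a) then E.u a (M.inv a x) (f (M.inv a x)) else 0

theorem Bun.ext_ψ (E : Bun M V) (a : M.A) (f : V4 → V) (y : V4) :
    E.ext a f (M.ψ a y) = E.u a y (f y) := by
  rw [Bun.ext, if_pos (mem_range_self y), M.inv_ψ]

theorem Bun.lo_ext (E : Bun M V) (a : M.A) (f : V4 → V) : E.lo a (E.ext a f) = f :=
  funext fun y => by rw [Bun.lo, E.ext_ψ, E.u'_u]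

theorem Bun.ext_zero (E : Bun M V) (a : M.A) {f : V4 → V} {K : Set V4} (hf : ∀ y ∉ K, f y = 0)
    {x : X} (hx : x ∉ M.ψ a '' K) : E.ext a f x = 0 := by
  unfold Bun.ext
  split_ifs with h
  · rw [hf _ fun k => hx ⟨_, k, M.ψ_inv h⟩, map_zero]
  · rfl

theorem Bun.ext_sub (E : Bun M V) (a : M.A) (f g : V4 → V) :
    E.ext a (f - g) = E.ext a f - E.ext a g := funext fun x => by
  simp only [Bun.ext, Pi.sub_apply, map_sub]
  split_ifs <;> simp

theorem Bun.ext_mem (E : Bun M V) (a : M.A) {f : V4 → V} (hf : ContDiff ℝ ∞ f)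
    (hc : HasCompactSupport f) : E.ext a f ∈ E.Sm := fun b => by
  refine M.contDiff_of_ext b a hc (fun y hy => ?_) fun y hy => by
    rw [Bun.lo, E.ext_zero a (fun z hz => image_eq_zero_of_notMem_tsupport hz) hy, map_zero]
  refine (((E.sm_tr (M.τ_mem hy)).comp y (M.contDiffAt_τ hy)).clm_apply
    (hf.contDiffAt.comp y (M.contDiffAt_τ hy))).congr_of_eventuallyEq ?_
  filter_upwards [(M.isOpen_O b a).mem_nhds hy] with z hz
  rw [E.lo_tr hz, E.lo_ext]; rfl

theorem Bun.ext_zl (E : Bun M V) (a : M.A) (s : X → V) :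
    (E.ext a fun y => M.zl a y • E.lo a s y) = fun x => M.zeta a x • s x := funext fun x => by
  by_cases h : x ∈ range (M.ψ a)
  · obtain ⟨y, rfl⟩ := h
    rw [E.ext_ψ, map_smul, E.u_lo]; rfl
  · rw [Bun.ext, if_neg h, M.zeta_eq_zero a fun k => h (image_subset_range _ _ k), zero_smul]

theorem sum_zeta_smul (M : CM X) (x : X) (v : A) : ∑ a, M.zeta a x • v = v := by
  rw [← Finset.sum_smul, M.sum_zeta, one_smul]

theorem zeta_cases (a : M.A) (x : X) : M.zeta a x = 0 ∨ ∃ y, ‖y‖ < 2 ∧ M.ψ a y = x := by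
  by_cases h : x ∈ M.ψ a '' ball 0 2
  · obtain ⟨y, k, rfl⟩ := h
    exact .inr ⟨y, mem_ball_zero_iff.1 k, rfl⟩
  · exact .inl (M.zeta_eq_zero a h)

theorem theta_one {y : V4} (h : ‖y‖ ≤ 4) : theta y = 1 :=
  theta.one_of_mem_closedBall (mem_closedBall_zero_iff.2 h)

theorem theta_zero {y : V4} (h : y ∉ ball (0 : V4) 5) : theta y = 0 :=
  theta.zero_of_le_dist (not_lt.1 h)

theorem cont_charts {Y : Type} [TopologicalSpace Y] {f : X → Y}
    (h : ∀ a, Continuous fun y => f (M.ψ a y)) : Continuous f :=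
  continuous_iff_continuousAt.2 fun x => by
    rw [← M.ψ_cy x]
    exact (M.ψo _).continuousAt_iff.1 (h _).continuousAt

theorem Op.app_ψ (P : Op E F) {s : X → V} (hs : s ∈ E.Sm) (a : M.A) (y : V4) :
    P.app s (M.ψ a y) = F.u a y (locOp (P.Mi a) (P.N a) (E.lo a s) y) := by
  rw [P.compat s hs a _ y (M.mem_O_ch a y), M.τ_ch]; rfl

theorem Op.lo_app (P : Op E F) {s : X → V} (hs : s ∈ E.Sm) (a : M.A) :
    F.lo a (P.app s) = locOp (P.Mi a) (P.N a) (E.lo a s) :=
  funext fun y => by rw [Bun.lo, P.app_ψ hs, F.u'_u]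

theorem sm_locOp {Mi : Fin 4 → V4 → V →L[ℝ] W} {N : V4 → V →L[ℝ] W} {f : V4 → V}
    (h1 : ∀ i, ContDiff ℝ ∞ (Mi i)) (h2 : ContDiff ℝ ∞ N) (hf : ContDiff ℝ ∞ f) :
    ContDiff ℝ ∞ (locOp Mi N f) :=
  (ContDiff.sum fun i _ => (h1 i).clm_apply ((hf.fderiv_right (m := ∞) le_rfl).clm_apply
    contDiff_const)).add (h2.clm_apply hf)

theorem Op.app_mem (P : Op E F) {s : X → V} (hs : s ∈ E.Sm) : P.app s ∈ F.Sm := fun a => by
  rw [P.lo_app hs]; exact sm_locOp (P.Mi_smooth a) (P.N_smooth a) (hs a)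

theorem Bun.nab_ψ (E : Bun M V) (a : M.A) (i : Fin 4) (s : X → V) (y : V4) :
    E.nab a i s (M.ψ a y) = M.zl a y • E.u a y (fderiv ℝ (E.lo a s) y (e i)) := by
  rw [Bun.nab, M.inv_ψ]; rfl

theorem Bun.nab_eq (E : Bun M V) (a : M.A) (i : Fin 4) (s : X → V) :
    E.nab a i s = E.ext a fun y => M.zl a y • fderiv ℝ (E.lo a s) y (e i) := funext fun x => by
  by_cases h : x ∈ range (M.ψ a)
  · obtain ⟨y, rfl⟩ := h
    rw [E.ext_ψ, map_smul, E.nab_ψ]
  · rw [Bun.ext, if_neg h, Bun.nab, M.zeta_eq_zero a fun k => h (image_subset_range _ _ k),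
      zero_smul]

theorem Bun.nab_mem (E : Bun M V) (a : M.A) (i : Fin 4) {s : X → V} (hs : s ∈ E.Sm) :
    E.nab a i s ∈ E.Sm := by
  rw [E.nab_eq]
  exact E.ext_mem a ((M.contDiff_zl a).smul (((hs a).fderiv_right (m := ∞) le_rfl).clm_apply
    contDiff_const)) (M.hasCompactSupport_zl a).smul_right

theorem Op.sym_jet (P : Op E F) {s : X → V} (hs : s ∈ E.Sm) (x : X) :
    P.sym x (E.jet s x) = P.app s x := by
  rw [← sum_zeta_smul M x (P.app s x), Op.sym, sum_apply]
  refine Finset.sum_congr rfl fun a _ => ?_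
  simp only [add_apply, sum_apply,
    smul_apply, ContinuousLinearMap.comp_apply, jproj, PiLp.proj_apply, Bun.jet]
  rcases zeta_cases a x with h | ⟨y, hy, rfl⟩
  · simp [Bun.nab, h]
  · simp only [E.nab_ψ, M.inv_ψ, M.ext0_ψ_self, theta_one (hy.le.trans (by norm_num)), one_smul,
      map_smul, E.u'_u, P.app_ψ hs, locOp, map_add, map_sum, smul_add, Finset.smul_sum]
    rfl

/-! ## Bounded measurable functions -/

/-- measurable and bounded on bounded sets -/
def Lb (g : V4 → A) : Prop := StronglyMeasurable g ∧ ∀ R : ℝ, ∃ C, ∀ y, ‖y‖ ≤ R → ‖g y‖ ≤ C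

theorem lb_cont [SecondCountableTopology A] {g : V4 → A} (h : Continuous g) : Lb g :=
  ⟨h.stronglyMeasurable, fun R => ((isCompact_closedBall 0 R).exists_bound_of_continuousOn
    h.continuousOn).imp fun _ k y hy => k y (mem_closedBall_zero_iff.2 hy)⟩

theorem Lb.bil (b : A →L[ℝ] B →L[ℝ] C) {f : V4 → A} {g : V4 → B} (hf : Lb f) (hg : Lb g) :
    Lb fun y => b (f y) (g y) :=
  ⟨b.continuous₂.comp_stronglyMeasurable (hf.1.prodMk hg.1), fun R => by
    obtain ⟨C₁, h1⟩ := hf.2 R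
    obtain ⟨C₂, h2⟩ := hg.2 R
    exact ⟨‖b‖ * C₁ * C₂, fun y hy => (b.le_opNorm₂ _ _).trans (mul_le_mul (mul_le_mul_of_nonneg_left
      (h1 y hy) b.opNorm_nonneg) (h2 y hy) (norm_nonneg _) (mul_nonneg b.opNorm_nonneg
        ((norm_nonneg _).trans (h1 y hy))))⟩⟩

theorem Lb.comp {f : V4 → B →L[ℝ] C} {g : V4 → A →L[ℝ] B} (hf : Lb f) (hg : Lb g) :
    Lb fun y => (f y).comp (g y) := hf.bil (ContinuousLinearMap.compL ℝ A B C) hg

theorem Lb.app {f : V4 → A →L[ℝ] B} {g : V4 → A} (hf : Lb f) (hg : Lb g) :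
    Lb fun y => f y (g y) := hf.bil (ContinuousLinearMap.id ℝ _) hg

theorem lb_const (c : A) : Lb fun _ => c := ⟨stronglyMeasurable_const, fun _ => ⟨_, fun _ _ => le_rfl⟩⟩

theorem Bun.lb_u (E : Bun M V) (a : M.A) : Lb (E.u a) := ⟨E.u_meas a, fun _ => ⟨1, fun y _ =>
  ContinuousLinearMap.opNorm_le_bound _ zero_le_one fun v => by rw [E.u_norm, one_mul]⟩⟩

theorem Bun.lb_u' (E : Bun M V) (a : M.A) : Lb (E.u' a) := ⟨E.u'_meas a, fun _ => ⟨1, fun y _ =>
  ContinuousLinearMap.opNorm_le_bound _ zero_le_one fun v => by rw [E.u'_norm, one_mul]⟩⟩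

variable [MeasurableSpace X]

/-- bounded and measurable -/
def BM (f : X → A) : Prop := StronglyMeasurable f ∧ ∃ C, ∀ x, ‖f x‖ ≤ C

theorem BM.add {f g : X → A} (hf : BM f) (hg : BM g) : BM fun x => f x + g x := by
  obtain ⟨a, C₁, h1⟩ := hf
  obtain ⟨b, C₂, h2⟩ := hg
  exact ⟨a.add b, C₁ + C₂, fun x => norm_add_le_of_le (h1 x) (h2 x)⟩

theorem bm_sum {ι : Type} (s : Finset ι) {f : ι → X → A} (h : ∀ i, BM (f i)) :
    BM fun x => ∑ i ∈ s, f i x := by
  induction s using Finset.cons_induction with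
  | empty => exact ⟨stronglyMeasurable_const, 0, fun _ => by simp⟩
  | cons i s hi ih => simpa only [Finset.sum_cons] using (h i).add ih

theorem BM.lin (T : A →L[ℝ] B) {f : X → A} (hf : BM f) : BM fun x => T (f x) := by
  obtain ⟨a, C, h⟩ := hf
  exact ⟨T.continuous.comp_stronglyMeasurable a, ‖T‖ * C, fun x => T.le_opNorm_of_le (h x)⟩

variable [BorelSpace X]

theorem BM.memLp {f : X → A} (hf : BM f) (p : ℝ≥0∞) : MemLp f p M.mu :=
  .of_bound hf.1.aestronglyMeasurable _ (.of_forall hf.2.choose_spec)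

theorem meas_inv (a : M.A) : Measurable (M.inv a) := by
  have : M.inv a = Function.extend (M.ψ a) id fun _ => Classical.arbitrary V4 := funext fun x => by
    by_cases h : ∃ y, M.ψ a y = x
    · obtain ⟨y, rfl⟩ := h
      rw [M.inv_ψ, (M.ψ_inj a).extend_apply]; rfl
    · rw [Function.extend_apply' _ _ _ h]; exact Function.invFun_neg h
  rw [this]
  exact (M.measurableEmbedding_ψ a).measurable_extend measurable_id measurable_const

theorem bm_cut (a : M.A) {χ : X → ℝ} {R : ℝ} (hχ : M.Sm0 χ) (h1 : ∀ x, |χ x| ≤ 1)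
    (h0 : ∀ x ∉ M.ψ a '' ball 0 R, χ x = 0) {g : V4 → A} (hg : Lb g) :
    BM fun x => χ x • g (M.inv a x) := by
  obtain ⟨C, hC⟩ := hg.2 R
  refine ⟨(cont_charts fun b => (hχ b).continuous).stronglyMeasurable.smul
    (hg.1.comp_measurable (meas_inv a)), |C|, fun x => ?_⟩
  by_cases h : x ∈ M.ψ a '' ball 0 R
  · obtain ⟨y, hy, rfl⟩ := h
    rw [norm_smul, M.inv_ψ, ← one_mul |C|]
    exact mul_le_mul (h1 _) ((hC y (mem_ball_zero_iff.1 hy).le).trans (le_abs_self C))
      (norm_nonneg _) zero_le_one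
  · simp [h0 x h]

theorem bm_zeta (a : M.A) {g : V4 → A} (hg : Lb g) : BM fun x => M.zeta a x • g (M.inv a x) :=
  bm_cut a (M.sm0_zeta a) (fun x => (abs_of_nonneg (M.zeta_nonneg a x)).trans_le (M.zeta_le_one a x))
    (fun _ => M.zeta_eq_zero a) hg

theorem bm_theta (a : M.A) {g : V4 → A} (hg : Lb g) :
    BM fun x => M.ext0 a theta x • g (M.inv a x) :=
  bm_cut a (M.sm0_ext0 a theta.contDiff theta.hasCompactSupport) (fun x => by
    unfold CM.ext0
    split_ifs
    · exact (abs_of_nonneg theta.nonneg).trans_le theta.le_one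
    · simp) (fun _ => M.ext0_eq_zero a fun _ => theta_zero) hg

theorem bm_charts {f : X → A} (h : ∀ a, Lb fun y => f (M.ψ a y)) : BM f := by
  convert bm_sum Finset.univ fun a => bm_zeta a (h a) with x
  rw [← sum_zeta_smul M x (f x)]
  refine Finset.sum_congr rfl fun a _ => ?_
  rcases zeta_cases a x with k | ⟨y, -, rfl⟩
  · simp [k]
  · rw [M.inv_ψ]

theorem Bun.bm [FiniteDimensional ℝ V] (E : Bun M V) {s : X → V} (hs : s ∈ E.Sm) : BM s :=
  bm_charts fun a => by
    simpa only [E.u_lo] using (E.lb_u a).app (lb_cont (hs a).continuous)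

/-! ## The measure -/

theorem ae_charts {p : X → Prop} : (∀ᵐ x ∂M.mu, p x) ↔ ∀ a, ∀ᵐ y, p (M.ψ a y) := by
  refine ⟨fun h a => ?_, fun h => ?_⟩
  · have := ae_restrict_of_ae (s := range (M.ψ a)) h
    rw [M.mu_restrict, (M.measurableEmbedding_ψ a).ae_map_iff] at this
    exact (withDensity_absolutelyContinuous' (M.measurable_dens' a).aemeasurable
      (.of_forall fun y => by simpa using M.m_det a y)).ae_le this
  · exact ae_finsetSum_measure_iff.2 fun a _ => (M.measurableEmbedding_ψ a).ae_map_iff.2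
      ((withDensity_absolutelyContinuous _ _).ae_le (h a))

theorem Bun.ae_lo (E : Bun M V) {f g : X → V} :
    f =ᵐ[M.mu] g ↔ ∀ a, E.lo a f =ᵐ[volume] E.lo a g :=
  ae_charts.trans (forall_congr' fun a => eventually_congr (.of_forall fun y =>
    ⟨fun h => congrArg _ h, fun h => by rw [← E.u_lo a f, h, E.u_lo]⟩))

theorem map_le_mu (a : M.A) {K : Set V4} (hK : IsCompact K) :
    ∃ C : ℝ≥0, (volume.restrict K).map (M.ψ a) ≤ (C : ℝ≥0∞) • M.mu := by
  obtain ⟨C, hC⟩ := hK.exists_bound_of_continuousOn ((M.continuous_det_m a).inv₀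
    fun y => (M.m_det a y).ne').continuousOn
  refine ⟨C.toNNReal, le_trans ?_ (smul_le_smul_left _ (Measure.restrict_le_self
    (s := range (M.ψ a))))⟩
  rw [M.mu_restrict, ← Measure.map_smul, ← withDensity_smul _ (M.measurable_dens' a),
    ← withDensity_indicator_one hK.measurableSet]
  refine Measure.map_mono (withDensity_mono (.of_forall fun y => indicator_le' (fun y hy => ?_)
    (fun _ _ => zero_le) y)) (M.measurable_ψ a)
  have : (det4 (M.m a y))⁻¹ ≤ C := (le_abs_self _).trans (hC y hy)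
  rw [inv_le_iff_one_le_mul₀ (M.m_det a y)] at this
  rw [Pi.smul_apply, smul_eq_mul, ← ENNReal.ofReal.eq_1, ← ENNReal.ofReal_mul' (M.m_det a y).le]
  exact ENNReal.one_le_ofReal.2 this

theorem mu_le_map (a : M.A) {K : Set V4} (hK : IsCompact K) :
    ∃ C : ℝ≥0, M.mu.restrict (M.ψ a '' K) ≤ (C : ℝ≥0∞) • (volume.restrict K).map (M.ψ a) := by
  obtain ⟨C, hC⟩ := hK.exists_bound_of_continuousOn (M.continuous_det_m a).continuousOn
  refine ⟨C.toNNReal, ?_⟩
  rw [← Measure.restrict_restrict_of_subset (image_subset_range _ _), M.mu_restrict,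
    (M.measurableEmbedding_ψ a).restrict_map, preimage_image_eq _ (M.ψ_inj a),
    restrict_withDensity hK.measurableSet, ← Measure.map_smul, ← withDensity_const]
  exact Measure.map_mono (withDensity_mono ((ae_restrict_iff' hK.measurableSet).2 (.of_forall
    fun y hy => ENNReal.ofReal_le_ofReal ((le_abs_self _).trans (hC y hy))))) (M.measurable_ψ a)

/-- norms in a chart are bounded by the norms on the manifold -/
theorem norm_chart (a : M.A) {K : Set V4} (hK : IsCompact K) (p : ℝ≥0∞) : ∃ C : ℝ≥0,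
    ∀ (A : Type) [NormedAddCommGroup A] (f : X → A),
      eLpNorm (fun y => f (M.ψ a y)) p (volume.restrict K) ≤ C * eLpNorm f p M.mu := by
  obtain ⟨C, hC⟩ := map_le_mu a hK
  refine ⟨C ^ (1 / p).toReal, fun A _ f => ?_⟩
  have := eLpNorm_le_of_measure_le_smul hC (f := f) (p := p)
  rwa [(M.measurableEmbedding_ψ a).eLpNorm_map_measure, smul_eq_mul,
    ← ENNReal.coe_rpow_of_nonneg _ ENNReal.toReal_nonneg] at this

/-- norms on the manifold of functions supported in a chart -/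
theorem norm_supp (a : M.A) {K : Set V4} (hK : IsCompact K) (p : ℝ≥0∞) : ∃ C : ℝ≥0,
    ∀ (A : Type) [NormedAddCommGroup A] (f : X → A), (∀ x ∉ M.ψ a '' K, f x = 0) →
      eLpNorm f p M.mu ≤ C * eLpNorm (fun y => f (M.ψ a y)) p (volume.restrict K) := by
  obtain ⟨C, hC⟩ := mu_le_map a hK
  refine ⟨C ^ (1 / p).toReal, fun A _ f hf => ?_⟩
  have := eLpNorm_le_of_measure_le_smul hC (f := f) (p := p)
  rwa [(M.measurableEmbedding_ψ a).eLpNorm_map_measure, smul_eq_mul,
    ← ENNReal.coe_rpow_of_nonneg _ ENNReal.toReal_nonneg, eLpNorm_restrict_eq_of_support_subset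
      fun x hx => by_contra fun k => hx (hf x k)] at this

theorem Bun.norm_lo_le (E : Bun M V) (a : M.A) {K : Set V4} (hK : IsCompact K) (p : ℝ≥0∞) :
    ∃ C : ℝ≥0, ∀ f : X → V, eLpNorm (E.lo a f) p (volume.restrict K) ≤ C * eLpNorm f p M.mu :=
  (norm_chart a hK p).imp fun _ h f => (eLpNorm_congr_norm_ae (.of_forall fun y =>
    E.norm_lo a f y)).trans_le (h V f)

theorem Bun.norm_ext_le (E : Bun M V) (a : M.A) {K : Set V4} (hK : IsCompact K) (p : ℝ≥0∞) :
    ∃ C : ℝ≥0, ∀ f : V4 → V, (∀ y ∉ K, f y = 0) →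
      eLpNorm (E.ext a f) p M.mu ≤ C * eLpNorm f p volume :=
  (norm_supp a hK p).imp fun _ h f hf => (h V _ fun _ => E.ext_zero a hf).trans (by
    gcongr
    exact (eLpNorm_congr_norm_ae (.of_forall fun y => by rw [E.ext_ψ, E.u_norm])).trans_le
      (eLpNorm_mono_measure _ Measure.restrict_le_self))

theorem aesm_chart (a : M.A) {f : X → A} (hf : AEStronglyMeasurable f M.mu) :
    AEStronglyMeasurable (fun y => f (M.ψ a y)) volume :=
  ⟨_, hf.stronglyMeasurable_mk.comp_measurable (M.measurable_ψ a), ae_charts.1 hf.ae_eq_mk a⟩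

theorem Bun.aesm_lo (E : Bun M V) (a : M.A) {f : X → V} (hf : AEStronglyMeasurable f M.mu) :
    AEStronglyMeasurable (E.lo a f) volume :=
  (ContinuousLinearMap.id ℝ (V →L[ℝ] V)).aestronglyMeasurable_comp₂
    (E.u'_meas a).aestronglyMeasurable (aesm_chart a hf)

theorem Bun.ll_lo (E : Bun M V) (a : M.A) {f : X → V} {p : ℝ≥0∞} (hf : MemLp f p M.mu) :
    P247.H306.LL p (E.lo a f) := fun K hK => by
  obtain ⟨C, hC⟩ := E.norm_lo_le a hK p
  exact ⟨(E.aesm_lo a hf.1).restrict, (hC f).trans_lt (ENNReal.mul_lt_top ENNReal.coe_lt_top hf.2)⟩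

theorem Bun.aesm_ext (E : Bun M V) (a : M.A) {f : V4 → V} (hf : AEStronglyMeasurable f volume) :
    AEStronglyMeasurable (E.ext a f) M.mu := by
  refine ⟨(range (M.ψ a)).indicator fun x => E.u a (M.inv a x) (hf.mk f (M.inv a x)),
    (((ContinuousLinearMap.id ℝ (V →L[ℝ] V)).continuous₂.comp_stronglyMeasurable ((E.u_meas a).prodMk
      hf.stronglyMeasurable_mk)).comp_measurable (meas_inv a)).indicator
        (M.isOpen_range a).measurableSet, ae_of_ae_restrict_of_ae_restrict_compl (range (M.ψ a)) ?_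
    ((ae_restrict_iff' (M.isOpen_range a).measurableSet.compl).2 (.of_forall fun x hx => by
      rw [Bun.ext, if_neg hx, indicator_of_notMem hx]))⟩
  rw [M.mu_restrict, (M.measurableEmbedding_ψ a).ae_map_iff]
  refine (withDensity_absolutelyContinuous _ _).ae_le (hf.ae_eq_mk.mono fun y hy => ?_)
  rw [E.ext_ψ, indicator_of_mem (mem_range_self y), M.inv_ψ, hy]

theorem Bun.memLp_ext (E : Bun M V) (a : M.A) {f : V4 → V} {p : ℝ≥0∞} {K : Set V4}
    (hK : IsCompact K) (h0 : ∀ y ∉ K, f y = 0) (hf : MemLp f p volume) : MemLp (E.ext a f) p M.mu := by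
  obtain ⟨C, hC⟩ := E.norm_ext_le a hK p
  exact ⟨E.aesm_ext a hf.1, (hC f h0).trans_lt (ENNReal.mul_lt_top ENNReal.coe_lt_top hf.2)⟩

end Vale.Agent.P247E
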