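import Vale.Agent.P247E.AdjA

set_option linter.all false

/-! P247E: the formal adjoint (`ADJ`). -/

open scoped ContDiff Topology ENNReal NNReal
open Set MeasureTheory Filter

noncomputable section

namespace Vale.Agent.P247E

open Vale.Agent.P204.GX Vale.Agent.P204.T4
open Vale.Agent.P247.H74 (e)

variable {X : Type} [MetricSpace X] [MeasurableSpace X] [BorelSpace X] {M : CM X}
variable {V W : Type} [NormedAddCommGroup V] [InnerProductSpace ℝ V] [FiniteDimensional ℝ V]
  [NormedAddCommGroup W] [InnerProductSpace ℝ W] [FiniteDimensional ℝ W]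
variable {E : Bun M V} {F : Bun M W}

/-- the local expression of the adjoint -/
def Op.adjLoc (P : Op E F) (a : M.A) (g : V4 → W) : V4 → V :=
  locOp (adjM (P.Mi a)) (adjN (P.Mi a) (P.N a) (rho M a)) g

theorem Op.contDiff_adjLoc (P : Op E F) (a : M.A) {g : V4 → W} (hg : ContDiff ℝ ∞ g) :
    ContDiff ℝ ∞ (P.adjLoc a g) :=
  sm_locOp (contDiff_adjM (P.Mi_smooth a)) (contDiff_adjN (P.Mi_smooth a) (P.N_smooth a)
    (contDiff_rho a) fun y => (rho_pos a y).ne') hg

/-- integration by parts for a section supported in a chart -/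
theorem Op.ibp_chart (P : Op E F) (a : M.A) {s : X → V} (hs : s ∈ E.Sm) {K : Set V4}
    (hK : IsCompact K) (h0 : ∀ x ∉ M.ψ a '' K, s x = 0) {t : X → W} (ht : t ∈ F.Sm) :
    ∫ x, inner ℝ (P.app s x) (t x) ∂M.mu =
      ∫ y, inner ℝ (E.lo a s y) (P.adjLoc a (F.lo a t) y) * rho M a y := by
  have hC : IsClosed (M.ψ a '' K) := (hK.image (M.continuous_ψ a)).isClosed
  rw [F.pair_chart a (fun x hx => P.app_zero hC h0 fun h => hx (image_subset_range _ _ h)),
    P.lo_app hs a]
  exact loc_ibp (P.Mi_smooth a) (P.N_smooth a) (contDiff_rho a) (fun y => (rho_pos a y).ne')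
    (hs a) (ht a) (E.hcs_lo a hK h0)

theorem eq_zero_of_integral {Y : Type} [TopologicalSpace Y] [MeasurableSpace Y] {μ : Measure Y}
    [μ.IsOpenPosMeasure] {f : Y → ℝ} (hc : Continuous f) (hn : ∀ y, 0 ≤ f y)
    (hi : Integrable f μ) (h0 : ∫ y, f y ∂μ = 0) : f = 0 :=
  (hc.ae_eq_iff_eq μ continuous_zero).1 ((integral_eq_zero_iff_of_nonneg hn hi).1 h0)

/-- a bump function inside an open set -/
theorem exists_bump_in {U : Set V4} (hU : IsOpen U) {y : V4} (hy : y ∈ U) :
    ∃ χ : V4 → ℝ, ContDiff ℝ ∞ χ ∧ HasCompactSupport χ ∧ tsupport χ ⊆ U ∧ (∀ z, 0 ≤ χ z) ∧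
      χ =ᶠ[𝓝 y] fun _ => 1 := by
  obtain ⟨r, hr, hb⟩ := Metric.isOpen_iff.1 hU y hy
  let b : ContDiffBump y := ⟨r / 4, r / 2, by linarith, by linarith⟩
  refine ⟨b, b.contDiff, b.hasCompactSupport, ?_, fun z => b.nonneg, b.eventuallyEq_one⟩
  rw [b.tsupport_eq]
  exact (Metric.closedBall_subset_ball (by show r / 2 < r; linarith)).trans hb

theorem contDiff_bump_smul {χ : V4 → ℝ} (hχ : ContDiff ℝ ∞ χ) {U : Set V4}
    (hU : tsupport χ ⊆ U) {d : V4 → V} (hd : ∀ y ∈ U, ContDiffAt ℝ ∞ d y) :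
    ContDiff ℝ ∞ fun y => χ y • d y := by
  rw [contDiff_iff_contDiffAt]
  intro y
  by_cases hy : y ∈ tsupport χ
  · exact hχ.contDiffAt.smul (hd y (hU hy))
  · refine (contDiffAt_const (c := (0 : V))).congr_of_eventuallyEq ?_
    filter_upwards [(isClosed_tsupport χ).isOpen_compl.mem_nhds hy] with z hz
    rw [image_eq_zero_of_notMem_tsupport hz, zero_smul]

theorem Op.adj_compat (P : Op E F) {t : X → W} (ht : t ∈ F.Sm) (a b : M.A) {y : V4}
    (hy : y ∈ M.O a b) : E.u a y (P.adjLoc a (F.lo a t) y) =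
      E.u b (M.τ a b y) (P.adjLoc b (F.lo b t) (M.τ a b y)) := by
  set ga := P.adjLoc a (F.lo a t)
  set gb := P.adjLoc b (F.lo b t)
  have ca : ContDiff ℝ ∞ ga := P.contDiff_adjLoc a (ht a)
  have cb : ContDiff ℝ ∞ gb := P.contDiff_adjLoc b (ht b)
  set d : V4 → V := fun z => ga z - E.lo a (E.ext b gb) z with hd
  have cd : ∀ z ∈ M.O a b, ContDiffAt ℝ ∞ d z := fun z hz =>
    ca.contDiffAt.sub (E.contDiffAt_lo_ext hz cb.contDiffAt)
  obtain ⟨χ, c1, c2, c3, c4, c5⟩ := exists_bump_in (M.isOpen_O a b) hy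
  set φ : V4 → V := fun z => χ z • d z with hφ
  have cφ : ContDiff ℝ ∞ φ := contDiff_bump_smul c1 c3 cd
  have z0 : ∀ z ∉ tsupport χ, φ z = 0 := fun z hz => by
    simp only [hφ, image_eq_zero_of_notMem_tsupport hz, zero_smul]
  have kφ : HasCompactSupport φ := HasCompactSupport.intro c2 z0
  have hs := E.ext_mem a cφ kφ
  have s0 : ∀ x ∉ M.ψ a '' tsupport χ, E.ext a φ x = 0 := fun x hx => E.ext_zero a z0 hx
  have hK' : IsCompact (M.τ a b '' tsupport χ) :=
    c2.image_of_continuousOn fun z hz => (M.continuousAt_τ (c3 hz)).continuousWithinAt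
  have s1 : ∀ x ∉ M.ψ b '' (M.τ a b '' tsupport χ), E.ext a φ x = 0 := fun x hx =>
    s0 x fun ⟨z, hz, h⟩ => hx ⟨_, ⟨z, hz, rfl⟩, (M.ψ_τ (c3 hz)).trans h⟩
  have e1 := P.ibp_chart a hs c2 s0 ht
  have e2 := P.ibp_chart b hs hK' s1 ht
  have e3 := E.pair_chart b (s := E.ext a φ)
    (fun x hx => s1 x fun h => hx (image_subset_range _ _ h)) (E.ext b gb)
  have e4 := E.pair_chart a (s := E.ext a φ)
    (fun x hx => s0 x fun h => hx (image_subset_range _ _ h)) (E.ext b gb)
  rw [E.lo_ext b gb] at e3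
  rw [E.lo_ext a φ] at e1 e4
  have cr := (contDiff_rho (M := M) a).continuous
  have c6 : ContDiff ℝ ∞ fun z => χ z • E.lo a (E.ext b gb) z :=
    contDiff_bump_smul c1 c3 fun z hz => E.contDiffAt_lo_ext hz cb.contDiffAt
  have i1 : Integrable fun z => inner ℝ (φ z) (ga z) * rho M a z :=
    ((cφ.continuous.inner ca.continuous).mul cr).integrable_of_hasCompactSupport
      (HasCompactSupport.intro c2 fun z hz => by
        show inner ℝ (φ z) _ * _ = 0
        rw [z0 z hz, inner_zero_left, zero_mul])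
  have cf : Continuous fun z => inner ℝ (φ z) (d z) * rho M a z := by
    refine Continuous.mul ?_ cr
    rw [continuous_iff_continuousAt]
    intro z
    by_cases hz : z ∈ tsupport χ
    · exact cφ.continuous.continuousAt.inner (cd z (c3 hz)).continuousAt
    · refine (continuousAt_const (y := (0 : ℝ))).congr ?_
      filter_upwards [(isClosed_tsupport χ).isOpen_compl.mem_nhds hz] with w hw
      rw [z0 w hw, inner_zero_left]
  have kf : HasCompactSupport fun z => inner ℝ (φ z) (d z) * rho M a z :=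
    HasCompactSupport.intro c2 fun z hz => by rw [z0 z hz, inner_zero_left, zero_mul]
  have i2 := cf.integrable_of_hasCompactSupport (μ := volume) kf
  have e5 : ∫ z, inner ℝ (φ z) (d z) * rho M a z = 0 := by
    have : (fun z => inner ℝ (φ z) (E.lo a (E.ext b gb) z) * rho M a z) = fun z =>
        inner ℝ (φ z) (ga z) * rho M a z - inner ℝ (φ z) (d z) * rho M a z := by
      funext z; simp only [hd, inner_sub_right]; ring
    rw [this, integral_sub i1 i2] at e4
    linarith
  have hn : ∀ z, 0 ≤ inner ℝ (φ z) (d z) * rho M a z := fun z => by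
    simp only [hφ, real_inner_smul_left]
    exact mul_nonneg (mul_nonneg (c4 z) real_inner_self_nonneg) (rho_pos a z).le
  have e6 := eq_zero_of_integral cf hn i2 e5
  have e7 := congrFun e6 y
  simp only [hφ, real_inner_smul_left, c5.eq_of_nhds, one_mul, Pi.zero_apply, mul_eq_zero,
    (rho_pos a y).ne', or_false, inner_self_eq_zero] at e7
  have e8 : ga y = E.lo a (E.ext b gb) y := sub_eq_zero.1 e7
  rw [e8, E.lo_ext_of_mem gb hy, E.u_u']

/-- the formal adjoint -/
def Op.adj (P : Op E F) : Op F E where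
  Mi a := adjM (P.Mi a)
  N a := adjN (P.Mi a) (P.N a) (rho M a)
  Mi_smooth a := contDiff_adjM (P.Mi_smooth a)
  N_smooth a := contDiff_adjN (P.Mi_smooth a) (P.N_smooth a) (contDiff_rho a)
    fun y => (rho_pos a y).ne'
  compat t ht a b y hy := P.adj_compat ht a b hy

theorem Op.lo_adj (P : Op E F) {t : X → W} (ht : t ∈ F.Sm) (a : M.A) :
    E.lo a (P.adj.app t) = P.adjLoc a (F.lo a t) := P.adj.lo_app ht a

/-- the pairing of two smooth sections is a continuous function -/
theorem Bun.continuous_inner (E : Bun M V) {s t : X → V} (hs : s ∈ E.Sm) (ht : t ∈ E.Sm) :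
    Continuous fun x => inner ℝ (s x) (t x) := by
  rw [continuous_iff_continuousAt]
  intro x
  obtain ⟨a, y, -, rfl⟩ := M.cov x
  rw [← (M.ψo a).continuousAt_iff]
  have : ((fun x => inner ℝ (s x) (t x)) ∘ M.ψ a) =
      fun y => inner ℝ (E.lo a s y) (E.lo a t y) := by
    funext y; simp only [Function.comp_apply, Bun.lo, E.inner_u']
  rw [this]
  exact ((hs a).continuous.inner (ht a).continuous).continuousAt

theorem Bun.integrable_inner [CompactSpace X] (E : Bun M V) {s t : X → V} (hs : s ∈ E.Sm)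
    (ht : t ∈ E.Sm) : Integrable (fun x => inner ℝ (s x) (t x)) M.mu :=
  (E.continuous_inner hs ht).integrable_of_hasCompactSupport
    (HasCompactSupport.of_compactSpace _)

theorem Op.app_sum (P : Op E F) {ι : Type} [Fintype ι] {s : ι → X → V} (hs : ∀ i, s i ∈ E.Sm)
    (x : X) : P.app (fun x => ∑ i, s i x) x = ∑ i, P.app (s i) x := by
  unfold Op.app locOp
  have h : E.lo (M.ch x) (fun x => ∑ i, s i x) = fun y => ∑ i, E.lo (M.ch x) (s i) y := by
    funext y; simp only [Bun.lo, map_sum]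
  rw [h, fderiv_fun_sum fun i _ => (hs i _).differentiable (by simp) _, ← map_sum]
  congr 1
  simp only [ContinuousLinearMap.sum_apply, map_sum, Finset.sum_add_distrib]
  rw [Finset.sum_comm]

theorem Op.isAdj_adj [CompactSpace X] (P : Op E F) : P.IsAdj P.adj := by
  intro s hs t ht
  have hz : ∀ a, (fun x => M.zeta a x • s x) ∈ E.Sm := fun a => E.fsmul_mem (M.sm0_zeta a) hs
  have h1 : s = fun x => ∑ a, M.zeta a x • s x := by
    funext x; rw [← Finset.sum_smul, M.sum_zeta, one_smul]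
  have h2 : ∀ x, P.app s x = ∑ a, P.app (fun x => M.zeta a x • s x) x := fun x => by
    rw [← P.app_sum hz x, ← h1]
  have h3 : ∀ x, inner ℝ (s x) (P.adj.app t x) =
      ∑ a, inner ℝ (M.zeta a x • s x) (P.adj.app t x) := fun x => by
    rw [← sum_inner, ← congrFun h1 x]
  simp only [h2, h3, sum_inner]
  rw [integral_finset_sum _ fun a _ => F.integrable_inner (P.app_mem (hz a)) ht,
    integral_finset_sum _ fun a _ => E.integrable_inner (hz a) (P.adj.app_mem ht)]
  refine Finset.sum_congr rfl fun a _ => ?_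
  have h0 : ∀ x ∉ M.ψ a '' Metric.closedBall 0 2, M.zeta a x • s x = 0 := fun x hx => by
    rw [M.zeta_eq_zero a fun h => hx (image_mono Metric.ball_subset_closedBall h), zero_smul]
  rw [P.ibp_chart a (hz a) (isCompact_closedBall 0 2) h0 ht,
    E.pair_chart a fun x hx => h0 x fun h => hx (image_subset_range _ _ h), P.lo_adj ht a]

instance mu_open (M : CM X) : M.mu.IsOpenPosMeasure := by
  refine ⟨fun U hU ⟨x, hx⟩ h0 => ?_⟩
  obtain ⟨a, y, -, rfl⟩ := M.cov x
  have h1 : M.mu.restrict (range (M.ψ a)) U = 0 :=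
    le_antisymm ((Measure.restrict_apply_le _ _).trans h0.le) bot_le
  have ho : IsOpen (M.ψ a ⁻¹' U) := hU.preimage (M.continuous_ψ a)
  rw [M.mu_restrict, Measure.map_apply (M.measurable_ψ a) hU.measurableSet,
    withDensity_apply_eq_zero (M.measurable_dens' a)] at h1
  have h2 : {y | ENNReal.ofReal (det4 (M.m a y)) ≠ 0} = univ :=
    eq_univ_of_forall fun z => (ENNReal.ofReal_pos.2 (M.m_det a z)).ne'
  rw [h2, univ_inter] at h1
  exact ho.measure_ne_zero volume ⟨y, hx⟩ h1

/-- uniqueness of the formal adjoint -/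
theorem Op.IsAdj.app_eq [CompactSpace X] {P : Op E F} {P' : Op F E} (h : P.IsAdj P') {t : X → W}
    (ht : t ∈ F.Sm) : P'.app t = P.adj.app t := by
  have m1 := P'.app_mem ht
  have m2 := P.adj.app_mem ht
  have hd : P'.app t - P.adj.app t ∈ E.Sm := E.Sm.sub_mem m1 m2
  have e1 := (h _ hd t ht).symm.trans (P.isAdj_adj _ hd t ht)
  have e2 : ∫ x, inner ℝ ((P'.app t - P.adj.app t) x) ((P'.app t - P.adj.app t) x) ∂M.mu = 0 := by
    have : ∀ x, inner ℝ ((P'.app t - P.adj.app t) x) ((P'.app t - P.adj.app t) x) =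
        inner ℝ ((P'.app t - P.adj.app t) x) (P'.app t x) -
        inner ℝ ((P'.app t - P.adj.app t) x) (P.adj.app t x) := fun x => by
      rw [← inner_sub_right]; rfl
    simp only [this]
    rw [integral_sub (E.integrable_inner hd m1) (E.integrable_inner hd m2), e1, sub_self]
  have e3 := eq_zero_of_integral (E.continuous_inner hd hd)
    (fun x => real_inner_self_nonneg) (E.integrable_inner hd hd) e2
  funext x
  exact sub_eq_zero.1 (inner_self_eq_zero.1 (congrFun e3 x))

/-- the coefficients are determined by the action on functions of compact support -/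
theorem Mi_eq_of_locOp {M₁ M₂ : Fin 4 → V4 → V →L[ℝ] W} {N₁ N₂ : V4 → V →L[ℝ] W}
    (h : ∀ f : V4 → V, ContDiff ℝ ∞ f → HasCompactSupport f → locOp M₁ N₁ f = locOp M₂ N₂ f) :
    M₁ = M₂ := by
  funext i y
  ext v
  obtain ⟨χ, c1, c2, -, -, c5⟩ := exists_bump_in isOpen_univ (mem_univ y)
  let l : V4 → V := fun z => (z i - y i) • v
  have cl : ContDiff ℝ ∞ l := by unfold l; fun_prop
  have h1 := congrFun (h (fun z => χ z • l z) (c1.smul cl) c2.smul_right) y
  have h2 : (fun z => χ z • l z) =ᶠ[𝓝 y] l := by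
    filter_upwards [c5] with z hz
    rw [hz, one_smul]
  have h3 : HasFDerivAt l ((ContinuousLinearMap.proj (R := ℝ) (φ := fun _ : Fin 4 => ℝ)
      i).smulRight v) y :=
    ((hasFDerivAt_apply i y).sub_const (y i)).smul_const v
  have h4 : ∀ j, fderiv ℝ l y (e j) = if j = i then v else 0 := fun j => by
    rw [h3.fderiv]
    by_cases hj : j = i
    · subst hj; simp [e]
    · simp [e, hj, Pi.single_eq_of_ne (Ne.symm hj)]
  have h5 : l y = 0 := by simp [l]
  simp only [locOp, h2.fderiv_eq, h2.eq_of_nhds, h4, h5, map_zero, add_zero, apply_ite,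
    Finset.sum_ite_eq', Finset.mem_univ, if_true, smul_zero] at h1
  exact h1

theorem Op.IsAdj.locOp_eq [CompactSpace X] {P : Op E F} {P' : Op F E} (h : P.IsAdj P') (a : M.A)
    {g : V4 → W} (hg : ContDiff ℝ ∞ g) (hc : HasCompactSupport g) :
    locOp (P'.Mi a) (P'.N a) g = P.adjLoc a g := by
  have ht := F.ext_mem a hg hc
  have h1 := P'.lo_app ht a
  rw [h.app_eq ht, P.lo_adj ht a, F.lo_ext] at h1
  exact h1.symm

theorem Op.IsAdj.Mi_eq [CompactSpace X] {P : Op E F} {P' : Op F E} (h : P.IsAdj P') (a : M.A) :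
    P'.Mi a = adjM (P.Mi a) :=
  Mi_eq_of_locOp fun g hg hc => h.locOp_eq a hg hc

theorem ADJ (hB : BAS_statement) : ADJ_statement := by
  intro X _ _ _ _ M V W _ _ _ _ _ _ E F P
  have key : ∀ P' : Op F E, P.IsAdj P' → ∀ a i y (v : V) (w : W),
      inner ℝ (P.Mi a i y v) w = - inner ℝ v (P'.Mi a i y w) := by
    intro P' h a i y v w
    rw [h.Mi_eq a]
    simp only [adjM, ContinuousLinearMap.neg_apply, inner_neg_right, inner_adjL, neg_neg]
  refine ⟨⟨P.adj, P.isAdj_adj, key _ P.isAdj_adj⟩, fun P' h => ⟨key P' h, fun w w' => ?_⟩⟩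
  obtain ⟨-, dE, -, -, jE, -, oE⟩ := hB X M V W E F
  obtain ⟨-, dF, -, -, jF, -, oF⟩ := hB X M W V F E
  have c1 : Continuous fun p : E.H1 × F.H1 => inner ℝ (P.clm p.1) (F.J p.2 : LL2 M W) :=
    (P.clm.continuous.comp continuous_fst).inner (F.J.continuous.comp continuous_snd)
  have c2 : Continuous fun p : E.H1 × F.H1 => inner ℝ (E.J p.1 : LL2 M V) (P'.clm p.2) :=
    (E.J.continuous.comp continuous_fst).inner (P'.clm.continuous.comp continuous_snd)
  refine congrFun (Continuous.ext_on (dE.prod dF) c1 c2 ?_) (w, w')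
  rintro ⟨w, w'⟩ ⟨⟨s, hs, r1⟩, ⟨t, ht, r2⟩⟩
  have a1 := ((oE P).2.2.2 s hs).2.2.2 w r1
  have a2 := ((oF P').2.2.2 t ht).2.2.2 w' r2
  have a3 := jE w s r1
  have a4 := jF w' t r2
  simp only [L2.inner_def]
  refine (integral_congr_ae ?_).trans ((h s hs t ht).trans (integral_congr_ae ?_))
  · filter_upwards [a1, a4] with x h1 h2 using by rw [h1, h2]
  · filter_upwards [a2, a3] with x h1 h2 using by rw [h1, h2]

end Vale.Agent.P247E
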