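import Vale.Agent.P247E.Sta
import Vale.Agent.P247E.Ch

set_option linter.all false

/-! P247E: extension of local sections, pairings in a chart, local integration by parts. -/

open scoped ContDiff Topology ENNReal NNReal
open Set MeasureTheory Filter

noncomputable section

namespace Vale.Agent.P247E

open Vale.Agent.P204.GX Vale.Agent.P204.T4
open Vale.Agent.P247.H74 (e)

variable {X : Type} [MetricSpace X] {M : CM X}
variable {V W : Type} [NormedAddCommGroup V] [InnerProductSpace ℝ V]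
  [NormedAddCommGroup W] [InnerProductSpace ℝ W]

/-- the density of the measure in a chart -/
def rho (M : CM X) (a : M.A) (y : V4) : ℝ := det4 (M.m a y)

theorem rho_pos (a : M.A) (y : V4) : 0 < rho M a y := M.m_det a y

theorem contDiff_rho (a : M.A) : ContDiff ℝ ∞ (rho M a) := by
  have h : rho M a = fun y => (1 / 2) * Q (pull (M.m a y) F0) (pull (M.m a y) F0) := by
    funext y; exact M.det_m_eq a y
  rw [h]
  have hF := M.F_smooth a
  have hc : ∀ i : Fin 6, ContDiff ℝ ∞ fun y => pull (M.m a y) F0 i := fun i =>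
    (contDiff_apply ℝ ℝ i).comp hF
  unfold Q
  exact contDiff_const.mul (by fun_prop)

namespace Bun
variable (E : Bun M V)

theorem inner_u' (a : M.A) (y : V4) (v w : V) :
    inner ℝ (E.u' a y v) (E.u' a y w) = inner ℝ v w := by
  rw [← E.inner_u a y, E.u_u', E.u_u']

theorem lo_ext_of_mem {a b : M.A} (f : V4 → V) {y : V4} (hy : y ∈ M.O b a) :
    E.lo b (E.ext a f) y = E.u' b y (E.u a (M.τ b a y) (f (M.τ b a y))) := by
  unfold lo
  rw [← M.ψ_τ hy, ext_ψ]

theorem contDiffAt_tr {a b : M.A} {y : V4} (hy : y ∈ M.O b a) :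
    ContDiffAt ℝ ∞ (fun z => (E.u' b z).comp (E.u a (M.τ b a z))) y := by
  have h1 : ContDiffAt ℝ ∞ (fun z => (E.u' b (M.τ a b z)).comp (E.u a z)) (M.τ b a y) :=
    (E.trans a b).contDiffAt ((M.isOpen_O a b).mem_nhds (M.τ_mem hy))
  refine (h1.comp y (M.contDiffAt_τ hy)).congr_of_eventuallyEq ?_
  filter_upwards [(M.isOpen_O b a).mem_nhds hy] with z hz
  simp only [Function.comp_apply, M.τ_τ hz]

theorem contDiffAt_lo_ext {a b : M.A} {f : V4 → V} {y : V4} (hy : y ∈ M.O b a)
    (hf : ContDiffAt ℝ ∞ f (M.τ b a y)) : ContDiffAt ℝ ∞ (E.lo b (E.ext a f)) y := by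
  have h1 := (E.contDiffAt_tr hy).clm_apply (hf.comp y (M.contDiffAt_τ hy))
  refine h1.congr_of_eventuallyEq ?_
  filter_upwards [(M.isOpen_O b a).mem_nhds hy] with z hz
  rw [E.lo_ext_of_mem f hz]; rfl

/-- a section vanishing outside the image of a compact set has local components of compact
support -/
theorem hcs_lo (a : M.A) {s : X → V} {K : Set V4} (hK : IsCompact K)
    (hs : ∀ x ∉ M.ψ a '' K, s x = 0) : HasCompactSupport (E.lo a s) :=
  HasCompactSupport.intro hK fun y hy => by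
    unfold lo
    rw [hs _ (fun ⟨z, hz, h⟩ => hy (M.ψ_inj a h ▸ hz)), map_zero]

/-- the pairing with a section supported in a chart -/
theorem pair_chart [MeasurableSpace X] [BorelSpace X] (a : M.A) {s : X → V}
    (hs : ∀ x ∉ range (M.ψ a), s x = 0) (t : X → V) :
    ∫ x, inner ℝ (s x) (t x) ∂M.mu = ∫ y, inner ℝ (E.lo a s y) (E.lo a t y) * rho M a y := by
  rw [M.integral_chart a fun x hx => by rw [hs x hx, inner_zero_left]]
  simp only [lo, inner_u', rho]

end Bun

variable {E : Bun M V} {F : Bun M W}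

theorem Op.app_zero (P : Op E F) {s : X → V} {C : Set X} (hC : IsClosed C)
    (hs : ∀ x ∉ C, s x = 0) {x : X} (hx : x ∉ C) : P.app s x = 0 := by
  unfold Op.app locOp
  have h : E.lo (M.ch x) s =ᶠ[𝓝 (M.cy x)] fun _ => 0 := by
    have ho : IsOpen (M.ψ (M.ch x) ⁻¹' Cᶜ) := hC.isOpen_compl.preimage (M.continuous_ψ _)
    filter_upwards [ho.mem_nhds (show M.ψ (M.ch x) (M.cy x) ∈ Cᶜ by rw [M.ψ_cy]; exact hx)]
      with z hz
    unfold Bun.lo
    rw [hs _ hz, map_zero]
  rw [h.fderiv_eq, h.eq_of_nhds]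
  simp

section adj
variable [FiniteDimensional ℝ V] [FiniteDimensional ℝ W]

/-- the transpose as a continuous linear map -/
def adjL (V W : Type) [NormedAddCommGroup V] [InnerProductSpace ℝ V] [FiniteDimensional ℝ V]
    [NormedAddCommGroup W] [InnerProductSpace ℝ W] [FiniteDimensional ℝ W] :
    (V →L[ℝ] W) →L[ℝ] (W →L[ℝ] V) :=
  LinearMap.toContinuousLinearMap
    { toFun := fun A => LinearMap.toContinuousLinearMap (LinearMap.adjoint (A : V →ₗ[ℝ] W))
      map_add' := fun A B => by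
        ext w; simp
      map_smul' := fun c A => by
        ext w; simp }

theorem inner_adjL (A : V →L[ℝ] W) (v : V) (w : W) :
    inner ℝ v (adjL V W A w) = inner ℝ (A v) w :=
  LinearMap.adjoint_inner_right (A : V →ₗ[ℝ] W) v w

/-- first order coefficients of the adjoint -/
def adjM (Mi : Fin 4 → V4 → V →L[ℝ] W) (i : Fin 4) (y : V4) : W →L[ℝ] V := - adjL V W (Mi i y)

/-- zero order coefficient of the adjoint -/
def adjN (Mi : Fin 4 → V4 → V →L[ℝ] W) (N : V4 → V →L[ℝ] W) (r : V4 → ℝ) (y : V4) :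
    W →L[ℝ] V :=
  adjL V W (N y - ∑ i, (fderiv ℝ (Mi i) y (e i) + ((r y)⁻¹ * fderiv ℝ r y (e i)) • Mi i y))

theorem contDiff_adjM {Mi : Fin 4 → V4 → V →L[ℝ] W} (hM : ∀ i, ContDiff ℝ ∞ (Mi i)) (i : Fin 4) :
    ContDiff ℝ ∞ (adjM Mi i) :=
  ((adjL V W).contDiff.comp (hM i)).neg

theorem contDiff_adjN {Mi : Fin 4 → V4 → V →L[ℝ] W} {N : V4 → V →L[ℝ] W} {r : V4 → ℝ}
    (hM : ∀ i, ContDiff ℝ ∞ (Mi i)) (hN : ContDiff ℝ ∞ N) (hr : ContDiff ℝ ∞ r)
    (h0 : ∀ y, r y ≠ 0) : ContDiff ℝ ∞ (adjN Mi N r) := by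
  refine (adjL V W).contDiff.comp (hN.sub (ContDiff.sum fun i _ => ContDiff.add ?_ ?_))
  · exact ((hM i).fderiv_right (m := ∞) (by simp)).clm_apply contDiff_const
  · exact ((hr.inv h0).mul
      ((hr.fderiv_right (m := ∞) (by simp)).clm_apply contDiff_const)).smul (hM i)

/-- the pointwise identity behind the integration by parts -/
theorem div_identity {Mi : Fin 4 → V4 → V →L[ℝ] W} (N : V4 → V →L[ℝ] W) {r : V4 → ℝ}
    {f : V4 → V} {g : V4 → W} {y : V4} (hM : ∀ i, DifferentiableAt ℝ (Mi i) y)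
    (hr : DifferentiableAt ℝ r y) (h0 : r y ≠ 0) (hf : DifferentiableAt ℝ f y)
    (hg : DifferentiableAt ℝ g y) :
    inner ℝ (locOp Mi N f y) (g y) * r y - inner ℝ (f y) (locOp (adjM Mi) (adjN Mi N r) g y) * r y
      = ∑ i, fderiv ℝ (fun z => inner ℝ (Mi i z (f z)) (g z) * r z) y (e i) := by
  have h1 : ∀ i, fderiv ℝ (fun z => inner ℝ (Mi i z (f z)) (g z) * r z) y (e i) =
      (inner ℝ (Mi i y (f y)) (fderiv ℝ g y (e i)) +
        (inner ℝ (fderiv ℝ (Mi i) y (e i) (f y)) (g y) +
          inner ℝ (Mi i y (fderiv ℝ f y (e i))) (g y))) * r y +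
        inner ℝ (Mi i y (f y)) (g y) * fderiv ℝ r y (e i) := by
    intro i
    have a1 := ((hM i).hasFDerivAt.clm_apply hf.hasFDerivAt).inner ℝ hg.hasFDerivAt
    rw [(a1.fun_mul hr.hasFDerivAt).fderiv]
    simp [fderivInnerCLM_apply, inner_add_left]
    ring
  simp only [h1, locOp, adjM, adjN, inner_add_left, inner_add_right, sum_inner, inner_sum,
    ContinuousLinearMap.neg_apply, inner_neg_right, inner_adjL, ContinuousLinearMap.sub_apply,
    ContinuousLinearMap.sum_apply, ContinuousLinearMap.add_apply, ContinuousLinearMap.smul_apply,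
    inner_sub_left, real_inner_smul_left, Fin.sum_univ_four]
  field_simp
  ring

theorem integral_fderiv_zero {h : V4 → ℝ} (hh : ContDiff ℝ ∞ h) (hc : HasCompactSupport h)
    (v : V4) : ∫ y, fderiv ℝ h y v = 0 := by
  have h1 := integral_mul_fderiv_eq_neg_fderiv_mul_of_integrable (μ := (volume : Measure V4))
    (f := fun _ : V4 => (1 : ℝ)) (g := h) (v := v) (by simp) ?_ ?_ (by fun_prop)
    (fun x _ => hh.differentiable (by simp) x)
  · simpa using h1
  · simpa using ((hh.continuous_fderiv (by simp)).clm_apply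
      continuous_const).integrable_of_hasCompactSupport (hc.fderiv_apply (𝕜 := ℝ) v)
  · simpa using hh.continuous.integrable_of_hasCompactSupport hc

/-- integration by parts on `ℝ⁴`; one of the two functions has compact support -/
theorem loc_ibp {Mi : Fin 4 → V4 → V →L[ℝ] W} {N : V4 → V →L[ℝ] W} {r : V4 → ℝ}
    (hM : ∀ i, ContDiff ℝ ∞ (Mi i)) (hN : ContDiff ℝ ∞ N) (hr : ContDiff ℝ ∞ r)
    (h0 : ∀ y, r y ≠ 0) {f : V4 → V} {g : V4 → W} (hf : ContDiff ℝ ∞ f) (hg : ContDiff ℝ ∞ g)
    (hc : HasCompactSupport f) :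
    ∫ y, inner ℝ (locOp Mi N f y) (g y) * r y =
      ∫ y, inner ℝ (f y) (locOp (adjM Mi) (adjN Mi N r) g y) * r y := by
  have c1 := sm_locOp hM hN hf
  have c2 := sm_locOp (contDiff_adjM hM) (contDiff_adjN hM hN hr h0) hg
  have i2 : Integrable fun y => inner ℝ (f y) (locOp (adjM Mi) (adjN Mi N r) g y) * r y := by
    refine ((hf.continuous.inner c2.continuous).mul hr.continuous).integrable_of_hasCompactSupport
      (HasCompactSupport.intro hc fun y hy => ?_)
    show inner ℝ (f y) _ * r y = 0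
    rw [image_eq_zero_of_notMem_tsupport hy, inner_zero_left, zero_mul]
  have s3 : ∀ i, ContDiff ℝ ∞ fun z => inner ℝ (Mi i z (f z)) (g z) * r z := fun i =>
    (((hM i).clm_apply hf).inner ℝ hg).mul hr
  have k3 : ∀ i, HasCompactSupport fun z => inner ℝ (Mi i z (f z)) (g z) * r z := fun i =>
    HasCompactSupport.intro hc fun y hy => by
      rw [image_eq_zero_of_notMem_tsupport hy, map_zero, inner_zero_left, zero_mul]
  have i3 : ∀ i, Integrable fun y =>
      fderiv ℝ (fun z => inner ℝ (Mi i z (f z)) (g z) * r z) y (e i) := fun i =>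
    (((s3 i).continuous_fderiv (by simp)).clm_apply
      continuous_const).integrable_of_hasCompactSupport ((k3 i).fderiv_apply (𝕜 := ℝ) _)
  have e1 : (fun y => inner ℝ (locOp Mi N f y) (g y) * r y) = fun y =>
      inner ℝ (f y) (locOp (adjM Mi) (adjN Mi N r) g y) * r y +
      ∑ i, fderiv ℝ (fun z => inner ℝ (Mi i z (f z)) (g z) * r z) y (e i) := by
    funext y
    rw [← div_identity N (fun i => (hM i).differentiable (by simp) y)
      (hr.differentiable (by simp) y) (h0 y) (hf.differentiable (by simp) y)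
      (hg.differentiable (by simp) y)]
    ring
  rw [e1, integral_add i2 (integrable_finset_sum _ fun i _ => i3 i),
    integral_finset_sum _ fun i _ => i3 i]
  simp only [integral_fderiv_zero (s3 _) (k3 _), Finset.sum_const_zero, add_zero]

end adj

end Vale.Agent.P247E
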