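import Vale.Agent.P247E.QHodx
import Vale.Agent.P247E.Bq2

/-!
# P247E: smoothness of the solution
-/

set_option linter.all false

open scoped ContDiff Topology ENNReal ComplexConjugate
open Set MeasureTheory Filter

noncomputable section

namespace Vale.Agent.P247E

open Vale.Agent.P204.GX Vale.Agent.P204.T4
open Vale.Agent.P247.H74 (e)
open Vale.Agent.P247.H647 (Sp En sig pau omM hat len jz symb cov P3)

theorem hodx : HODX_statement := HODX BQ2

theorem Hx.smF_hc {X : Type} [MetricSpace X] (Q : QM X) {u : X → L2} (hu : u ∈ Q.Om) :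
    SmF Q.toCM fun x => Hx.hc (u x) := fun a => by
  simp only [Q.eq_pull_m' u a, Hx.hc_m']
  exact Hx.hc.contDiff.comp (contDiff_iff_contDiffAt.2 fun y =>
    contDiffAt_pull (Q.n'_smooth a).contDiffAt (hu a).contDiffAt)

theorem FIN : FIN_statement := by
  intro X _ _ _ _ _ Q L H B Z hH hZ R w φ c hw h0 g hg h1
  obtain ⟨s, hs, r, -⟩ := (REG X _ _ _ _ _ H ((hodx X Q L).2 H hH).gar φ).2
    (fun x => -spnL (Hx.hc (L.F x)))
    (Hx.triv_sm.2 fun a => (spnL.contDiff.comp (Hx.smF_hc Q L.F_mem a)).neg) (by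
      filter_upwards [hw.div, h0] with x k1 k2
      rw [← map_neg, spnL_apply, ← spn_vec (H.clm φ x)]
      congr 1
      funext i
      refine Fin.cases (by simpa [Hx.hc_eq] using k1) (fun k => ?_) i
      rw [Pi.neg_apply, Hx.hc_succ]
      exact eq_neg_of_add_eq_zero_right (k2 k))
  have hB : L.bp.Hom (Q.bm L) fun x => reL ((-Complex.I) • sgm (vec (s x))) + reL (Z c x) :=
    fun a => by
      simp only [ContinuousLinearMap.add_comp, ContinuousLinearMap.comp_add]
      exact (Q.hom_sgm L ((Q.mem_t1 s).1 hs) a).add (hZ.hom c L a)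
  obtain ⟨P, p1, -, p2⟩ := (ZER X _ _ _ _ _).1 (Q.dirac L) _ hB
  obtain ⟨t, ht, r', -⟩ := (REG X _ _ _ _ _ P (fun a => p1 ▸ (Q.dirac_cliff L).gar a) w).2 0
    (Q.bm L).Sm.zero_mem (by
      filter_upwards [hw.dirac, r.J_ae, Q.dirac_ae L w, hB.bm.mulOp_ae (L.bp.J w), Lp.coeFn_add
        ((Q.dirac L).clm w) (mulOp _ _ (L.bp.J w))] with x k1 k2 k3 k4 k5
      rw [p2]
      refine k5.trans (Eq.trans ?_ k1)
      rw [Pi.add_apply, k3, k4]
      simp only [LBc.nabA, QM.av, k2, add_apply, reL_apply, smul_apply, sgm_apply, map_sub,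
        map_smul, Finset.sum_sub_distrib, Finset.smul_sum, smul_smul, neg_mul, neg_smul,
        Finset.sum_neg_distrib]
      abel)
  have h2 : L.Sm fun x => inner ℂ (g x) (t x) := LBc.Sm.inner hg ht
  refine ⟨_, h2, congrFun ((h2.cont_norm.ae_eq_iff_eq Q.mu continuous_const).1 ?_)⟩
  filter_upwards [h1, r'.J_ae] with x k1 k2
  rwa [← k2]

end Vale.Agent.P247E
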