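import Vale.Agent.P247E.GCmp
import Vale.Agent.P299.H863.Rell

/-!
# P247E: rows `GN4` and `REL`
-/

set_option linter.all false

open scoped ContDiff Topology ENNReal NNReal
open Set MeasureTheory Filter Metric

noncomputable section

namespace Vale.Agent.P247E.G

open Vale.Agent.P204.GX Vale.Agent.P204.T4
open Vale.Agent.P299.H863 (RF rellich_net)

theorem rep_norm {X : Type} [MetricSpace X] [MeasurableSpace X] [BorelSpace X] {M : CM X}
    {V : Type} [NormedAddCommGroup V] [InnerProductSpace ℝ V] {E : Bun M V} {w : E.H1} {s : X → V}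
    (h : E.Rep w s) : eLpNorm (E.jet s) 2 M.mu = ENNReal.ofReal ‖w‖ := by
  rw [← eLpNorm_congr_ae h, ← Lp.enorm_def, ofReal_norm_eq_enorm]; rfl

theorem GN4 (hB : BAS_statement) : GN4_statement := by
  intro X _ _ _ _ M V W _ _ _ _ _ _ E F
  obtain ⟨h1, h2, -, -, h5, -⟩ := hB X M V W E F
  obtain ⟨C, hC⟩ : Dom (fun s : E.Sm => eLpNorm s.1 4 M.mu) fun s => eLpNorm (E.jet s) 2 M.mu :=
    ((dom_uncut E (by norm_num)).comp fun s : E.Sm =>
      ⟨s, (h1 s s.2).1.aestronglyMeasurable⟩).trans (.sum fun a => Dom.trans ⟨_, fun s =>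
        eLpNorm_le_eLpNorm_fderiv_of_eq volume (p := 2) (p' := 4)
          ((cut_smooth E a s).of_le (by simp))
          ((isCompact_closedBall 0 2).of_isClosed_subset (isClosed_tsupport _) (cut_supp E a s))
          (by norm_num) (by simp) (by norm_num)⟩ (dom_dcut E a))
  refine ⟨C, C.2, fun w => ?_⟩
  obtain ⟨u, hu, hl⟩ := mem_closure_iff_seq_limit.1 (h2 w)
  refine ge_of_tendsto (f := fun t : ℝ => ENNReal.ofReal (C * t)) (x := 𝓝[>] ‖w‖)
    (((ENNReal.continuous_ofReal.comp (continuous_const_mul _)).tendsto _).mono_left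
      nhdsWithin_le_nhds) (eventually_mem_nhdsWithin.mono fun t ht => ?_)
  refine eLpNorm_le_of_tendstoInMeasure ((hl.norm.eventually_le_const ht).mono fun n hn => ?_)
    (tendstoInMeasure_of_tendsto_Lp ((E.J.continuous.tendsto w).comp hl))
    fun n => Lp.aestronglyMeasurable _
  obtain ⟨s, hs, hr⟩ := hu n
  refine (eLpNorm_congr_ae (h5 _ s hr)).le.trans ((hC ⟨s, hs⟩).trans ?_)
  simp only [rep_norm hr, ENNReal.ofReal_mul C.coe_nonneg, ENNReal.ofReal_coe_nnreal]
  gcongr

theorem REL (hB : BAS_statement) : REL_statement := by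
  intro X _ _ _ _ M V W _ _ _ _ _ _ E F
  obtain ⟨h1, h2, -, -, h5, -⟩ := hB X M V W E F
  have : CompleteSpace V := FiniteDimensional.complete ℝ V
  set D := {w : E.H1 | ∃ s ∈ E.Sm, E.Rep w s}
  refine ⟨closure (E.J '' (ball 0 1 ∩ D)), (TotallyBounded.closure ?_).isCompact_of_isClosed
    isClosed_closure, mem_of_superset (ball_mem_nhds 0 one_pos) fun w hw =>
      image_closure_subset_closure_image E.J.continuous
        ⟨w, h2.open_subset_closure_inter isOpen_ball hw, rfl⟩⟩
  obtain ⟨C, hC⟩ := dom_uncut E (p := 2) one_le_two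
  have h6 : ∀ a, ∃ C : ℝ≥0, ∀ s : E.Sm, eLpNorm (E.jet s) 2 M.mu ≤ 1 →
      RF volume (closedBall 0 2) C (cut E a s) := fun a => by
    obtain ⟨C, hC⟩ := (((dom_cut E (p := 2) a).comp fun s : E.Sm => s.1).trans (.of_le fun s =>
      eLpNorm_mono (g := E.jet s) (le_jet E s))).add (dom_dcut E a)
    exact ⟨C, fun s hs => have := (hC s).trans (mul_le_of_le_one_right' hs)
      ⟨cut_smooth E a s, cut_supp E a s, le_self_add.trans this, le_add_self.trans this⟩⟩
  choose B hB using h6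
  refine totallyBounded_of_finite_discretization fun ε hε => ?_
  obtain ⟨δ, hδ, hδ'⟩ := ENNReal.exists_nnreal_pos_mul_lt (a := C * (Fintype.card M.A * 2))
    (by finiteness) (ENNReal.ofReal_pos.2 hε).ne'
  choose t ht ht' htn using fun a => rellich_net (μ := (volume : Measure V4)) (V := V)
    (isCompact_closedBall 0 2) (C := B a) ENNReal.coe_ne_top (ε := δ) (by simpa using hδ)
  have h7 : ∀ f : E.J '' (ball 0 1 ∩ D), ∃ s : E.Sm, (f.1 : X → V) =ᵐ[M.mu] s ∧
      eLpNorm (E.jet s) 2 M.mu ≤ 1 := by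
    rintro ⟨_, w, ⟨hw, s, hs, hr⟩, rfl⟩
    exact ⟨⟨s, hs⟩, h5 w s hr, by
      rw [rep_norm hr]; exact ENNReal.ofReal_le_one.2 (mem_ball_zero_iff.1 hw).le⟩
  choose s hs hs' using h7
  choose g hg hg' using fun f a => htn a _ (hB a _ (hs' f))
  have := fun a => (ht a).fintype
  refine ⟨∀ a, t a, inferInstance, fun f a => ⟨g f a, hg f a⟩, fun x y hxy => ?_⟩
  rw [Lp.dist_def, eLpNorm_congr_ae ((hs x).sub (hs y))]
  refine ENNReal.toReal_lt_of_lt_ofReal (lt_of_le_of_lt ?_ hδ')
  refine (hC ⟨_, (h1 _ (s x - s y).2).1.aestronglyMeasurable⟩).trans ?_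
  rw [mul_left_comm, mul_left_comm (δ : ℝ≥0∞), ← nsmul_eq_mul]
  gcongr
  refine Finset.sum_le_card_nsmul _ _ _ fun a _ => ?_
  have m : ∀ f, AEStronglyMeasurable (cut E a (s f) - g f a) volume := fun f =>
    ((cut_smooth E a _).continuous.sub (ht' a _ (hg f a)).smooth.continuous).aestronglyMeasurable
  rw [show cut E a ((s x - s y : E.Sm) : X → V) = (cut E a (s x) - g x a) - (cut E a (s y) - g y a) by
    funext z
    simp [cut, Bun.lo, smul_sub, show g x a = g y a from congrArg Subtype.val (congrFun hxy a)],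
    mul_two]
  exact (eLpNorm_sub_le (m x) (m y) one_le_two).trans (add_le_add (hg' x a) (hg' y a))

end Vale.Agent.P247E.G
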