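import Mathlib.MeasureTheory.Function.Holder
import Mathlib.MeasureTheory.Integral.Bochner.Basic

/-!
# P247E: continuous families of functions in `L^p`
-/

set_option linter.all false

open scoped ENNReal
open MeasureTheory Filter

noncomputable section

namespace Vale.Agent.P247E

theorem fact4 : Fact ((1 : ℝ≥0∞) ≤ 4) := ⟨by norm_num⟩

theorem holder442 : ENNReal.HolderTriple 4 4 2 := ⟨by
  rw [← two_mul, show (4 : ℝ≥0∞) = 2 * 2 by norm_num, ENNReal.mul_inv (by simp) (by simp),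
    ← mul_assoc, ENNReal.mul_inv_cancel (by simp) (by simp), one_mul]⟩

variable {X Y Y' E F G : Type*} [MeasurableSpace X] [TopologicalSpace Y] [TopologicalSpace Y']
  [NormedAddCommGroup E] [NormedAddCommGroup F] [NormedAddCommGroup G]

/-- `f y` is in `L^p` and depends continuously on `y` -/
def CL (μ : Measure X) (p : ℝ≥0∞) [Fact (1 ≤ p)] (f : Y → X → E) : Prop :=
  ∃ g : Y → Lp E p μ, Continuous g ∧ ∀ y, g y =ᵐ[μ] f y

variable {μ : Measure X} {p q r : ℝ≥0∞} [Fact (1 ≤ p)] [Fact (1 ≤ q)] [Fact (1 ≤ r)]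
  {f f' : Y → X → E}

theorem cl_lp {g : Y → Lp E p μ} (h : Continuous g) : CL μ p fun y => g y :=
  ⟨g, h, fun _ => .rfl⟩

theorem cl_const {g : X → E} (h : MemLp g p μ) : CL μ p fun _ : Y => g :=
  ⟨fun _ => h.toLp, continuous_const, fun _ => h.coeFn_toLp⟩

theorem CL.congr (h : CL μ p f) (e : ∀ y, f y =ᵐ[μ] f' y) : CL μ p f' :=
  h.imp fun _ k => ⟨k.1, fun y => (k.2 y).trans (e y)⟩

theorem CL.comp (h : CL μ p f) {t : Y' → Y} (ht : Continuous t) : CL μ p fun y => f (t y) :=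
  let ⟨g, a, b⟩ := h
  ⟨fun y => g (t y), a.comp ht, fun _ => b _⟩

theorem CL.add (h : CL μ p f) (h' : CL μ p f') : CL μ p fun y x => f y x + f' y x :=
  let ⟨g, a, b⟩ := h
  let ⟨g', a', b'⟩ := h'
  ⟨fun y => g y + g' y, a.add a', fun y => (Lp.coeFn_add _ _).trans ((b y).add (b' y))⟩

theorem CL.sub (h : CL μ p f) (h' : CL μ p f') : CL μ p fun y x => f y x - f' y x :=
  let ⟨g, a, b⟩ := h
  let ⟨g', a', b'⟩ := h'
  ⟨fun y => g y - g' y, a.sub a', fun y => (Lp.coeFn_sub _ _).trans ((b y).sub (b' y))⟩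

theorem cl_sum {ι : Type*} (s : Finset ι) {f : ι → Y → X → E} (h : ∀ i, CL μ p (f i)) :
    CL μ p fun y x => ∑ i ∈ s, f i y x := by
  induction s using Finset.cons_induction with
  | empty => exact cl_const MemLp.zero
  | cons i s hi ih => simpa only [Finset.sum_cons] using (h i).add ih

theorem CL.memLp (h : CL μ p f) (y : Y) : MemLp (f y) p μ :=
  let ⟨g, _, b⟩ := h
  (Lp.memLp (g y)).ae_eq (b y)

theorem CL.norm (h : CL μ p f) : Continuous fun y => (eLpNorm (f y) p μ).toReal :=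
  let ⟨g, a, b⟩ := h
  a.norm.congr fun y => by rw [Lp.norm_def, eLpNorm_congr_ae (b y)]

variable [NormedSpace ℝ E] [NormedSpace ℝ F] [NormedSpace ℝ G]

theorem CL.lin (h : CL μ p f) (T : E →L[ℝ] F) : CL μ p fun y x => T (f y x) :=
  let ⟨g, a, b⟩ := h
  ⟨fun y => T.compLpL p μ (g y), (T.compLpL p μ).continuous.comp a, fun y =>
    (T.coeFn_compLpL _).trans ((b y).fun_comp T)⟩

theorem CL.bil [ENNReal.HolderTriple p q r] {f' : Y → X → F} (h : CL μ p f) (h' : CL μ q f')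
    (B : E →L[ℝ] F →L[ℝ] G) : CL μ r fun y x => B (f y x) (f' y x) :=
  let ⟨g, a, b⟩ := h
  let ⟨g', a', b'⟩ := h'
  ⟨fun y => B.holderL μ p q r (g y) (g' y), (B.holderL μ p q r).continuous₂.comp (a.prodMk a'),
    fun y => (B.coeFn_holder _ _).trans (((b y).and (b' y)).mono fun x k => by
      simp only [k.1, k.2])⟩

theorem CL.int (h : CL μ 1 f) :
    (∀ y, Integrable (f y) μ) ∧ Continuous fun y => ∫ x, f y x ∂μ :=
  ⟨fun y => memLp_one_iff_integrable.1 (h.memLp y), by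
    obtain ⟨g, a, b⟩ := h
    exact (continuous_integral.comp a).congr fun y => integral_congr_ae (b y)⟩

/-- a linear map into `L^p` which is bounded into `L^q` -/
theorem cl_of_le {H : Type*} [NormedAddCommGroup H] [NormedSpace ℝ H] (T : H →L[ℝ] Lp E p μ)
    {C : ℝ} (hC : 0 ≤ C) (h : ∀ w, eLpNorm (T w) q μ ≤ ENNReal.ofReal (C * ‖w‖)) :
    CL μ q fun w => T w := by
  have m : ∀ w, MemLp (T w) q μ := fun w =>
    ⟨Lp.aestronglyMeasurable _, (h w).trans_lt ENNReal.ofReal_lt_top⟩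
  refine ⟨fun w => (m w).toLp, (LipschitzWith.of_dist_le_mul (K := ⟨C, hC⟩) fun v w => ?_).continuous,
    fun w => (m w).coeFn_toLp⟩
  rw [dist_eq_norm, dist_eq_norm, ← MemLp.toLp_sub, Lp.norm_toLp,
    ← eLpNorm_congr_ae (Lp.coeFn_sub (T v) (T w)), ← map_sub]
  exact ENNReal.toReal_le_of_le_ofReal (by positivity) (h _)

end Vale.Agent.P247E
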