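import Vale.Agent.P247E.Bq2
import Vale.Agent.P247E.GRel
import Vale.Agent.P247E.QLp

/-!
# P247E: the row `KATO`
-/

set_option linter.all false

open scoped ContDiff Topology ENNReal ComplexConjugate
open Set MeasureTheory Filter

noncomputable section

namespace Vale.Agent.P247E

open Vale.Agent.P204.GX Vale.Agent.P204.T4
open Vale.Agent.P247.H74 (e)
open Vale.Agent.P247.H647 (Sp En sig cov)

attribute [local instance] fact4 holder442

variable {X : Type} [MetricSpace X] {M : CM X}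

/-- the jet of a function is bounded by the derivatives along the frame -/
theorem jet_le_df (M : CM X) : ∃ C : ℝ, 0 ≤ C ∧ ∀ h : X → ℝ, SmF M h → ∀ x,
    ‖(Bun.triv M ℝ).jet h x‖ ≤ C * (∑ c, ‖df M h x c‖ + ‖h x‖) := by
  choose K K1 hK using fun a => M.exists_frame_bound a 2
  have K0 : ∀ a, 0 ≤ K a := fun a => zero_le_one.trans (K1 a)
  have p : 0 ≤ ∑ q : M.A × Fin 4, K q.1 := Finset.sum_nonneg fun q _ => K0 _
  refine ⟨∑ q : M.A × Fin 4, K q.1 + 1, by positivity, fun h hh x => (G.jet_le _ h x).trans ?_⟩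
  have h1 : ∀ q : M.A × Fin 4, ‖(Bun.triv M ℝ).nab q.1 q.2 h x‖ ≤ K q.1 * ∑ c, ‖df M h x c‖ := by
    rintro ⟨a, i⟩
    rcases zeta_cases (M := M) a x with k | ⟨y, hy, rfl⟩
    · have := K0 a
      rw [Bun.nab, k, zero_smul, norm_zero]
      positivity
    rw [G.norm_nab, ← sum_m_fv _ a y, Finset.mul_sum]
    refine (mul_le_of_le_one_left (norm_nonneg _) (M.zeta_le_one a _)).trans
      (norm_sum_le_of_le _ fun c _ => ?_)
    rw [norm_smul, df_psi hh, ← app_e (M.m a y)]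
    exact mul_le_mul_of_nonneg_right ((norm_le_pi_norm _ c).trans ((hK a y hy.le _).1.trans
      (mul_le_of_le_one_right (K0 a) (norm_e i)))) (norm_nonneg _)
  have h2 := Finset.sum_le_sum fun q (_ : q ∈ Finset.univ) => h1 q
  have h3 : 0 ≤ ∑ c, ‖df M h x c‖ := by positivity
  rw [← Finset.sum_mul] at h2
  rw [Fintype.sum_option]
  change ‖h x‖ + ∑ q : M.A × Fin 4, ‖(Bun.triv M ℝ).nab q.1 q.2 h x‖ ≤ _
  nlinarith [mul_nonneg p (norm_nonneg (h x))]

theorem inner_I (u : Sp) (r : ℝ) : inner ℝ u ((Complex.I * r) • u) = 0 := by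
  simp [PiLp.inner_apply, Complex.inner]
  ring

/-- the inequality of Kato -/
theorem kato_pw (L : LBc M) {s : X → Sp} (hs : s ∈ L.bp.Sm) {ε : ℝ} (hε : 0 < ε) :
    SmF M (fun x => √(‖s x‖ ^ 2 + ε ^ 2)) ∧ ∀ x c (t : ℝ),
      ‖df M (fun x => √(‖s x‖ ^ 2 + ε ^ 2)) x c‖ ≤ ‖L.cv s x c - (Complex.I * t) • s x‖ := by
  have h1 : ∀ a, (fun y => √(‖s (M.ψ a y)‖ ^ 2 + ε ^ 2)) =
      fun y => √(‖L.bp.lo a s y‖ ^ 2 + ε ^ 2) := fun a => by simp only [L.bp.norm_lo]
  refine ⟨fun a => ?_, fun x c t => ?_⟩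
  · rw [h1]
    exact (((hs a).norm_sq ℝ).add contDiff_const).sqrt fun y => by positivity
  obtain ⟨a, y, rfl⟩ : ∃ a y, x = M.ψ a y := ⟨_, _, (M.ψ_cy x).symm⟩
  have hh : SmF M (fun x => √(‖s x‖ ^ 2 + ε ^ 2)) := fun a => by
    rw [h1]
    exact (((hs a).norm_sq ℝ).add contDiff_const).sqrt fun y => by positivity
  have h2 := ((((hs a).differentiable (by simp) y).hasFDerivAt.norm_sq).add_const (ε ^ 2)).sqrt
    (by positivity)
  rw [df_psi hh, h1, h2.fderiv, L.cv_psi hs, ← L.γ_lo a s, smul_comm _ (L.γ a y), ← smul_sub, norm_smul,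
    L.γ_norm, one_mul, cov]
  set u := L.bp.lo a s y
  set v := fderiv ℝ (L.bp.lo a s) y (fv M a y c)
  change _ ≤ ‖v - (Complex.I * (L.A a y (fv M a y c) : ℝ)) • u - (Complex.I * t) • u‖
  have h3 := abs_real_inner_le_norm u
    (v - (Complex.I * (L.A a y (fv M a y c) : ℝ)) • u - (Complex.I * t) • u)
  rw [inner_sub_right, inner_sub_right, inner_I, inner_I, sub_zero, sub_zero] at h3
  have h4 : ‖u‖ ≤ √(‖u‖ ^ 2 + ε ^ 2) := Real.le_sqrt_of_sq_le (by nlinarith)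
  have h5 : 0 < √(‖u‖ ^ 2 + ε ^ 2) := by positivity
  have h6 : ((1 / (2 * √(‖u‖ ^ 2 + ε ^ 2))) • (2 • (innerSL ℝ u).comp
      (fderiv ℝ (L.bp.lo a s) y))) (fv M a y c) = inner ℝ u v / √(‖u‖ ^ 2 + ε ^ 2) := by
    simp only [ContinuousLinearMap.smul_apply, ContinuousLinearMap.comp_apply, innerSL_apply_apply,
      smul_eq_mul, nsmul_eq_mul]
    field_simp
    rfl
  rw [h6, Real.norm_eq_abs, abs_div, abs_of_pos h5, div_le_iff₀' h5]
  exact h3.trans (mul_le_mul_of_nonneg_right h4 (norm_nonneg _))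

variable [CompactSpace X] [MeasurableSpace X] [BorelSpace X]

theorem Bun.cl4 {V : Type} [NormedAddCommGroup V] [InnerProductSpace ℝ V] [FiniteDimensional ℝ V]
    (E : Bun M V) : CL M.mu 4 fun w : E.H1 => E.J w :=
  let ⟨_, c0, h⟩ := G.GN4 BAS X M V V E E
  cl_of_le E.J c0 h

theorem LBc.cl_nabA {Y : Type*} [TopologicalSpace Y] (L : LBc M) {w : Y → L.bp.H1}
    {a : Y → X → V4} (hw : Continuous w) (ha : CL M.mu 4 a) (c : Fin 4) :
    CL M.mu 2 fun y x => L.nabA (w y) (a y) x c :=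
  (cl_lp ((L.nabH c).continuous.comp hw)).sub ((ha.lin ((Complex.I • Complex.ofRealCLM).comp
    (ContinuousLinearMap.proj c))).bil (L.bp.cl4.comp hw) (ContinuousLinearMap.lsmul ℝ ℂ))

theorem l2_le {E : Type*} [NormedAddCommGroup E] {μ : Measure X} {f : X → E} {B : ℝ}
    (hf : MemLp f 2 μ) (hB : 0 ≤ B) (h : ∫ x, ‖f x‖ ^ 2 ∂μ ≤ B ^ 2) :
    (eLpNorm f 2 μ).toReal ≤ B := by
  rw [hf.eLpNorm_eq_integral_rpow_norm two_ne_zero ENNReal.ofNat_ne_top]
  refine ENNReal.toReal_le_of_le_ofReal hB (ENNReal.ofReal_le_ofReal ?_)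
  simp only [ENNReal.toReal_ofNat, Real.rpow_two, ← one_div, ← Real.sqrt_eq_rpow]
  exact Real.sqrt_le_iff.2 ⟨hB, h⟩

theorem KATO : KATO_statement := by
  intro X _ _ _ _ _ Q L
  obtain ⟨C₀, c0, h0⟩ := G.GN4 BAS X Q.toCM ℝ ℝ (.triv _ ℝ) (.triv _ ℝ)
  obtain ⟨C₁, c1, h1⟩ := jet_le_df Q.toCM
  refine ⟨C₀ * C₁ * 5, by positivity, fun w a ha => ?_⟩
  have n : ∀ c, CL Q.mu 2 fun (y : L.bp.H1) x => L.nabA y a x c :=
    L.cl_nabA continuous_id (cl_const ha)
  have j2 : CL Q.mu 2 fun w : L.bp.H1 => L.bp.J w := cl_lp L.bp.J.continuous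
  refine ⟨fun c => (n c).memLp w, fun B B0 hB => ?_⟩
  have key : (eLpNorm (L.bp.J w) 4 Q.mu).toReal ≤ C₀ * C₁ *
      (∑ c, (eLpNorm (fun x => L.nabA w a x c) 2 Q.mu).toReal +
        (eLpNorm (L.bp.J w) 2 Q.mu).toReal) := by
    refine L.bp.H1_ind (p := fun w => (eLpNorm (L.bp.J w) 4 Q.mu).toReal ≤ C₀ * C₁ *
      (∑ c, (eLpNorm (fun x => L.nabA w a x c) 2 Q.mu).toReal +
        (eLpNorm (L.bp.J w) 2 Q.mu).toReal)) (isClosed_le L.bp.cl4.norm (continuous_const.mul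
          ((continuous_finsetSum _ fun c _ => (n c).norm).add j2.norm))) (fun w s hs r => ?_) w
    have one : MemLp (fun _ : X => (1 : ℝ)) 2 Q.mu := (bm_const 1).memLp 2
    refine le_of_forall_pos_le_add fun η η0 => ?_
    obtain ⟨ε, ε0, hε⟩ := exists_pos_mul_lt η0 (C₀ * C₁ * ‖one.toLp‖)
    obtain ⟨k1, k2⟩ := kato_pw L hs ε0
    have k3 := (Bun.triv Q.toCM ℝ).rep_jw (s := fun x => √(‖s x‖ ^ 2 + ε ^ 2)) k1
    have k4 : ‖(Bun.triv Q.toCM ℝ).jw (s := fun x => √(‖s x‖ ^ 2 + ε ^ 2)) k1‖ ≤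
        C₁ * ‖∑ c, ((n c).memLp w).norm.toLp + (j2.memLp w).norm.toLp + ε • one.toLp‖ := by
      refine Lp.norm_le_mul_norm_of_ae_le_mul ?_
      filter_upwards [k3, r.J_ae, eventually_all.2 (L.nabH_rep hs r), Lp.coeFn_add
        (∑ c, ((n c).memLp w).norm.toLp + (j2.memLp w).norm.toLp) (ε • one.toLp),
        Lp.coeFn_add (∑ c, ((n c).memLp w).norm.toLp) (j2.memLp w).norm.toLp,
        Lp.coeFn_smul ε one.toLp, one.coeFn_toLp, (j2.memLp w).norm.coeFn_toLp,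
        Lp.coeFn_fun_finsetSum Finset.univ fun c => ((n c).memLp w).norm.toLp,
        eventually_all.2 fun c => ((n c).memLp w).norm.coeFn_toLp] with x a1 a2 a3 a4 a5 a6 a7 a8
        a9 a10
      erw [a1]
      rw [a4, Pi.add_apply, a5, Pi.add_apply, a6, Pi.smul_apply, a7, a8, a9]
      simp only [a10]
      simp only [LBc.nabA, a2, a3, smul_eq_mul, mul_one]
      refine (h1 _ k1 x).trans (mul_le_mul_of_nonneg_left (le_trans ?_ (le_abs_self _)) c1)
      rw [add_assoc, Real.norm_of_nonneg (Real.sqrt_nonneg _)]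
      exact add_le_add (Finset.sum_le_sum fun c _ => k2 x c _) (Real.sqrt_le_iff.2
        ⟨by positivity, by nlinarith [mul_nonneg (norm_nonneg (s x)) ε0.le]⟩)
    have k5 : (eLpNorm (L.bp.J w) 4 Q.mu).toReal ≤ _ := ENNReal.toReal_le_of_le_ofReal
      (by positivity) ((eLpNorm_mono_ae (by
        filter_upwards [r.J_ae, k3.J_ae] with x a1 a2
        rw [a1, a2, Real.norm_of_nonneg (Real.sqrt_nonneg _)]
        exact Real.le_sqrt_of_sq_le (by nlinarith))).trans (h0 _))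
    have k6 := (norm_add₃_le (a := ∑ c, ((n c).memLp w).norm.toLp) (b := (j2.memLp w).norm.toLp)
      (c := ε • one.toLp)).trans (add_le_add (add_le_add (norm_sum_le _ _) le_rfl) le_rfl)
    simp only [fun c => Lp.norm_toLp _ ((n c).memLp w).norm, Lp.norm_toLp _ (j2.memLp w).norm,
      eLpNorm_norm, norm_smul, Real.norm_of_nonneg ε0.le] at k6
    have := mul_le_mul_of_nonneg_left (k4.trans (mul_le_mul_of_nonneg_left k6 c1)) c0
    nlinarith
  have i1 := fun c => ((n c).memLp w).integrable_norm_pow two_ne_zero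
  have i2 := (j2.memLp w).integrable_norm_pow two_ne_zero
  have i3 := (integrable_finsetSum Finset.univ fun c _ => i1 c).add i2
  have b1 := fun c => l2_le ((n c).memLp w) B0 ((integral_mono (i1 c) i3 fun x =>
    (Finset.single_le_sum (f := fun c => ‖L.nabA w a x c‖ ^ 2) (fun _ _ => by positivity)
      (Finset.mem_univ c)).trans (le_add_of_nonneg_right (by positivity))).trans hB)
  have b2 := l2_le (j2.memLp w) B0 ((integral_mono i2 i3 fun x =>
    le_add_of_nonneg_left (by positivity)).trans hB)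
  have b3 := Finset.sum_le_sum fun c (_ : c ∈ Finset.univ) => b1 c
  rw [← ENNReal.ofReal_toReal (L.bp.cl4.memLp w).2.ne]
  refine ENNReal.ofReal_le_ofReal (key.trans ?_)
  rw [mul_assoc _ 5]
  refine mul_le_mul_of_nonneg_left ?_ (by positivity)
  simp only [Finset.sum_const, Finset.card_univ, Fintype.card_fin, nsmul_eq_mul] at b3
  push_cast at b3
  linarith

end Vale.Agent.P247E
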