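import Vale.Agent.P247E.QFin
import Vale.Agent.P204.Bdl.B4

/-!
# P247E: kernel and cokernel of the Hodge operator
-/

set_option linter.all false

open scoped ContDiff Topology ENNReal ComplexConjugate
open Set MeasureTheory Filter

noncomputable section

namespace Vale.Agent.P247E

open Vale.Agent.P204.GX Vale.Agent.P204.T4
open Vale.Agent.P247.H74 (e)
open Vale.Agent.P247.H647 (Sp En sig pau omM hat len jz symb cov P3)

variable {X : Type} [MetricSpace X] [CompactSpace X] [MeasurableSpace X] [BorelSpace X]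

section neg

variable {M : CM X} {V W : Type} [NormedAddCommGroup V] [InnerProductSpace ℝ V]
  [FiniteDimensional ℝ V] [NormedAddCommGroup W] [InnerProductSpace ℝ W] [FiniteDimensional ℝ W]
  {E : Bun M V} {F : Bun M W}

theorem locOp_neg (Mi : Fin 4 → V4 → V →L[ℝ] W) (N : V4 → V →L[ℝ] W) (f : V4 → V) (y : V4) :
    locOp (fun i y => -Mi i y) (fun y => -N y) f y = -locOp Mi N f y := by
  simp [locOp, add_comm]

/-- the opposite operator -/
def Op.neg (P : Op E F) : Op E F :=
  ⟨fun a i y => -P.Mi a i y, fun a y => -P.N a y, fun a i => (P.Mi_smooth a i).neg,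
    fun a => (P.N_smooth a).neg, fun s hs a b y hy => by
      rw [locOp_neg, locOp_neg, map_neg, map_neg, P.compat s hs a b y hy]⟩

theorem Op.neg_ind (P : Op E F) : P.neg.ind = P.ind := by
  have : P.neg.clm = -P.clm := ContinuousLinearMap.ext (E.H1_ind
    (isClosed_eq P.neg.clm.continuous (ContinuousLinearMap.continuous _)) fun w s hs r =>
      Lp.ext (by
        filter_upwards [r.clm_ae hs P.neg, r.clm_ae hs P, Lp.coeFn_neg (P.clm w)] with x k1 k2 k3
        refine k1.trans (Eq.trans ?_ k3.symm)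
        rw [Pi.neg_apply, k2]
        exact (congrArg _ (locOp_neg _ _ _ _)).trans (map_neg _ _)))
  rw [Op.ind, this]
  exact LinearMap.index_neg

theorem Bun.zero_of_int {s : X → V} (hs : s ∈ E.Sm) (h : ∫ x, inner ℝ (s x) (s x) ∂M.mu = 0) :
    s = 0 := funext fun x => inner_self_eq_zero.1 (congrFun (eq_zero_of_integral
  (E.continuous_inner hs hs) (fun _ => real_inner_self_nonneg) (E.integrable_inner hs hs) h) x)

end neg

namespace Solv

theorem om_zero {M : CM X} {u : X → L2} (hu : u ∈ M.Om) (h : ∀ᵐ x ∂M.mu, u x = 0) : u = 0 :=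
  M.ext_cf fun a y _ => congrFun (((hu a).continuous.ae_eq_iff_eq volume
    (M.Om.zero_mem a).continuous).1 ((ae_charts.1 h a).mono fun y k => by
      simp only [CM.cf, k, Pi.zero_apply])) y

theorem stokes {M : CM X} {η : X → V4} (h : M.Sm1 η) {u : X → L2} (hu : u ∈ M.Om)
    (hc : ∀ a, Closed (M.cf a u)) : ∫ x, P204.T4.Q (M.dX η x) (u x) ∂M.mu = 0 :=
  M.stokesX (M.dX_mem_Ex h) (c := ⟨u, hu⟩) hc

theorem intQ {M : CM X} {u v : X → L2} (hu : u ∈ M.Om) (hv : v ∈ M.Om) :
    Integrable (fun x => P204.T4.Q (u x) (v x)) M.mu :=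
  M.integrable_Q7 (M.Om_le_C07 hu) (M.Om_le_C07 hv)

variable {Q : QM X} {H : Op Q.t1 Q.t0}

theorem df_zero {f : X → ℝ} (hf : Q.Sm0 f)
    (h : ∫ x, ∑ c, df Q.toCM f x c * df Q.toCM f x c ∂Q.mu = 0) : df Q.toCM f = 0 := by
  have := Bun.zero_of_int (s := fun x => spn (df Q.toCM f x))
    ((Q.mem_t1 _).2 (by simpa only [vec_spn] using sm1_df hf))
    (by simpa only [Hx.inner_vec, vec_spn] using h)
  funext x
  rw [← vec_spn (df _ f x), congrFun this x]
  exact map_zero vecL

theorem ker (b1 : B1 Q.toCM) (hH : Q.IsHod H) {φ : X → Sp} (h : φ ∈ H.kerS) : φ = 0 := by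
  have s := (Q.mem_t1 φ).1 h.1
  have m := Q.dX_mem_Om s
  have v0 : vec 0 = 0 := map_zero vecL
  have k : ∀ x, -P204.T4.Q (Q.dX (fun x => vec (φ x)) x) (Q.dX (fun x => vec (φ x)) x) =
      ∑ i, Q.dX (fun x => vec (φ x)) x i ^ 2 := fun x => by
    have k := fun k => hH.curl φ h.1 x k
    have k0 := k 0
    have k1 := k 1
    have k2 := k 2
    simp only [h.2 x, v0, Pi.zero_apply, ← Hx.hc_succ, Hx.hc_eq] at k0 k1 k2
    generalize Q.dX (fun x => vec (φ x)) x = A at *
    change 0 = A 0 + A 5 at k0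
    change 0 = A 1 - A 4 at k1
    change 0 = A 2 + A 3 at k2
    rw [Fin.sum_univ_six, P204.T4.Q]
    linear_combination (A 0 + A 5) * k0 + (A 1 - A 4) * k1 + (A 2 + A 3) * k2
  have d0 := om_zero m (((integral_eq_zero_iff_of_nonneg (fun x => (k x).ge.trans' (by positivity))
    (intQ m m).neg).1 (by
      rw [integral_neg, stokes s m fun a => by rw [Q.cf_dX s]; exact closed_d1 (s a),
        neg_zero])).mono fun x hx => funext fun i => pow_eq_zero_iff two_ne_zero |>.1
      ((Finset.sum_eq_zero_iff_of_nonneg fun _ _ => sq_nonneg _).1 ((k x).symm.trans hx) i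
        (Finset.mem_univ i)))
  obtain ⟨f, hf, e⟩ := b1 _ s d0
  have := hH.div φ h.1 f hf
  simp only [h.2, v0, Pi.zero_apply, mul_zero, integral_zero, ← e, zero_eq_neg] at this
  exact Bun.zero_of_int h.1 (by simpa only [Hx.inner_vec] using this)

/-- the self-dual form with given components -/
def sd (h : X → Fin 3 → ℝ) (x : X) : L2 := ∑ k, h x k • eS k

theorem sd_mem {h : X → Fin 3 → ℝ} (hh : SmF Q.toCM h) : sd h ∈ Q.Om := fun a => by
  have : Q.cf a (sd h) = fun y => ∑ k, h (Q.ψ a y) k • pull (Q.n a y) (eS k) := by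
    funext y
    simp only [CM.cf, sd, Fin.sum_univ_three, pull_add, pull_smul, Q.m_eq, pull_mm, pull_Rq_eS,
      Q.p_unit, one_smul]
  rw [this]
  exact ContDiff.sum fun k _ => (contDiff_pi.1 (hh a) k).smul (contDiff_iff_contDiffAt.2 fun y =>
    contDiffAt_pull (Q.n_smooth a).contDiffAt contDiffAt_const)

theorem Q_sd (g h : X → Fin 3 → ℝ) (x : X) :
    P204.T4.Q (sd g x) (sd h x) = 2 * ∑ k, g x k * h x k := by
  simp [sd, eS_eq, P204.T4.Q, Fin.sum_univ_three]
  ring

theorem sm_vec {t : X → Sp} (ht : t ∈ Q.t0.Sm) : SmF Q.toCM fun x => vec (t x) := fun a =>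
  vecL.contDiff.comp (Hx.triv_sm.1 ht a)

theorem sm_0 {t : X → Sp} (ht : t ∈ Q.t0.Sm) : Q.Sm0 fun x => vec (t x) 0 := fun a =>
  contDiff_pi.1 (sm_vec ht a) 0

theorem sm_s {t : X → Sp} (ht : t ∈ Q.t0.Sm) : SmF Q.toCM fun x (k : Fin 3) => vec (t x) k.succ :=
  fun a => contDiff_pi.2 fun k => contDiff_pi.1 (sm_vec ht a) _

theorem key (hH : Q.IsHod H) {φ t : X → Sp} (h : φ ∈ Q.t1.Sm) (ht : t ∈ Q.t0.Sm) :
    ∫ x, inner ℝ (φ x) (H.adj.app t x) ∂Q.mu =
      -∫ x, ∑ c, df Q.toCM (fun x => vec (t x) 0) x c * vec (φ x) c ∂Q.mu +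
      ∫ x, P204.T4.Q (Q.dX (fun x => vec (φ x)) x) (sd (fun x k => vec (t x) k.succ) x) ∂Q.mu := by
  rw [← H.isAdj_adj φ h t ht, ← hH.div φ h _ (sm_0 ht), ← integral_add
    ((SmF.continuous (M := Q.toCM) fun a => (sm_0 ht a).mul
      (sm_0 (H.app_mem h) a)).integrable_of_hasCompactSupport (.of_compactSpace _))
    (intQ (Q.dX_mem_Om ((Q.mem_t1 φ).1 h)) (sd_mem (sm_s ht)))]
  simp only [Hx.inner_vec, Fin.sum_univ_succ (n := 3), hH.curl φ h, sd, Q_sum, Q_eS_hat, mul_comm]

/-- the cokernel -/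
def Λ (Q : QM X) : (ℝ × (Fin 3 → ℝ)) →ₗ[ℝ] X → Sp where
  toFun c x := spnL (Fin.cons c.1 (Q.nu c.2 x))
  map_add' c d := by
    funext x
    rw [Pi.add_apply, ← map_add]
    congr 1
    funext i
    refine Fin.cases rfl (fun k => ?_) i
    simp [QM.nu, Matrix.add_vecMul]
  map_smul' r c := by
    funext x
    rw [Pi.smul_apply, ← map_smul]
    congr 1
    funext i
    refine Fin.cases rfl (fun k => ?_) i
    simp [QM.nu, Matrix.smul_vecMul]

theorem vec_Λ (c : ℝ × (Fin 3 → ℝ)) (x : X) : vec (Λ Q c x) = Fin.cons c.1 (Q.nu c.2 x) :=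
  vec_spn _

theorem nu_eq (c : Fin 3 → ℝ) (x : X) (k : Fin 3) : Q.nu c x k = ∑ j, c j * Q.T x j k := rfl

theorem Λ_mem (hH : Q.IsHod H) (c : ℝ × (Fin 3 → ℝ)) : Λ Q c ∈ H.adj.kerS := by
  have m : Λ Q c ∈ Q.t0.Sm := Hx.triv_sm.2 fun a => spnL.contDiff.comp
    (f := fun y => (Fin.cons c.1 (Q.nu c.2 (Q.ψ a y)) : V4)) (contDiff_pi.2
    (Fin.cases contDiff_const fun k => (ContDiff.sum fun j _ => contDiff_const.mul
      (Q.T_smooth j k a) : ContDiff ℝ ∞ fun y => ∑ j, c.2 j * Q.T (Q.ψ a y) j k)))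
  have s := (Q.mem_t1 _).1 (H.adj.app_mem m)
  refine ⟨m, congrFun (Bun.zero_of_int (H.adj.app_mem m) ?_)⟩
  rw [key hH (H.adj.app_mem m) m]
  have e : ∀ x A, P204.T4.Q A (sd (Q.nu c.2) x) = ∑ j, c.2 j * P204.T4.Q A (Q.w j x) :=
    fun x A => by
      simp only [sd, Q_sum, Q_eS_hat, Q.Q_w, nu_eq, Finset.sum_mul, Finset.mul_sum, mul_assoc]
      exact Finset.sum_comm
  simp only [vec_Λ, Fin.cons_zero, Fin.cons_succ, e]
  rw [integral_finsetSum _ fun j _ => (intQ (Q.dX_mem_Om s) (Q.w_mem j)).const_mul _]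
  simp [integral_const_mul, stokes s (Q.w_mem _) (Q.w_closed _), df]

variable [ConnectedSpace X]

theorem nu_inj {c : Fin 3 → ℝ} (h : ∀ x, Q.nu c x = 0) : c = 0 :=
  Q.T_pos (Classical.arbitrary X) c 0 le_rfl ((h _).trans (by simp))

theorem Λ_inj : Function.Injective (Λ Q) := (injective_iff_map_eq_zero _).2 fun c h => by
  have k : ∀ x, (Fin.cons c.1 (Q.nu c.2 x) : V4) = 0 := fun x => by
    rw [← vec_Λ, h]; exact map_zero vecL
  exact Prod.ext (congrFun (k (Classical.arbitrary X)) 0)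
    (nu_inj fun x => funext fun i => congrFun (k x) i.succ)

theorem coker (b3 : BP3 Q.toCM) (hH : Q.IsHod H) {t : X → Sp} (h : t ∈ H.adj.kerS) :
    t ∈ LinearMap.range (Λ Q) := by
  have k : ∀ η, Q.Sm1 η → -∫ x, ∑ c, df Q.toCM (fun x => vec (t x) 0) x c * η x c ∂Q.mu +
      ∫ x, P204.T4.Q (Q.dX η x) (sd (fun x k => vec (t x) k.succ) x) ∂Q.mu = 0 := fun η hη => by
    simpa only [vec_spn, h.2, inner_zero_right, integral_zero] using (key hH (φ := fun x =>
      spn (η x)) ((Q.mem_t1 _).2 (by simpa only [vec_spn] using hη)) h.1).symm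
  have f0 := sm_0 h.1
  have d0 := df_zero f0 (by simpa [dX_df f0] using k _ (sm1_df f0))
  have c0 : IsLocallyConstant fun x => vec (t x) 0 :=
    (IsLocallyConstant.iff_eventually_eq _).2 fun x => by
      obtain ⟨a, y, -, rfl⟩ := Q.cov x
      filter_upwards [(Q.isOpen_range a).mem_nhds (mem_range_self y)]
      rintro _ ⟨z, rfl⟩
      refine is_const_of_fderiv_eq_zero ((f0 a).differentiable (by simp)) (fun y =>
        ContinuousLinearMap.ext fun v => ?_) z y
      have := fun i => congrFun (congrFun (cf1_df f0 a) y) i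
      simp only [d0, Q.cf1_zero, Pi.zero_apply, pd] at this
      rw [clm_vec]
      simp [e, ← this]
  have m := sd_mem (sm_s h.1)
  have cl : ∀ a, Closed (Q.cf a (sd fun x k => vec (t x) k.succ)) := fun a =>
    weak4 ((m a).of_le (by norm_num)) fun η h1 h2 => by
      simpa [d0, Q.dX_ext1 a h1 h2, Q.integral_ext] using k _ (Q.sm1_ext1 a h1 h2)
  let g : Fin 4 → X → Fin 3 → ℝ := Fin.cons (fun x k => vec (t x) k.succ) fun j x => Q.T x j
  have hg : ∀ i, SmF Q.toCM (g i) := Fin.cases (sm_s h.1) fun j a =>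
    contDiff_pi.2 fun k => Q.T_smooth j k a
  obtain ⟨v, v0, hv⟩ : ∃ v : Fin 4 → ℝ, v ≠ 0 ∧ ∀ x, ∑ i, v i • g i x = 0 := by
    by_contra! n
    have cg : ∀ i a, Closed (Q.cf a (sd (g i))) := Fin.cases cl fun j a =>
      (funext (Q.w_eq j) : Q.w j = sd (g j.succ)) ▸ Q.w_closed j a
    refine b3 ⟨fun i => sd (g i), fun i => ⟨sd_mem (hg i), cg i⟩,
      Matrix.posDef_iff_dotProduct_mulVec.2 ⟨?_, fun v hv => ?_⟩⟩
    · ext i j
      simp only [Matrix.conjTranspose_apply, Matrix.of_apply, star_trivial, CM.pr, Q_comm]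
    obtain ⟨x, hx⟩ := n v hv
    have i1 := fun i j => (intQ (sd_mem (hg i)) (sd_mem (hg j))).const_mul (v i * v j)
    have c1 : Continuous fun x => ∑ i, v i • g i x :=
      continuous_finsetSum _ fun i _ => (hg i).continuous.const_smul (v i)
    have e1 : star v ⬝ᵥ (Matrix.of fun i j => Q.pr (sd (g i)) (sd (g j))).mulVec v =
        ∫ x, 2 * ∑ k, (∑ i, v i • g i x) k ^ 2 ∂Q.mu := by
      trans ∑ i, ∑ j, ∫ x, v i * v j * P204.T4.Q (sd (g i) x) (sd (g j) x) ∂Q.mu
      · simp only [dotProduct, Matrix.mulVec, integral_const_mul, Finset.mul_sum, star_trivial,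
          Matrix.of_apply, CM.pr, mul_assoc, mul_comm, mul_left_comm]
      simp only [← integral_finsetSum _ fun j _ => i1 _ j]
      rw [← integral_finsetSum _ fun i _ => integrable_finsetSum _ fun j _ => i1 i j]
      congr 1
      funext x
      simp only [Q_sd, Fin.sum_univ_three, Fin.sum_univ_four, Pi.add_apply, Pi.smul_apply,
        smul_eq_mul]
      ring
    rw [e1]
    refine Continuous.integral_pos_of_hasCompactSupport_nonneg_nonzero (x := x) (by fun_prop)
      (.of_compactSpace _) (fun x => by positivity) fun k => hx (funext fun i => ?_)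
    exact pow_eq_zero_iff two_ne_zero |>.1 ((Finset.sum_eq_zero_iff_of_nonneg
      fun _ _ => sq_nonneg _).1 (by simpa using k) i (Finset.mem_univ i))
  have e2 : ∀ x k, v 0 * vec (t x) (Fin.succ k) + Q.nu (fun j => v j.succ) x k = 0 := fun x k => by
    simpa [Fin.sum_univ_succ (n := 3), g, nu_eq] using congrFun (hv x) k
  have v1 : v 0 ≠ 0 := fun k => v0 (funext (Fin.cases k (congrFun (nu_inj (Q := Q)
    (c := fun j => v j.succ) fun x => funext fun i => by simpa [k] using e2 x i))))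
  refine ⟨(vec (t (Classical.arbitrary X)) 0, -(v 0)⁻¹ • fun j => v j.succ),
    funext fun x => Hx.vec_inj ?_⟩
  rw [vec_Λ]
  funext i
  refine Fin.cases (c0.apply_eq_of_preconnectedSpace _ _) (fun k => ?_) i
  have := eq_neg_of_add_eq_zero_right (e2 x k)
  simp only [Fin.cons_succ, QM.nu, Matrix.smul_vecMul, Pi.smul_apply, smul_eq_mul] at this ⊢
  rw [this]
  field_simp

end Solv

open Solv in
theorem SOLV : SOLV_statement := by
  intro X _ _ _ _ _ Q L b1 b3 H hH
  have hc := (hodx X Q L).2 H hH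
  obtain ⟨-, cl, -, r, -, -, i⟩ := fred X _ _ _ _ _ H _ H.isAdj_adj hc.gar
    (CLA X _ _ _ _ _ rfl _ _ H.isAdj_adj hc).gar
  constructor
  · have inj : Function.Injective H.clm := (injective_iff_map_eq_zero _).2 fun w hw => by
      obtain ⟨s, hs, k⟩ := (Fred.mem BAS REG hc.gar _).1 ⟨w, hw, rfl⟩
      rw [ker b1 hH hs] at k
      exact Q.t1.J_inj ((Lp.ext (k.trans (Lp.coeFn_zero _ _ _).symm)).trans (map_zero _).symm)
    have : CompleteSpace H.clm.range := cl.completeSpace_coe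
    have l : ∀ φ, (H.clm.equivRange inj cl).symm
        (H.clm.range.orthogonalProjectionOnto (H.clm φ)) = φ := fun φ => by
      rw [ContinuousLinearEquiv.symm_apply_eq]
      exact Submodule.orthogonalProjectionOnto_mem_subspace_eq_self
        (⟨H.clm φ, φ, rfl⟩ : H.clm.range)
    refine ⟨(H.clm.equivRange inj cl).symm.toContinuousLinearMap.comp
      H.clm.range.orthogonalProjectionOnto, l, fun g g1 g2 => ?_⟩
    obtain ⟨φ, rfl⟩ := (r g).2 fun t ht => by
      obtain ⟨c, rfl⟩ := coker b3 hH ht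
      have i0 : ∀ i, Integrable (fun x => vec (g x) i) Q.mu := fun i =>
        ((ContinuousLinearMap.proj i).comp vecL).integrable_comp ((Lp.memLp g).integrable
          one_le_two)
      have i1 : ∀ j, Integrable (fun x => ∑ k, Q.T x j k * vec (g x) k.succ) Q.mu := fun j =>
        integrable_finsetSum _ fun k _ => by
          obtain ⟨h1, C, h2⟩ := SmF.bm (M := Q.toCM) (f := fun x => Q.T x j k) (Q.T_smooth j k)
          exact (i0 _).bdd_mul h1.aestronglyMeasurable (.of_forall h2)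
      have e : ∀ x, inner ℝ (g x) (Λ Q c x) = c.1 * vec (g x) 0 +
          ∑ j, c.2 j * ∑ k, Q.T x j k * vec (g x) k.succ := fun x => by
        simp only [Hx.inner_vec, vec_Λ, Fin.sum_univ_succ (n := 3), Fin.cons_zero, Fin.cons_succ,
          nu_eq, Fin.sum_univ_three]
        ring
      simp only [e]
      rw [integral_add ((i0 _).const_mul _) (integrable_finsetSum _ fun j _ => (i1 j).const_mul _),
        integral_finsetSum _ fun j _ => (i1 j).const_mul _]
      simp only [integral_const_mul, g1, g2, mul_zero, Finset.sum_const_zero, add_zero]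
    exact congrArg _ (l φ)
  have dc := Q.dirac_cliff (LBc.triv Q.toCM)
  have da := (Q.dirac (LBc.triv Q.toCM)).isAdj_adj
  have dc' := CLA X _ _ _ _ _ rfl _ _ da dc
  rw [show Submodule.span ℝ H.kerS = ⊥ from Submodule.span_eq_bot.2 fun _ => ker b1 hH,
    show Submodule.span ℝ H.adj.kerS = LinearMap.range (Λ Q) from le_antisymm
      (Submodule.span_le.2 fun _ => coker b3 hH) (by
        rintro _ ⟨c, rfl⟩; exact Submodule.subset_span (Λ_mem hH c)),
    LinearMap.finrank_range_of_inj Λ_inj, ← H.neg_ind, (ZER X _ _ _ _ _).2 rfl _ H.neg dc' (by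
      funext a i y; exact (congrArg Neg.neg (Hx.Mi_eq Q hH a i y)).trans (neg_neg _)),
    (fred X _ _ _ _ _ _ _ da.symm dc'.gar dc.gar).2.2.2.2.2.2] at i
  rw [(fred X _ _ _ _ _ _ _ da dc.gar dc'.gar).2.2.2.2.2.2]
  simp at i
  omega

end Vale.Agent.P247E
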