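import Vale.Agent.P247E.Asmr
import Vale.Agent.P247E.Dict
import Vale.Agent.P247E.QEig
import Vale.Agent.P247E.QFin
import Vale.Agent.P247E.QKato
import Vale.Agent.P247E.QSolv
import Vale.Agent.P247E.QSt1
import Vale.Agent.P247E.Jac
import Vale.Agent.P247E.R.Exist

/-!
# P247E: assembly of the blocks E and R
-/

namespace Vale.Agent.P247E

theorem trivQ_of (hI : IND_statement) (hA : APR_statement) : TRIV_statement :=
  ASMR hodx SOLV hI EIG (R.EXIST BQ2) hA (R.VAN BQ1 BQ2 ST1) FIN UNI

theorem root_of (hI : IND_statement) (hA : APR_statement) : P247X.ROOT_statement :=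
  (RF dict BQ2 (trivQ_of hI hA)).1

theorem flat_of (hI : IND_statement) (hA : APR_statement) : P247X.FLAT_statement :=
  (RF dict BQ2 (trivQ_of hI hA)).2

end Vale.Agent.P247E
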