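import Vale.Agent.P247E.QSta
import Vale.Agent.P204.Bdl.B4

/-!
# P247E: the assembly rows `ASMR` and `RF`
-/

set_option linter.all false

open scoped ContDiff Topology ENNReal ComplexConjugate
open Set MeasureTheory Filter

noncomputable section

namespace Vale.Agent.P247E

open Vale.Agent.P204.GX Vale.Agent.P204.T4
open Vale.Agent.P247.H647 (len)

theorem ASMR : ASMR_statement := by
  intro hH hS hI hE hX hA hV hF hU X _ _ _ _ _ Q L hb1 hbp horth hlt
  obtain ⟨⟨H, hHod⟩, -⟩ := hH X Q L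
  obtain ⟨⟨G, hG⟩, h4⟩ := hS X Q L hb1 hbp H hHod
  have hI' := hI X Q L
  obtain ⟨B, Z, hZ⟩ := hE X Q L
  have hind : 1 ≤ (Q.dirac L).ind := by
    have hpi : 0 < 4 * Real.pi ^ 2 := by positivity
    have h1 : -4 < Q.pr L.F L.F / (4 * Real.pi ^ 2) := by
      rw [lt_div_iff₀ hpi]
      linarith
    have h2 : (0 : ℝ) < ((Q.dirac L).ind : ℝ) := by
      have h3 : ((Q.dirac L).ind : ℝ) =
        ((Q.dirac (LBc.triv Q.toCM)).ind : ℝ) + Q.pr L.F L.F / (4 * Real.pi ^ 2) := hI'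
      rw [h3, h4]
      push_cast
      linarith
    have h5 : 0 < (Q.dirac L).ind := by exact_mod_cast h2
    omega
  obtain ⟨r₀, CV, hV'⟩ := hV X Q L H B Z hHod hZ
  obtain ⟨⟨CA, hCA⟩, hA'⟩ := hA X Q L H G B Z hHod hG hZ
  obtain ⟨ρ₀, R₀, hA''⟩ := hA' r₀
  set ρ : ℝ := |ρ₀| + 1 with hρ
  have hρ0 : 0 < ρ := by positivity
  set R : ℝ := |R₀| + |CV| * (|CA| * ρ ^ 2) + 1 with hR
  have hR1 : 1 ≤ R := by
    have : 0 ≤ |R₀| + |CV| * (|CA| * ρ ^ 2) := by positivity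
    linarith
  have hR0 : 0 < R := by linarith
  have hRR : R₀ ≤ R := by
    have h1 : 0 ≤ |CV| * (|CA| * ρ ^ 2) := by positivity
    have h2 := le_abs_self R₀
    linarith
  obtain ⟨w, φ, c, hW, hw⟩ := hX X Q L H G B Z hHod hG hZ horth hind ρ R hρ0 hR0
  have h1 : r₀ ≤ len c := by
    by_contra h
    have h2 := hA'' R w φ c hR0 hRR hW (le_of_lt (not_le.1 h))
    have h3 := le_abs_self ρ₀
    linarith
  have h2 : CV * len c ≤ R ^ 2 := by
    have h3 := hCA R w φ c hR0 hW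
    rw [hw] at h3
    have h4 : 0 ≤ len c := Real.sqrt_nonneg _
    have h5 : len c ≤ |CA| * ρ ^ 2 :=
      h3.trans (mul_le_mul_of_nonneg_right (le_abs_self CA) (sq_nonneg ρ))
    have h6 : CV * len c ≤ |CV| * (|CA| * ρ ^ 2) :=
      (mul_le_mul_of_nonneg_right (le_abs_self CV) h4).trans
        (mul_le_mul_of_nonneg_left h5 (abs_nonneg CV))
    have h7 : |CV| * (|CA| * ρ ^ 2) ≤ R := by
      have := abs_nonneg R₀
      linarith
    have h8 : R ≤ R ^ 2 := by nlinarith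
    linarith
  obtain ⟨hFa, g, hg, hg1⟩ := hV' R w φ c hR0 hW h1 h2
  obtain ⟨s, hs, hs1⟩ := hF X Q L H B Z hHod hZ R w φ c hW hFa g hg hg1
  exact ⟨⟨s, hs, hs1⟩, (hU X Q L s hs hs1).2⟩

theorem pr_exact {X : Type} [MetricSpace X] [CompactSpace X] [ConnectedSpace X]
    [MeasurableSpace X] [BorelSpace X] (M : CM X) {η : X → V4} (hη : M.Sm1 η) {u : X → L2}
    (hu : u ∈ M.Om) (hc : ∀ a, Closed (M.cf a u)) : M.pr (M.dX η) u = 0 :=
  M.stokesX (e := ⟨M.dX η, M.dX_mem_Om hη⟩) (c := ⟨u, hu⟩) (M.dX_mem_Ex hη) hc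

open Vale.Agent.P247X Vale.Agent.P247.SCY in
theorem RF_key (hD : DICT_statement) (h2 : BQ2_statement) (hT : TRIV_statement) (X : Type)
    [i : Cl4 X] (μ : HS.Form X 4) (h0 : Top0 μ) (w : Tri X) (hw : HS.Hypersymplectic μ w)
    (L : LB X)
    (h : ((∀ j, HS.pair μ L.F (w j) = 0) ∧ -4 < HS.pair μ L.F L.F) ∨ HS.Exact L.F) :
    L.Triv ∧ HS.pair μ L.F L.F = 0 := by
  obtain ⟨d, hd, Q, Lc, h1, h3, h4, h5, h6, h7⟩ := hD X μ h0.vol w hw L
  have hc : @CompactSpace X d.toPseudoMetricSpace.toUniformSpace.toTopologicalSpace := by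
    rw [hd]; exact i.cpt
  have hn : @ConnectedSpace X d.toPseudoMetricSpace.toUniformSpace.toTopologicalSpace := by
    rw [hd]; exact i.conn
  have hb : @BorelSpace X d.toPseudoMetricSpace.toUniformSpace.toTopologicalSpace
      i.toMeasurableSpace := by
    rw [hd]; exact i.borel
  have hpi : 0 < 4 * Real.pi ^ 2 := by positivity
  have hB := @h2 X d hc hn i.toMeasurableSpace hb Q Lc
  have key : (∀ j, Q.pr Lc.F (Q.w j) = 0) ∧ -(16 * Real.pi ^ 2) < Q.pr Lc.F Lc.F := by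
    rcases h with ⟨ha, hb'⟩ | he
    · refine ⟨h4 ha, ?_⟩
      rw [h5]
      nlinarith
    · obtain ⟨η, hη, hF⟩ := h6 he
      constructor
      · intro j
        rw [hF]
        exact @pr_exact X d hc hn i.toMeasurableSpace hb Q.toCM η hη _ (hB.1 j) (Q.w_closed j)
      · have h8 : Q.pr Lc.F Lc.F = 0 := by
          have h9 := @pr_exact X d hc hn i.toMeasurableSpace hb Q.toCM η hη _ hB.2.2.1
            hB.2.2.2.2.1
          rwa [← hF] at h9
        rw [h8]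
        linarith
  obtain ⟨hs, hz⟩ := @hT X d hc hn i.toMeasurableSpace hb Q Lc (h1 h0.b1) (h3 h0.bp) key.1 key.2
  refine ⟨h7 hs, ?_⟩
  rw [h5] at hz
  exact (mul_eq_zero.1 hz).resolve_left hpi.ne'

theorem RF : RF_statement := by
  intro hD h2 hT
  constructor
  · intro X _ μ h0 w hw L ho hne
    have h := (RF_key hD h2 hT X μ h0 w hw L (Or.inl ⟨ho, by rw [hne]; norm_num⟩)).2
    rw [hne] at h
    norm_num at h
  · intro X _ μ h0 w hw L he
    exact (RF_key hD h2 hT X μ h0 w hw L (Or.inr he)).1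

end Vale.Agent.P247E
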