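import Vale.Agent.P247E.Ch

/-!
# P247E: the rows `MUL` and `BAS`
-/

open scoped ContDiff Topology ENNReal NNReal
open Set MeasureTheory Filter Metric

set_option linter.all false

noncomputable section

namespace Vale.Agent.P247E

open Vale.Agent.P204.GX Vale.Agent.P204.T4
open Vale.Agent.P247.H74 (e)

variable {X : Type} [MetricSpace X] [MeasurableSpace X] [BorelSpace X] {M : CM X}

section Mul

variable {V W : Type} [NormedAddCommGroup V] [NormedSpace ℝ V] [NormedAddCommGroup W]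
  [NormedSpace ℝ W] {B : X → V →L[ℝ] W} {C : ℝ}

theorem mulOp_ae (h1 : AEStronglyMeasurable B M.mu) (h2 : ∀ x, ‖B x‖ ≤ C) (f : LL2 M V) :
    mulOp M B f =ᵐ[M.mu] fun x => B x (f x) := by
  have h3 := memLp_top_of_bound h1 C (.of_forall h2)
  have h : ∃ T : LL2 M V →L[ℝ] LL2 M W, ∀ f, T f =ᵐ[M.mu] fun x => B x (f x) :=
    ⟨(ContinuousLinearMap.id ℝ (V →L[ℝ] W)).holderL M.mu ⊤ 2 2 h3.toLp, fun f =>
      ((ContinuousLinearMap.id ℝ (V →L[ℝ] W)).coeFn_holder h3.toLp f).trans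
        (h3.coeFn_toLp.mono fun x hx => by simp only [hx]; rfl)⟩
  rw [mulOp, dif_pos h]
  exact h.choose_spec f

theorem norm_mulOp (h1 : AEStronglyMeasurable B M.mu) (h2 : ∀ x, ‖B x‖ ≤ C) :
    ‖mulOp M B‖ ≤ max C 0 :=
  ContinuousLinearMap.opNorm_le_bound _ (le_max_right _ _) fun f =>
    Lp.norm_le_mul_norm_of_ae_le_mul ((mulOp_ae h1 h2 f).mono fun x hx => by
      rw [hx]
      exact ContinuousLinearMap.le_of_opNorm_le _ ((h2 x).trans (le_max_left _ _)) _)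

theorem BM.mulOp_ae (h : BM B) (f : LL2 M V) : mulOp M B f =ᵐ[M.mu] fun x => B x (f x) :=
  P247E.mulOp_ae h.1.aestronglyMeasurable h.2.choose_spec f

end Mul

theorem MUL : MUL_statement := fun _ _ _ _ _ _ _ _ _ _ _ _ _ _ _ _ h1 h2 =>
  ⟨mulOp_ae h1 h2, norm_mulOp h1 h2⟩

variable {V W : Type} [NormedAddCommGroup V] [InnerProductSpace ℝ V] [FiniteDimensional ℝ V]
  [NormedAddCommGroup W] [InnerProductSpace ℝ W] [FiniteDimensional ℝ W] {E : Bun M V} {F : Bun M W}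

/-- the inclusion of a component of the jets -/
def jinc (M : CM X) (V : Type) [NormedAddCommGroup V] [InnerProductSpace ℝ V]
    (o : Option (M.A × Fin 4)) : V →L[ℝ] Jt M V :=
  (PiLp.continuousLinearEquiv 2 ℝ fun _ => V).symm.toContinuousLinearMap.comp
    (ContinuousLinearMap.single ℝ (fun _ => V) o)

theorem sum_jinc (z : Jt M V) : ∑ o, jinc M V o (z o) = z := by
  ext o
  rcases o with _ | p <;> simp [jinc, Pi.single_apply]

theorem Bun.jet_mem (E : Bun M V) {s : X → V} (hs : s ∈ E.Sm) (o : Option (M.A × Fin 4)) :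
    (fun x => E.jet s x o) ∈ E.Sm := by
  rcases o with _ | p
  exacts [hs, E.nab_mem _ _ hs]

theorem Bun.bm_jet (E : Bun M V) {s : X → V} (hs : s ∈ E.Sm) : BM (E.jet s) := by
  simpa only [sum_jinc] using bm_sum Finset.univ fun o => (E.bm (E.jet_mem hs o)).lin (jinc M V o)

theorem Bun.jet_add (E : Bun M V) {s t : X → V} (hs : s ∈ E.Sm) (ht : t ∈ E.Sm) :
    E.jet (s + t) = E.jet s + E.jet t := by
  ext x (_ | p)
  · rfl
  · simp [Bun.jet, Bun.nab, E.lo_add, fderiv_add ((hs _).differentiable (by simp) _)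
      ((ht _).differentiable (by simp) _)]

theorem Bun.jet_smul (E : Bun M V) (c : ℝ) {s : X → V} (hs : s ∈ E.Sm) :
    E.jet (c • s) = c • E.jet s := by
  ext x (_ | p)
  · rfl
  · simp [Bun.jet, Bun.nab, E.lo_smul, fderiv_const_smul ((hs _).differentiable (by simp) _),
      smul_comm c]

theorem Bun.jet_zero (E : Bun M V) : E.jet 0 = 0 := by
  simpa using E.jet_smul 0 E.Sm.zero_mem

/-- the element of `H¹` of a smooth section -/
def Bun.jw (E : Bun M V) {s : X → V} (hs : s ∈ E.Sm) : E.H1 :=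
  ⟨((E.bm_jet hs).memLp 2).toLp, Submodule.le_topologicalClosure _
    (Submodule.subset_span ⟨s, hs, MemLp.coeFn_toLp _⟩)⟩

theorem Bun.rep_jw (E : Bun M V) {s : X → V} (hs : s ∈ E.Sm) : E.Rep (E.jw hs) s :=
  ((E.bm_jet hs).memLp 2).coeFn_toLp

theorem Bun.Rep.add {w w' : E.H1} {s t : X → V} (h : E.Rep w s) (h' : E.Rep w' t) (hs : s ∈ E.Sm)
    (ht : t ∈ E.Sm) : E.Rep (w + w') (s + t) := by
  rw [Bun.Rep, E.jet_add hs ht]
  exact (Lp.coeFn_add _ _).trans (EventuallyEq.add h h')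

theorem Bun.Rep.smul {w : E.H1} {s : X → V} (h : E.Rep w s) (c : ℝ) (hs : s ∈ E.Sm) :
    E.Rep (c • w) (c • s) := by
  rw [Bun.Rep, E.jet_smul c hs]
  exact (Lp.coeFn_smul _ _).trans (EventuallyEq.const_smul h c)

theorem Bun.Rep.sub {w w' : E.H1} {s t : X → V} (h : E.Rep w s) (h' : E.Rep w' t) (hs : s ∈ E.Sm)
    (ht : t ∈ E.Sm) : E.Rep (w - w') (s - t) := by
  simpa only [neg_smul, one_smul, ← sub_eq_add_neg] using
    h.add (h'.smul (-1) ht) hs (E.Sm.smul_mem _ ht)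

theorem Bun.Rep.unique {w w' : E.H1} {s : X → V} (h : E.Rep w s) (h' : E.Rep w' s) : w = w' :=
  Subtype.ext (Lp.ext (EventuallyEq.trans h (EventuallyEq.symm h')))

theorem Bun.dense_rep (E : Bun M V) : Dense {w : E.H1 | ∃ s ∈ E.Sm, E.Rep w s} :=
  Subtype.dense_iff.2 (closure_mono fun f hf => ⟨⟨f, Submodule.le_topologicalClosure _ hf⟩, by
    induction hf using Submodule.span_induction with
    | mem f h => exact h
    | zero => exact ⟨0, E.Sm.zero_mem, by rw [Bun.Rep, E.jet_zero]; exact Lp.coeFn_zero _ _ _⟩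
    | add f g _ _ a b =>
      obtain ⟨s, hs, a⟩ := a
      obtain ⟨t, ht, b⟩ := b
      exact ⟨_, E.Sm.add_mem hs ht, a.add b hs ht⟩
    | smul c f _ a =>
      obtain ⟨s, hs, a⟩ := a
      exact ⟨_, E.Sm.smul_mem c hs, a.smul c hs⟩, rfl⟩)

/-- closed properties of the elements of `H¹` are checked on smooth sections -/
theorem Bun.H1_ind (E : Bun M V) {p : E.H1 → Prop} (hp : IsClosed {w | p w})
    (h : ∀ w, ∀ s ∈ E.Sm, E.Rep w s → p w) (w : E.H1) : p w :=
  E.dense_rep.induction (fun w ⟨s, hs, k⟩ => h w s hs k) hp w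

theorem Bun.J_ae (E : Bun M V) (w : E.H1) :
    (E.J w : X → V) =ᵐ[M.mu] fun x => (w : LL2 M (Jt M V)) x none :=
  (jproj M V none).coeFn_compLpL _

theorem Bun.Rep.J_ae {w : E.H1} {s : X → V} (h : E.Rep w s) : (E.J w : X → V) =ᵐ[M.mu] s :=
  (E.J_ae w).trans (Eventually.mono h fun x hx => by simp only [hx]; rfl)

theorem Bun.eq_of_ae (E : Bun M V) {s t : X → V} (hs : s ∈ E.Sm) (ht : t ∈ E.Sm)
    (h : s =ᵐ[M.mu] t) : s = t :=
  E.ext_lo fun a => (Continuous.ae_eq_iff_eq volume (hs a).continuous (ht a).continuous).1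
    (E.ae_lo.1 h a)

theorem Bun.Hom.bm {B : X → V →L[ℝ] W} (h : E.Hom F B) : BM B := bm_charts fun a => by
  convert ((F.lb_u a).comp (lb_cont (h a).continuous)).comp (E.lb_u' a) using 2 with y
  ext v
  simp [E.u_u', F.u_u']

theorem Bun.Hom.mem {B : X → V →L[ℝ] W} (h : E.Hom F B) {s : X → V} (hs : s ∈ E.Sm) :
    (fun x => B x (s x)) ∈ F.Sm := fun a => by
  convert (h a).clm_apply (hs a) using 2 with y
  simp only [ContinuousLinearMap.comp_apply, E.u_lo]; rfl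

theorem Op.bm_sym (P : Op E F) : BM P.sym :=
  bm_sum _ fun a => (bm_sum _ fun i => bm_theta a ((F.lb_u a).comp ((lb_cont
    (P.Mi_smooth a i).continuous).comp ((E.lb_u' a).comp (lb_const _))))).add
    (bm_zeta a ((F.lb_u a).comp ((lb_cont (P.N_smooth a).continuous).comp
      ((E.lb_u' a).comp (lb_const _)))))

theorem Op.clm_ae (P : Op E F) (w : E.H1) :
    (P.clm w : X → W) =ᵐ[M.mu] fun x => P.sym x ((w : LL2 M (Jt M V)) x) := P.bm_sym.mulOp_ae _

theorem Bun.Rep.clm_ae {w : E.H1} {s : X → V} (h : E.Rep w s) (hs : s ∈ E.Sm) (P : Op E F) :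
    (P.clm w : X → W) =ᵐ[M.mu] P.app s :=
  (P.clm_ae w).trans (Eventually.mono h fun x hx => by simp only [hx, P.sym_jet hs])

theorem zl_zero' (a : M.A) {y : V4} (hy : y ∉ closedBall (0 : V4) 2) : M.zl a y = 0 :=
  M.zl_eq_zero a fun h => hy (ball_subset_closedBall h)

theorem theta_zl (a : M.A) (y : V4) (v : V) : theta y • M.zl a y • v = M.zl a y • v := by
  by_cases h : y ∈ closedBall (0 : V4) 2
  · rw [theta_one ((mem_closedBall_zero_iff.1 h).trans (by norm_num)), one_smul]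
  · simp [zl_zero' a h]

theorem memLp_zl (a : M.A) {g : V4 → V} {p : ℝ≥0∞} (hg : P247.H306.LL p g) :
    MemLp (fun y => M.zl a y • g y) p volume := by
  have : (fun y => M.zl a y • g y) = (closedBall 0 2).indicator fun y => M.zl a y • g y :=
    (indicator_eq_self.2 fun y hy => by_contra fun h => hy (by simp [zl_zero' a h])).symm
  rw [this, memLp_indicator_iff_restrict measurableSet_closedBall]
  exact (hg _ (isCompact_closedBall _ _)).of_le ((M.measurable_zl a).aestronglyMeasurable.smul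
    (hg _ (isCompact_closedBall _ _)).1) (.of_forall fun y => by
      rw [norm_smul, Real.norm_of_nonneg (M.zl_nonneg a y)]
      exact mul_le_of_le_one_left (norm_nonneg _) (M.zeta_le_one a _))

theorem Bun.dense_sm (E : Bun M V) :
    Dense {f : LL2 M V | ∃ s ∈ E.Sm, (f : X → V) =ᵐ[M.mu] s} := fun f => by
  let S : Submodule ℝ (LL2 M V) := ⟨⟨⟨{f | ∃ s ∈ E.Sm, (f : X → V) =ᵐ[M.mu] s},
    fun ⟨s, hs, a⟩ ⟨t, ht, b⟩ => ⟨_, E.Sm.add_mem hs ht, (Lp.coeFn_add _ _).trans (a.add b)⟩⟩,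
    0, E.Sm.zero_mem, Lp.coeFn_zero _ _ _⟩, fun c _ ⟨s, hs, a⟩ =>
      ⟨_, E.Sm.smul_mem c hs, (Lp.coeFn_smul _ _).trans (a.const_smul c)⟩⟩
  have h1 := fun a => memLp_zl a (E.ll_lo a (Lp.memLp f))
  have h2 := fun a => E.memLp_ext a (isCompact_closedBall 0 2)
    (fun y hy => by rw [zl_zero' a hy, zero_smul]) (h1 a)
  have h3 : f = ∑ a, (h2 a).toLp := Lp.ext (by
    filter_upwards [Lp.coeFn_finsetSum Finset.univ fun a => (h2 a).toLp,
      ae_all_iff.2 fun a => (h2 a).coeFn_toLp] with x k1 k2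
    rw [k1, Finset.sum_apply]
    simp only [k2]
    simp only [E.ext_zl, sum_zeta_smul])
  rw [h3]
  refine S.topologicalClosure.sum_mem fun a _ => Metric.mem_closure_iff.2 fun ε ε0 => ?_
  obtain ⟨C, hC⟩ := E.norm_ext_le a (isCompact_closedBall 0 5) 2
  obtain ⟨g, g1, g2, g3⟩ := (h1 a).exist_eLpNorm_sub_le (by simp) (by simp)
    (show 0 < ε / 2 / (C + 1) by positivity)
  have m := E.ext_mem a (theta.contDiff.smul g2) theta.hasCompactSupport.smul_right
  refine ⟨((E.bm m).memLp 2).toLp, ⟨_, m, MemLp.coeFn_toLp _⟩, ?_⟩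
  rw [dist_eq_norm, ← MemLp.toLp_sub, Lp.norm_toLp, ← E.ext_sub]
  refine ENNReal.toReal_lt_of_lt_ofReal (((hC _ fun y hy => ?_).trans (mul_le_mul_right
    ((eLpNorm_mono fun y => ?_).trans g3) _)).trans_lt ?_)
  · rw [Pi.sub_apply, ← theta_zl, Pi.smul_apply', theta_zero fun h => hy (ball_subset_closedBall h)]
    simp
  · rw [Pi.sub_apply, ← theta_zl, Pi.smul_apply', ← smul_sub, norm_smul,
      Real.norm_of_nonneg theta.nonneg]
    exact mul_le_of_le_one_left (norm_nonneg _) theta.le_one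
  · rw [← ENNReal.ofReal_coe_nnreal, ← ENNReal.ofReal_mul C.coe_nonneg,
      ENNReal.ofReal_lt_ofReal_iff ε0, ← mul_div_assoc, div_lt_iff₀ (by positivity)]
    nlinarith [C.coe_nonneg]

theorem BAS : BAS_statement := fun _ _ _ _ _ _ _ _ _ _ _ _ _ _ E _ =>
  ⟨fun _ hs => ⟨(E.bm hs).1, (E.bm hs).2, (E.bm_jet hs).1, (E.bm_jet hs).2, _, E.rep_jw hs⟩,
    E.dense_rep, E.dense_sm, fun _ hs _ ht => E.eq_of_ae hs ht, fun _ _ h => h.J_ae,
    fun _ h => ⟨h.bm.1, h.bm.2, fun _ => h.mem⟩, fun P => ⟨P.bm_sym.1, P.bm_sym.2, P.clm_ae,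
      fun _ hs => ⟨P.app_mem hs, P.lo_app hs, P.sym_jet hs, fun _ h => h.clm_ae hs P⟩⟩⟩

end Vale.Agent.P247E
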