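import Vale.Agent.P247E.QSta
import Vale.Agent.P247E.Bas

/-!
# P247E: boundedness, measurability, Leibniz rules
-/

set_option linter.all false

open scoped ContDiff Topology ENNReal ComplexConjugate
open Set MeasureTheory Filter

noncomputable section

namespace Vale.Agent.P247E

open Vale.Agent.P204.GX Vale.Agent.P204.T4
open Vale.Agent.P247.H74 (e)
open Vale.Agent.P247.H647 (Sp En sig pau omM hat len jz symb cov P3)

section lb

variable {A B : Type} [NormedAddCommGroup A] [NormedAddCommGroup B]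

theorem Lb.prod {f : V4 → A} {g : V4 → B} (hf : Lb f) (hg : Lb g) : Lb fun y => (f y, g y) :=
  ⟨hf.1.prodMk hg.1, fun R => by
    obtain ⟨C₁, h1⟩ := hf.2 R
    obtain ⟨C₂, h2⟩ := hg.2 R
    exact ⟨max C₁ C₂, fun y hy => max_le_max (h1 y hy) (h2 y hy)⟩⟩

theorem Lb.cont [ProperSpace A] {F : A → B} (hF : Continuous F) {f : V4 → A} (hf : Lb f) :
    Lb fun y => F (f y) :=
  ⟨hF.comp_stronglyMeasurable hf.1, fun R => by
    obtain ⟨C, h⟩ := hf.2 R
    obtain ⟨D, hD⟩ := (isCompact_closedBall (0 : A) C).exists_bound_of_continuousOn hF.continuousOn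
    exact ⟨D, fun y hy => hD _ (mem_closedBall_zero_iff.2 (h y hy))⟩⟩

variable {X : Type} [MeasurableSpace X]

theorem BM.prod {f : X → A} {g : X → B} (hf : BM f) (hg : BM g) : BM fun y => (f y, g y) := by
  obtain ⟨a, C₁, h1⟩ := hf
  obtain ⟨b, C₂, h2⟩ := hg
  exact ⟨a.prodMk b, max C₁ C₂, fun y => max_le_max (h1 y) (h2 y)⟩

theorem BM.cont [ProperSpace A] {F : A → B} (hF : Continuous F) {f : X → A} (hf : BM f) :
    BM fun y => F (f y) := by
  obtain ⟨a, C, h⟩ := hf
  obtain ⟨D, hD⟩ := (isCompact_closedBall (0 : A) C).exists_bound_of_continuousOn hF.continuousOn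
  exact ⟨hF.comp_stronglyMeasurable a, D, fun y => hD _ (mem_closedBall_zero_iff.2 (h y))⟩

theorem bm_const (c : A) : BM fun _ : X => c := ⟨stronglyMeasurable_const, _, fun _ => le_rfl⟩

theorem bm_two {f : X → A} {g : X → Fin 4 → B} (hf : BM f) (hg : ∀ c, BM fun x => g x c) :
    ∃ C, ∀ x c, ‖f x‖ ≤ C ∧ ‖g x c‖ ≤ C := by
  obtain ⟨C, h⟩ := hf.2
  choose D hD using fun c => (hg c).2
  obtain ⟨D', hD'⟩ := (Set.finite_range D).bddAbove
  exact ⟨max C D', fun x c => ⟨(h x).trans (le_max_left _ _),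
    ((hD c x).trans (hD' ⟨c, rfl⟩)).trans (le_max_right _ _)⟩⟩

end lb

variable {X : Type} [MetricSpace X] {M : CM X}

theorem app_e (P : M4) (j i : Fin 4) : app P (e j) i = P i j := by
  simp [app, e, Pi.single_apply]

theorem norm_e (j : Fin 4) : ‖e j‖ ≤ 1 :=
  (pi_norm_le_iff_of_nonneg zero_le_one).2 fun i => by
    simp only [e, Pi.single_apply]; split_ifs <;> simp

theorem lb_m' (a : M.A) : Lb (M.m' a) := ⟨(M.m'_meas a).stronglyMeasurable, fun R => by
  obtain ⟨C, h1, h⟩ := M.exists_frame_bound a R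
  refine ⟨C, fun y hy => (pi_norm_le_iff_of_nonneg (by linarith)).2 fun i =>
    (pi_norm_le_iff_of_nonneg (by linarith)).2 fun j => ?_⟩
  have := (h y hy (app (M.m' a y) (e j))).2
  rw [M.m_m'] at this
  rw [← app_e (M.m' a y)]
  exact (norm_le_pi_norm _ i).trans (this.trans (mul_le_of_le_one_right (by linarith) (norm_e j)))⟩

theorem lb_fv (a : M.A) (c : Fin 4) : Lb fun y => fv M a y c :=
  (lb_m' a).cont (F := fun P => app P (e c))
    (contDiff_app.continuous.comp (continuous_id.prodMk continuous_const))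

theorem LBc.lb_γ (L : LBc M) (a : M.A) : Lb (L.γ a) :=
  ⟨(L.γ_meas a).stronglyMeasurable, fun _ => ⟨1, fun y _ => (L.γ_norm a y).le⟩⟩

section sec

variable {E : Type} [NormedAddCommGroup E] [NormedSpace ℂ E]

theorem LBc.γ_lo (L : LBc M) (a : M.A) (s : X → E) (y : V4) :
    L.γ a y • L.lo a s y = s (M.ψ a y) := by
  rw [LBc.lo, smul_smul, L.mul_conj, one_smul]

theorem LBc.norm_lo (L : LBc M) (a : M.A) (s : X → E) (y : V4) :
    ‖L.lo a s y‖ = ‖s (M.ψ a y)‖ := by
  rw [← L.γ_lo a s, norm_smul, L.γ_norm, one_mul]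

theorem LBc.Sm.cont_norm {L : LBc M} {s : X → E} (hs : L.Sm s) : Continuous fun x => ‖s x‖ :=
  cont_charts (M := M) fun a => by simpa only [← L.norm_lo] using (hs a).continuous.norm

end sec

theorem LBc.lo_inner (L : LBc M) (a : M.A) (f ψ : X → Sp) :
    L.lo a (fun x => inner ℂ (f x) (ψ x)) = fun y => inner ℂ (f (M.ψ a y)) (L.lo a ψ y) := by
  funext y
  simp only [LBc.lo, inner_smul_right, smul_eq_mul]

theorem LBc.Sm.inner {L : LBc M} {f ψ : X → Sp} (hf : SmF M f) (hψ : L.Sm ψ) :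
    L.Sm fun x => inner ℂ (f x) (ψ x) := fun a => by
  rw [L.lo_inner]
  exact (hf a).inner ℂ (hψ a)

theorem LBc.cv_inner {L : LBc M} {f ψ : X → Sp} (hf : SmF M f) (hψ : L.Sm ψ) (x : X) (c : Fin 4) :
    L.cv (fun x => inner ℂ (f x) (ψ x)) x c =
      inner ℂ (f x) (L.cv ψ x c) + inner ℂ (df M f x c) (ψ x) := by
  have h1 : ContDiff ℝ ∞ (L.lo (M.ch x) ψ) := hψ _
  have h2 := fderiv_inner_apply ℂ ((hf (M.ch x)).differentiable (by simp) (M.cy x))
    (h1.differentiable (by simp) (M.cy x)) (fv M (M.ch x) (M.cy x) c)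
  unfold LBc.cv cov df
  rw [L.lo_inner]
  conv_rhs => rw [← M.ψ_cy x, ← L.γ_lo (M.ch x) ψ, M.ψ_cy x]
  erw [h2]
  simp only [M.ψ_cy, inner_smul_right, inner_sub_right, smul_eq_mul]
  ring

theorem cd_conj {h : V4 → ℂ} (hh : ContDiff ℝ ∞ h) : ContDiff ℝ ∞ fun y => conj (h y) :=
  Complex.conjCLE.contDiff.comp hh

theorem SmF.conj_smul {h : X → ℂ} {f : X → Sp} (hh : SmF M h) (hf : SmF M f) :
    SmF M fun x => conj (h x) • f x := fun a => (cd_conj (hh a)).smul (hf a)

theorem df_conj_smul {h : X → ℂ} {f : X → Sp} (hh : SmF M h) (hf : SmF M f) (x : X) (c : Fin 4) :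
    df M (fun x => conj (h x) • f x) x c = conj (df M h x c) • f x + conj (h x) • df M f x c := by
  have h1 := ((hh (M.ch x)).differentiable (by simp) (M.cy x)).hasFDerivAt
  have h2 := ((hf (M.ch x)).differentiable (by simp) (M.cy x)).hasFDerivAt
  have h3 := ((Complex.conjCLE.hasFDerivAt.comp _ h1).smul h2).fderiv
  unfold df
  erw [h3]
  simp [M.ψ_cy, add_comm]

theorem cd_det {n : Type} [Fintype n] [DecidableEq n] {A : V4 → Matrix n n ℝ}
    (h : ∀ i j, ContDiff ℝ ∞ fun y => A y i j) : ContDiff ℝ ∞ fun y => (A y).det := by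
  simp only [Matrix.det_apply']
  exact ContDiff.sum fun σ _ => contDiff_const.mul (contDiff_prod fun i _ => h _ _)

theorem QM.det_T (Q : QM X) (x : X) : (Q.T x).det ≠ 0 := fun h => by
  obtain ⟨u, h1, h2⟩ := Matrix.exists_vecMul_eq_zero_iff.2 h
  exact h1 (Q.T_pos x u 0 le_rfl (by simp [h2]))

theorem QM.sm_inv (Q : QM X) (k j : Fin 3) : SmF Q.toCM fun x => (Q.T x)⁻¹ k j := fun a => by
  simp only [Matrix.inv_def, Ring.inverse_eq_inv', Matrix.smul_apply, smul_eq_mul,
    Matrix.adjugate_apply]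
  refine ((cd_det fun i j => Q.T_smooth i j a).inv fun y => Q.det_T _).mul (cd_det fun i l => ?_)
  simp only [Matrix.updateRow_apply]
  split_ifs
  exacts [contDiff_const, Q.T_smooth i l a]

theorem QM.inv_T (Q : QM X) (x : X) (k k' : Fin 3) :
    ∑ j, (Q.T x)⁻¹ k j * Q.T x j k' = if k = k' then 1 else 0 := by
  rw [← Matrix.mul_apply, Matrix.nonsing_inv_mul _ (Q.det_T x).isUnit, Matrix.one_apply]

variable [CompactSpace X] [MeasurableSpace X] [BorelSpace X]

section fn

variable {E : Type} [NormedAddCommGroup E] [NormedSpace ℝ E] [FiniteDimensional ℝ E]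

theorem SmF.continuous {f : X → E} (hf : SmF M f) : Continuous f :=
  cont_charts (M := M) fun a => (hf a).continuous

theorem SmF.bm {f : X → E} (hf : SmF M f) : BM f :=
  bm_charts (M := M) fun a => lb_cont (hf a).continuous

theorem SmF.bm_df {f : X → E} (hf : SmF M f) (c : Fin 4) : BM fun x => df M f x c :=
  bm_charts (M := M) fun a => by
    simp only [df_psi hf]
    exact (lb_cont ((hf a).continuous_fderiv (by simp))).app (lb_fv a c)

end fn

section sec

variable {E : Type} [NormedAddCommGroup E] [NormedSpace ℂ E] [FiniteDimensional ℂ E]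

theorem LBc.Sm.bm {L : LBc M} {s : X → E} (hs : L.Sm s) : BM s :=
  bm_charts (M := M) fun a => by
    simp only [← L.γ_lo a s]
    exact (L.lb_γ a).bil (ContinuousLinearMap.lsmul ℝ ℂ) (lb_cont (hs a).continuous)

theorem LBc.Sm.bm_cv {L : LBc M} {s : X → E} (hs : L.Sm s) (c : Fin 4) :
    BM fun x => L.cv s x c :=
  bm_charts (M := M) fun a => by
    simp only [L.cv_psi hs, cov]
    haveI : ProperSpace E := FiniteDimensional.proper ℂ E
    have h1 := (lb_cont ((hs a).continuous_fderiv (by simp))).app (lb_fv a c)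
    have h2 := (lb_cont (L.A_smooth a).continuous).app (lb_fv a c)
    exact (((L.lb_γ a).prod h1).prod (h2.prod (lb_cont (hs a).continuous))).cont
      (F := fun q : (ℂ × E) × ℝ × E => q.1.1 • (q.1.2 - (Complex.I * (q.2.1 : ℂ)) • q.2.2))
      (by fun_prop)

end sec

theorem bm_Om {u : X → L2} (hu : u ∈ M.Om) : BM u :=
  bm_charts (M := M) fun a => by
    simp only [M.eq_pull_m' u a]
    exact ((lb_m' a).prod (lb_cont (hu a).continuous)).cont contDiff_pull.continuous

theorem bm_Sm1 {η : X → V4} (h : M.Sm1 η) : BM η :=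
  bm_charts (M := M) fun a => by
    simp only [M.eq_copp_m' η a]
    exact ((lb_cont (h a).continuous).prod (lb_m' a)).cont contDiff_copp.continuous

theorem BQ1 : BQ1_statement := fun _ _ _ _ _ _ Q L =>
  ⟨fun _ _ _ _ _ hf => ⟨hf.continuous, fun c => (hf.bm_df c).1, bm_two hf.bm hf.bm_df⟩,
    fun _ hs => ⟨hs.bm.1, hs.cont_norm, fun c => (hs.bm_cv c).1, bm_two hs.bm hs.bm_cv⟩,
    fun _ => bm_Om, fun _ => bm_Sm1, fun _ _ hf hψ => ⟨hψ.inner hf, LBc.cv_inner hf hψ⟩,
    fun _ _ hh hf => ⟨hh.conj_smul hf, df_conj_smul hh hf⟩,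
    fun k j x => (Q.T x)⁻¹ k j, Q.sm_inv, Q.inv_T⟩

end Vale.Agent.P247E
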