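import Vale.Agent.P247E.Sta
import Vale.Agent.P247.H447.E5.GarA

/-!
# P247E: Gårding's inequality for symbols of Clifford type
-/

open scoped Topology ContDiff ENNReal NNReal
open Set Filter Metric MeasureTheory

noncomputable section

namespace Vale.Agent.P247E

open Vale.Agent.P204.T4
open Vale.Agent.P247.H74 (e)
open Vale.Agent.P247.H447.E5 (SC int_sq' eLpNorm_le_of_int)

namespace Clg

variable {V W : Type} [NormedAddCommGroup V] [InnerProductSpace ℝ V]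
  [NormedAddCommGroup W] [InnerProductSpace ℝ W]

theorem conf {T : V →L[ℝ] W} {c : ℝ} (h : ∀ v, ‖T v‖ = c * ‖v‖) (v w : V) :
    inner ℝ (T v) (T w) = c ^ 2 * inner ℝ v w := by
  have := norm_add_sq_real (T v) (T w)
  rw [← map_add, h, h, h, mul_pow, norm_add_sq_real] at this
  linarith

/-- the symbol as a linear map in the covector -/
def sy (A : Fin 4 → V →L[ℝ] W) : V4 →L[ℝ] V →L[ℝ] W :=
  ∑ i, (ContinuousLinearMap.proj i : V4 →L[ℝ] ℝ).smulRight (A i)

theorem sy_apply (A : Fin 4 → V →L[ℝ] W) (ξ : V4) : sy A ξ = ∑ i, ξ i • A i := by simp [sy]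

theorem coer [FiniteDimensional ℝ V] {A : Fin 4 → V →L[ℝ] W}
    (h : ∀ ξ : V4, ξ ≠ 0 → ∃ c : ℝ, 0 < c ∧ ∀ v, ‖sy A ξ v‖ = c * ‖v‖) :
    ∃ l : ℝ, 0 < l ∧ ∀ p : Fin 4 → V, l * ∑ i, ‖p i‖ ^ 2 ≤
      ∑ i, ∑ j, (inner ℝ (A i (p i)) (A j (p j)) + inner ℝ (A i (p j)) (A j (p i))) := by
  have h0 : ∀ ξ : V4, ∃ c : ℝ, ∀ v, ‖sy A ξ v‖ = c * ‖v‖ := fun ξ => by
    by_cases k : ξ = 0
    · exact ⟨0, by simp [k]⟩
    · exact (h ξ k).imp fun _ k => k.2
  have h1 : ∀ (ξ η : V4) (v w : V), inner ℝ v w = 0 →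
      inner ℝ (sy A ξ v) (sy A η w) + inner ℝ (sy A η v) (sy A ξ w) = 0 := fun ξ η v w o => by
    obtain ⟨c, k⟩ := h0 (ξ + η)
    obtain ⟨c1, k1⟩ := h0 ξ
    obtain ⟨c2, k2⟩ := h0 η
    have := conf k v w
    simp only [map_add, add_apply, inner_add_left, inner_add_right,
      conf k1, conf k2, o] at this
    linarith
  let b := stdOrthonormalBasis ℝ V
  have h2 : ∀ k, ∃ K : ℝ≥0, ∀ ξ : V4, ‖ξ‖ ≤ K * ‖sy A ξ (b k)‖ := fun k => by
    obtain ⟨K, -, hK⟩ := (((sy A).flip (b k) : V4 →L[ℝ] W) : V4 →ₗ[ℝ] W).exists_antilipschitzWith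
      (LinearMap.ker_eq_bot'.2 fun ξ o => by
        by_contra k0
        obtain ⟨c, c0, hc⟩ := h ξ k0
        have := hc (b k)
        rw [show sy A ξ (b k) = 0 from o, b.norm_eq_one, norm_zero] at this
        linarith)
    exact ⟨K, fun ξ => ZeroHomClass.bound_of_antilipschitz _ hK ξ⟩
  choose K hK using h2
  set L : ℝ := ∑ k, (K k : ℝ) + 1
  have L0 : 0 < L := by positivity
  refine ⟨1 / (2 * L ^ 2), by positivity, fun p => ?_⟩
  set ξ : _ → V4 := fun k i => b.repr (p i) k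
  have hp : ∀ i, p i = ∑ k, ξ k i • b k := fun i => (b.sum_repr (p i)).symm
  have e1 : ∑ i, ∑ j, (inner ℝ (A i (p i)) (A j (p j)) + inner ℝ (A i (p j)) (A j (p i))) =
      ∑ k, ∑ l, (inner ℝ (sy A (ξ k) (b k)) (sy A (ξ l) (b l)) +
        inner ℝ (sy A (ξ l) (b k)) (sy A (ξ k) (b l))) := by
    have s4 : ∀ f : Fin 4 → Fin 4 → _ → _ → ℝ, ∑ i, ∑ j, ∑ k : Fin (Module.finrank ℝ V),
        ∑ l : Fin (Module.finrank ℝ V), f i j k l = ∑ k, ∑ l, ∑ i, ∑ j, f i j k l := fun f => by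
      rw [← Fintype.sum_prod_type' fun i j => ∑ k, ∑ l, f i j k l,
        ← Fintype.sum_prod_type' fun k l => ∑ i, ∑ j, f i j k l]
      simp only [← Fintype.sum_prod_type' (f _ _), ← Fintype.sum_prod_type' fun i j => f i j _ _]
      exact Finset.sum_comm
    simp only [hp, sy_apply, sum_apply, smul_apply, map_sum, map_smul, sum_inner]
    simp only [inner_sum, real_inner_smul_left, real_inner_smul_right, ← Finset.sum_add_distrib]
    exact (s4 _).trans (by simp only [mul_left_comm])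
  have e2 : ∀ k, ∑ l, (inner ℝ (sy A (ξ k) (b k)) (sy A (ξ l) (b l)) +
      inner ℝ (sy A (ξ l) (b k)) (sy A (ξ k) (b l))) = 2 * ‖sy A (ξ k) (b k)‖ ^ 2 := fun k => by
    rw [Finset.sum_eq_single k (fun l _ o => h1 _ _ _ _ (b.orthonormal.2 o.symm)) (by simp),
      real_inner_self_eq_norm_sq]
    ring
  have e3 : ∑ i, ‖p i‖ ^ 2 = ∑ k, ∑ i, ξ k i ^ 2 := by
    rw [Finset.sum_comm]
    exact Finset.sum_congr rfl fun i _ => by
      rw [← b.repr.norm_map, EuclideanSpace.real_norm_sq_eq]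
  rw [e1, e3, Finset.mul_sum]
  refine Finset.sum_le_sum fun k _ => ?_
  have e4 : ‖ξ k‖ ≤ L * ‖sy A (ξ k) (b k)‖ := (hK k _).trans (mul_le_mul_of_nonneg_right
    ((Finset.single_le_sum (f := fun k => (K k : ℝ)) (fun _ _ => by positivity)
      (Finset.mem_univ k)).trans (by linarith)) (norm_nonneg _))
  have e5 : ∀ i, ξ k i ^ 2 ≤ (L * ‖sy A (ξ k) (b k)‖) ^ 2 := fun i =>
    sq_le_sq' (neg_le_of_abs_le ((norm_le_pi_norm (ξ k) i).trans e4))
      (le_of_abs_le ((norm_le_pi_norm (ξ k) i).trans e4))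
  rw [e2, one_div, inv_mul_le_iff₀ (by positivity), Fin.sum_univ_four]
  linarith [e5 0, e5 1, e5 2, e5 3]

theorem intb {φ ψ : V4 → V} (h : SC φ) (h' : SC ψ) (B : V →L[ℝ] V →L[ℝ] ℝ) :
    Integrable fun x => B (φ x) (ψ x) :=
  ((B.continuous.comp h.1.continuous).clm_apply h'.1.continuous).integrable_of_hasCompactSupport
    (HasCompactSupport.intro h.2 fun x hx => by simp [image_eq_zero_of_notMem_tsupport hx])

theorem swap {φ : V4 → V} (h : SC φ) (B : V →L[ℝ] V →L[ℝ] ℝ) (u v : V4) :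
    ∫ x, B (fderiv ℝ φ x u) (fderiv ℝ φ x v) = ∫ x, B (fderiv ℝ φ x v) (fderiv ℝ φ x u) := by
  have ibp : ∀ u v, ∫ x, B (fderiv ℝ φ x u) (fderiv ℝ φ x v) =
      -∫ x, B (fderiv ℝ (fderiv ℝ φ) x v u) (φ x) := fun u v => by
    rw [integral_bilinear_fderiv_right_eq_neg_left_of_integrable (intb ((h.pd u).pd v) h B)
      (intb (h.pd u) (h.pd v) B) (intb (h.pd u) h B)
      (fun x _ => (h.pd u).1.differentiable (by simp) x) fun x _ => h.1.differentiable (by simp) x]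
    congr 2
    funext x
    rw [fderiv_clm_apply ((h.1.fderiv_right (m := ∞) (by simp)).differentiable (by simp) x)
      (differentiableAt_const u)]
    simp
  rw [ibp, ibp]
  congr 2
  funext x
  rw [(h.1.contDiffAt.isSymmSndFDerivAt
    (by rw [minSmoothness_of_isRCLikeNormedField]; decide)).eq]

end Clg

open Clg in
theorem CLG : CLG_statement := by
  intro V W _ _ _ _ _ _ Mi hM h x₀
  obtain ⟨l, l0, hl⟩ := coer (A := fun i => Mi i x₀) fun ξ k => by
    simpa only [sy_apply] using h x₀ ξ k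
  obtain ⟨ε, ε0, hε⟩ : ∃ ε : ℝ, 0 < ε ∧ ε ^ 2 = l / 32 :=
    ⟨_, Real.sqrt_pos.2 (by positivity), Real.sq_sqrt (by positivity)⟩
  obtain ⟨r, r0, hr⟩ : ∃ r > 0, ∀ x ∈ ball x₀ r, ∀ i, ‖Mi i x₀ - Mi i x‖ ≤ ε :=
    Metric.eventually_nhds_iff_ball.1 (eventually_all.2 fun i =>
      ((hM i).continuous.continuousAt.eventually (closedBall_mem_nhds _ ε0)).mono fun x hx =>
        mem_closedBall_iff_norm'.1 hx)
  refine ⟨r, r0, (Real.sqrt (8 / l)).toNNReal, fun φ h1 h2 h3 i => ?_⟩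
  have hφ : SC φ := ⟨h1, h2⟩
  set p : Fin 4 → V4 → V := fun i x => fderiv ℝ φ x (e i)
  have hp : ∀ i, SC (p i) := fun i => hφ.pd _
  have p0 : ∀ x ∉ tsupport φ, ∀ i, p i x = 0 := fun x hx i => by
    simp [p, image_eq_zero_of_notMem_tsupport fun k => hx (tsupport_fderiv_subset ℝ k)]
  set q : V4 → W := fun x => ∑ j, Mi j x (p j x)
  have qc : Continuous q :=
    continuous_finsetSum _ fun j _ => (hM j).continuous.clm_apply (hp j).1.continuous
  have qs : HasCompactSupport q := HasCompactSupport.intro h2 fun x hx => by simp [q, p0 x hx]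
  let B : Fin 4 → Fin 4 → V →L[ℝ] V →L[ℝ] ℝ := fun i j =>
    (innerSL ℝ).bilinearComp (Mi i x₀) (Mi j x₀)
  have i1 : ∀ i, Integrable fun x => ‖p i x‖ ^ 2 := fun i => int_sq' (hp i).1.continuous (hp i).2
  have i2 := integrable_finsetSum Finset.univ fun i _ => i1 i
  have i3 : ∀ σ : Fin 4 → Fin 4 → Fin 4 × Fin 4, ∫ x, ∑ i, ∑ j, B i j (p (σ i j).1 x)
      (p (σ i j).2 x) = ∑ i, ∑ j, ∫ x, B i j (p (σ i j).1 x) (p (σ i j).2 x) := fun σ => by
    rw [integral_finsetSum _ fun i _ => integrable_finsetSum _ fun j _ => intb (hp _) (hp _) _]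
    exact Finset.sum_congr rfl fun i _ => integral_finsetSum _ fun j _ => intb (hp _) (hp _) _
  have i4 : ∀ σ : Fin 4 → Fin 4 → Fin 4 × Fin 4, Integrable fun x => ∑ i, ∑ j,
      B i j (p (σ i j).1 x) (p (σ i j).2 x) := fun σ =>
    integrable_finsetSum _ fun i _ => integrable_finsetSum _ fun j _ => intb (hp _) (hp _) _
  have i5 := i4 fun i j => (i, j)
  have i6 := i4 fun i j => (j, i)
  have e1 : ∫ x, ∑ i, ∑ j, B i j (p j x) (p i x) = ∫ x, ∑ i, ∑ j, B i j (p i x) (p j x) := by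
    rw [i3 fun i j => (i, j), i3 fun i j => (j, i)]
    exact Finset.sum_congr rfl fun i _ => Finset.sum_congr rfl fun j _ => swap hφ _ _ _
  have e2 : l * ∫ x, ∑ i, ‖p i x‖ ^ 2 ≤ 2 * ∫ x, ∑ i, ∑ j, B i j (p i x) (p j x) := by
    rw [two_mul, ← integral_const_mul]
    nth_rw 2 [← e1]
    rw [← integral_add i5 i6]
    refine integral_mono (i2.const_mul _) (i5.add i6) fun x => (hl fun i => p i x).trans_eq ?_
    simp only [Finset.sum_add_distrib]
    rfl
  have e3 : ∫ x, ∑ i, ∑ j, B i j (p i x) (p j x) ≤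
      2 * (∫ x, ‖q x‖ ^ 2) + l / 4 * ∫ x, ∑ i, ‖p i x‖ ^ 2 := by
    rw [← integral_const_mul, ← integral_const_mul,
      ← integral_add ((int_sq' qc qs).const_mul _) (i2.const_mul _)]
    refine integral_mono i5 (((int_sq' qc qs).const_mul _).add (i2.const_mul _)) fun x => ?_
    have a1 : ∑ i, ∑ j, B i j (p i x) (p j x) = ‖q x + ∑ i, (Mi i x₀ - Mi i x) (p i x)‖ ^ 2 := by
      simp only [q, ← Finset.sum_add_distrib, sub_apply, add_sub_cancel]
      rw [← real_inner_self_eq_norm_sq, sum_inner]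
      simp only [inner_sum]
      rfl
    have a2 : ‖∑ i, (Mi i x₀ - Mi i x) (p i x)‖ ≤ ∑ i, ε * ‖p i x‖ := by
      refine norm_sum_le_of_le _ fun i _ => ?_
      by_cases k : x ∈ tsupport φ
      · exact (Mi i x₀ - Mi i x).le_of_opNorm_le (hr x (h3 k) i) _
      · simp [p0 x k]
    have a3 := pow_le_pow_left₀ (norm_nonneg _) ((norm_add_le (q x) _).trans
      (add_le_add_right a2 _)) 2
    have a4 := sq_sum_le_card_mul_sum_sq (s := Finset.univ) (f := fun i => ε * ‖p i x‖)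
    simp only [mul_pow, hε, ← Finset.mul_sum, Finset.card_univ, Fintype.card_fin] at a3 a4
    change _ ≤ 2 * ‖q x‖ ^ 2 + l / 4 * ∑ i, ‖p i x‖ ^ 2
    rw [a1]
    push_cast at a4
    nlinarith [sq_nonneg (‖q x‖ - ε * ∑ i, ‖p i x‖)]
  have e4 : ∫ x, ‖p i x‖ ^ 2 ≤ ∫ x, ∑ i, ‖p i x‖ ^ 2 := integral_mono (i1 i) i2 fun x =>
    Finset.single_le_sum (f := fun i => ‖p i x‖ ^ 2) (fun _ _ => by positivity) (Finset.mem_univ i)
  refine (eLpNorm_le_of_int ((hp i).1.continuous.memLp_of_hasCompactSupport (hp i).2)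
    (qc.memLp_of_hasCompactSupport qs) (K := 8 / l) (by positivity) ?_).trans
    (by gcongr; exact le_self_add)
  rw [div_mul_eq_mul_div, le_div_iff₀ l0]
  nlinarith

end Vale.Agent.P247E
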