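import Vale.Agent.P247.SCY.MFD8
import Vale.Agent.P247X.Spec

/-!
# P247E, row `DICT`: atlases subordinate to a cover, one-forms in parametrisations
-/

set_option linter.all false

open scoped ContDiff Topology Manifold
open Set Filter

noncomputable section

namespace Vale.Agent.P247E

open Vale.Agent.P204.T4 Vale.Agent.P204.Mfd Vale.Agent.P247.SCY

section par
variable {X : Type} [TopologicalSpace X] [ChartedSpace E4 X]

theorem exists_par_in {x : X} {U : Set X} (hU : IsOpen U) (hx : x ∈ U) :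
    ∃ p : Par X, p.psi 0 = x ∧ ∀ y, p.psi y ∈ U := by
  have hs : IsOpen ((chartAt E4 x).target ∩ (chartAt E4 x).symm ⁻¹' U) :=
    (chartAt E4 x).isOpen_inter_preimage_symm hU
  have hc : chartAt E4 x x ∈ (chartAt E4 x).target ∩ (chartAt E4 x).symm ⁻¹' U :=
    ⟨mem_chart_target E4 x, by
      rw [mem_preimage, (chartAt E4 x).left_inv (mem_chart_source E4 x)]; exact hx⟩
  obtain ⟨g, gi, h1, h2, h3, h4, h5, h6⟩ := exists_embed hs hc (ContinuousLinearEquiv.refl ℝ V4)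
  refine ⟨⟨chartAt E4 x, chart_mem_atlas E4 x, g, gi, h1, h5, h2,
    h3.trans inter_subset_left, h6⟩, ?_, fun y => (h3 (mem_range_self y)).2⟩
  simp only [Par.psi, h4]
  exact (chartAt E4 x).left_inv (mem_chart_source E4 x)

variable [IsManifold (𝓡 4) ∞ X]

theorem exists_par_pos_in {J : EndField X} (hJ : AlmostComplex J) {x : X} {U : Set X}
    (hU : IsOpen U) (hx : x ∈ U) :
    ∃ p : Par X, p.psi 0 = x ∧ (∀ y, p.psi y ∈ U) ∧ ∀ y, Pos (matL (p.endo J y)) := by
  obtain ⟨p, hp, hpU⟩ := exists_par_in hU hx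
  have hc : ∀ q : Par X, Continuous fun y => matL (q.endo J y) := fun q =>
    matL.continuous.comp (q.endo_smooth hJ.smooth).continuous
  rcases lt_or_gt_of_ne (Q_Fm_ne (p.isCx_endo hJ.sq 0)) with h | h
  · refine ⟨p.precomp reflE, ?_, fun y => hpU _, ?_⟩
    · rw [Par.precomp_psi, map_zero, hp]
    · apply pos_of_connected (hc _) (fun y => (p.precomp reflE).isCx_endo hJ.sq y) (y0 := 0)
      have h1 : (p.precomp reflE).endo J 0 = refl0.comp ((p.endo J 0).comp refl0) := by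
        rw [Par.precomp_endo, map_zero]
        rfl
      unfold Pos
      rw [h1, Q_Fm_refl]
      linarith
  · exact ⟨p, hp, hpU, pos_of_connected (hc _) (fun y => p.isCx_endo hJ.sq y) h⟩

theorem exists_finAtlas_in [CompactSpace X] {J : EndField X} (hJ : AlmostComplex J) {ι : Type}
    (U : ι → Set X) (hU : ∀ i, IsOpen (U i)) (hcov : ∀ x, ∃ i, x ∈ U i) :
    ∃ (A : FinAtlas X J) (i : Fin A.n → ι), ∀ a y, (A.P a).psi y ∈ U (i a) := by
  choose k hk using hcov
  choose p hp hpU hpos using fun x : X => exists_par_pos_in hJ (hU (k x)) (hk x)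
  have hop : ∀ x, IsOpen ((p x).psi '' Metric.ball 0 1) := fun x =>
    (p x).isOpenEmbedding.isOpenMap _ Metric.isOpen_ball
  have hcov : (univ : Set X) ⊆ ⋃ x, (p x).psi '' Metric.ball 0 1 := by
    intro x _
    exact mem_iUnion.2 ⟨x, 0, by simp only [Metric.mem_ball, dist_self, zero_lt_one], hp x⟩
  obtain ⟨t, ht⟩ := isCompact_univ.elim_finite_subcover _ hop hcov
  refine ⟨⟨t.card, fun i => p (t.equivFin.symm i : X), ?_, fun a y => hpos _ y⟩,
    fun a => k (t.equivFin.symm a : X), fun a y => hpU _ y⟩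
  intro x
  obtain ⟨z, hz, y, hy, hyx⟩ := mem_iUnion₂.1 (ht (mem_univ x))
  refine ⟨t.equivFin ⟨z, hz⟩, y, by simpa only [Metric.mem_ball, dist_zero_right] using hy, ?_⟩
  simpa only [Equiv.symm_apply_apply] using hyx

/-! ### one-forms -/

/-- alternating maps of degree one as linear functionals -/
def un1 : (E4 [⋀^Fin 1]→L[ℝ] ℝ) →L[ℝ] (E4 →L[ℝ] ℝ) :=
  (ContinuousAlternatingMap.ofSubsingletonLIE (𝕜 := ℝ) (E := E4) (F := ℝ)
    (0 : Fin 1)).symm.toContinuousLinearEquiv.toContinuousLinearMap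

theorem un1_apply (A : E4 [⋀^Fin 1]→L[ℝ] ℝ) (v : E4) : un1 A v = A ![v] := by
  show A (fun _ => v) = A ![v]
  congr 1
  funext i; fin_cases i; rfl

theorem alt1_eq {E : Type} [NormedAddCommGroup E] [NormedSpace ℝ E] (v : Fin 1 → E) :
    v = ![v 0] := by
  funext i; fin_cases i; rfl

theorem dp_lin (T : V4 →L[ℝ] ℝ) (v : V4) : dp (fun i => T (eb i)) v = T v := by
  rw [dp_eq]
  conv_rhs => rw [vec_eq v]
  simp only [map_add, map_smul, smul_eq_mul]
  ring

/-- a one-form in a parametrisation -/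
def p1 (p : Par X) (θ : HS.Form X 1) (y : V4) : V4 :=
  fun i => un1 (ax1 θ (p.psi y)) (p.dpsi y (eb i))

theorem dp_p1 (p : Par X) (θ : HS.Form X 1) (y v : V4) :
    dp (p1 p θ y) v = un1 (ax1 θ (p.psi y)) (p.dpsi y v) :=
  dp_lin ((un1 (ax1 θ (p.psi y))).comp (p.dpsi y)) v

theorem un1_loc (e : OpenPartialHomeomorph X E4) (θ : HS.Form X 1) (z v : E4) :
    un1 (HS.loc e θ z) v = un1 (ax1 θ (e.symm z)) (dsym e z v) := by
  rw [un1_apply, un1_apply]
  show ax1 θ (e.symm z) (dsym e z ∘ ![v]) = _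
  congr 1
  funext i; fin_cases i; rfl

theorem dp_p1' (p : Par X) (θ : HS.Form X 1) (y v : V4) :
    dp (p1 p θ y) v = un1 (HS.loc p.e θ (p.g y)) (fderiv ℝ p.g y v) := by
  rw [dp_p1, un1_loc, Par.dpsi_eq]
  rfl

theorem one1_p1 (p : Par X) (θ : HS.Form X 1) (y : V4) :
    one1 (p1 p θ y) = (HS.loc p.e θ (p.g y)).compContinuousLinearMap (fderiv ℝ p.g y) := by
  ext v
  rw [one1_apply, dp_p1', un1_apply, ContinuousAlternatingMap.compContinuousLinearMap_apply]
  congr 1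
  funext i; fin_cases i; rfl

theorem p1_smoothAt (p : Par X) {θ : HS.Form X 1} {y : V4}
    (h : ContDiffAt ℝ ∞ (HS.loc p.e θ) (p.g y)) : ContDiffAt ℝ ∞ (p1 p θ) y := by
  rw [contDiffAt_pi]
  intro i
  have h1 : (fun y => p1 p θ y i) =
      fun y => un1 (HS.loc p.e θ (p.g y)) (fderiv ℝ p.g y (eb i)) := by
    funext y
    rw [← dp_p1', dp_p1]; rfl
  rw [h1]
  have hD : ContDiffAt ℝ ∞ (fderiv ℝ p.g) y := p.g_smooth.contDiffAt.fderiv_right (m := ∞) (by simp)
  exact (un1.contDiff.contDiffAt.comp y (h.comp y p.g_smooth.contDiffAt)).clm_apply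
    (hD.clm_apply contDiffAt_const)

theorem d1_p1 (p : Par X) {θ : HS.Form X 1} {α : HS.Form X 2} {y : V4}
    (h : ContDiffAt ℝ ∞ (HS.loc p.e θ) (p.g y))
    (hd : extDeriv (HS.loc p.e θ) (p.g y) = HS.loc p.e α (p.g y)) :
    d1 (p1 p θ) y = compL (p.form α y) := by
  have h1 := extDeriv_one1 ((p1_smoothAt p h).differentiableAt (by simp))
  simp only [one1_p1] at h1
  rw [extDeriv_pullback (r := ∞) (h.differentiableAt (by simp)) p.g_smooth.contDiffAt minS,
    hd] at h1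
  rw [p.form_eq, ← compL_toAlt (d1 (p1 p θ) y), ← h1]
  rfl

theorem loc_p1 (p : Par X) (θ : HS.Form X 1) {e : OpenPartialHomeomorph X E4}
    (he : e ∈ atlas E4 X) {z : E4} (hz : z ∈ p.cdom e) :
    HS.loc e θ z = (one1 (p1 p θ (p.cc e z))).compContinuousLinearMap (fderiv ℝ (p.cc e) z) := by
  ext v
  rw [ContinuousAlternatingMap.compContinuousLinearMap_apply, one1_apply, dp_p1,
    p.psi_cc e hz, alt1_eq v, ← un1_apply, un1_loc, Par.dsym_eq p he hz]
  rfl

theorem smooth_of_p1 {ι : Type} (P : ι → Par X) (hcov : ∀ x, ∃ i, x ∈ range (P i).psi)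
    {θ : HS.Form X 1} (h : ∀ i, ContDiff ℝ ∞ (p1 (P i) θ)) : HS.Smooth θ := by
  intro e he z hz
  obtain ⟨i, hi⟩ := hcov (e.symm z)
  have hz' : z ∈ (P i).cdom e := ⟨hz, hi⟩
  have h1 : HS.loc e θ =ᶠ[𝓝 z] fun z =>
      (one1 (p1 (P i) θ ((P i).cc e z))).compContinuousLinearMap (fderiv ℝ ((P i).cc e) z) := by
    filter_upwards [((P i).isOpen_cdom e).mem_nhds hz'] with w hw
    exact loc_p1 (P i) θ he hw
  refine (ContDiffAt.congr_of_eventuallyEq ?_ h1).contDiffWithinAt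
  have hcc := (P i).cc_smoothAt he hz'
  have hD : ContDiffAt ℝ ∞ (fderiv ℝ ((P i).cc e)) z := hcc.fderiv_right (m := ∞) (by simp)
  simp only [one1_comp]
  exact oneE.contDiff.contDiffAt.comp z
    ((dpL.contDiff.contDiffAt.comp z ((h i).contDiffAt.comp z hcc)).clm_comp hD)

theorem closed_of_p1 {ι : Type} (P : ι → Par X) (hcov : ∀ x, ∃ i, x ∈ range (P i).psi)
    {θ : HS.Form X 1} (h : ∀ i, ContDiff ℝ ∞ (p1 (P i) θ)) (h0 : ∀ i y, d1 (p1 (P i) θ) y = 0) :
    HS.Closed θ := by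
  intro e he z hz
  obtain ⟨i, hi⟩ := hcov (e.symm z)
  have hz' : z ∈ (P i).cdom e := ⟨hz, hi⟩
  have h1 : HS.loc e θ =ᶠ[𝓝 z] fun z =>
      (one1 (p1 (P i) θ ((P i).cc e z))).compContinuousLinearMap (fderiv ℝ ((P i).cc e) z) := by
    filter_upwards [((P i).isOpen_cdom e).mem_nhds hz'] with w hw
    exact loc_p1 (P i) θ he hw
  have hη : Differentiable ℝ (p1 (P i) θ) := (h i).differentiable (by simp)
  have hd : DifferentiableAt ℝ (fun y => one1 (p1 (P i) θ y)) ((P i).cc e z) :=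
    one1.differentiableAt.comp _ (hη _)
  rw [h1.extDeriv_eq, extDeriv_pullback (r := ∞) hd ((P i).cc_smoothAt he hz') minS,
    extDeriv_one1 (hη _), h0, ← toAltL_apply, map_zero]
  ext v; rfl

/-- the chain rule for a parametrisation -/
theorem fderiv_psi {E : Type} [NormedAddCommGroup E] [NormedSpace ℝ E] (p : Par X) {f : X → E}
    {y : V4} (hf : ContMDiffAt (𝓡 4) 𝓘(ℝ, E) ∞ f (p.psi y)) (v : V4) :
    fderiv ℝ (fun y => f (p.psi y)) y v = mfderiv (𝓡 4) 𝓘(ℝ, E) f (p.psi y) (p.dpsi y v) := by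
  have h1 := mfderiv_comp (I := 𝓘(ℝ, V4)) (I' := 𝓡 4) (I'' := 𝓘(ℝ, E)) y
    (hf.mdifferentiableAt (by simp)) (p.mdiff_psi y)
  rw [mfderiv_eq_fderiv] at h1
  exact congrArg (fun T : V4 →L[ℝ] E => T v) h1

theorem contDiffAt_psi {E : Type} [NormedAddCommGroup E] [NormedSpace ℝ E] (p : Par X)
    {f : X → E} {y : V4} (hf : ContMDiffAt (𝓡 4) 𝓘(ℝ, E) ∞ f (p.psi y)) :
    ContDiffAt ℝ ∞ (fun y => f (p.psi y)) y :=
  contMDiffAt_iff_contDiffAt.1 (hf.comp y (p.contMDiff_psi y))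

end par

end Vale.Agent.P247E
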