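import Vale.Agent.P247E.Defs
import Vale.Agent.P247.H647.Alg
import Vale.Agent.P247.H647.Arr
import Vale.Agent.P247.H558.Cov
import Vale.Agent.P204.Bdl.B3

/-!
# P247E: the quaternionic layer, definitions

`QM X` is a closed manifold with a hypersymplectic triple, read in a measurable orthonormal frame
in which the triple is a combination of the standard self-dual forms.  `LBc M` is a line bundle
with a unitary connection.  The positive spinor bundle is trivial, the negative one is the
cotangent bundle (`spn`, `vec`).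
-/

set_option linter.all false

open scoped ContDiff Topology ENNReal ComplexConjugate
open Set MeasureTheory Filter

noncomputable section

namespace Vale.Agent.P247E

open Vale.Agent.P204.GX Vale.Agent.P204.T4
open Vale.Agent.P247.H74 (e)
open Vale.Agent.P247.H647 (Sp En sig pau omM hat len jz symb cov)

/-! ## Constant algebra -/

/-- the standard self-dual forms -/
def eS (k : Fin 3) : L2 := ofEnt fun i j => omM k i j

/-- multiplication by the quaternion `p` -/
def Rq (p : V4) : M4 :=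
  ![![p 0, -p 1, -p 2, -p 3], ![p 1, p 0, p 3, -p 2], ![p 2, -p 3, p 0, p 1],
    ![p 3, p 2, -p 1, p 0]]

/-- the conjugate quaternion -/
def cq (p : V4) : V4 := ![p 0, -p 1, -p 2, -p 3]

/-- Clifford multiplication by a real covector -/
def sgm (t : V4) : En := symb fun c => (t c : ℂ)

/-- the base spinor -/
def s0 : Sp := EuclideanSpace.single 0 1

/-- the spinor of a real vector -/
def spn (t : V4) : Sp := sgm t s0

/-- the real vector of a spinor, inverse of `spn` -/
def vec (φ : Sp) : V4 := fun c => (inner ℂ (sig c s0) φ).re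

/-- an endomorphism of the spinor space, as a real linear map -/
def reL : En →L[ℝ] (Sp →L[ℝ] Sp) :=
  LinearMap.toContinuousLinearMap
    { toFun := fun A => LinearMap.toContinuousLinearMap
        { toFun := fun v => A v
          map_add' := fun v w => map_add A v w
          map_smul' := fun c v => by
            have h : ∀ u : Sp, c • u = (c : ℂ) • u := fun u => by
              ext i; simp
            simp only [RingHom.id_apply, h, map_smul] }
      map_add' := fun A B => by ext1 v; rfl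
      map_smul' := fun c A => by ext1 v; rfl }

@[simp] theorem reL_apply (A : En) (v : Sp) : reL A v = A v := rfl

theorem sgm_apply (t : V4) (f : Sp) : sgm t f = ∑ c, (t c : ℂ) • sig c f :=
  Vale.Agent.P247.H647.symb_apply _ f

theorem sgm_fin (t : V4) (f : Sp) (i : Fin 2) : sgm t f i =
    ![(t 0 : ℂ) * f 0 + Complex.I * t 1 * f 1 + t 2 * f 1 + Complex.I * t 3 * f 0,
      (t 0 : ℂ) * f 1 + Complex.I * t 1 * f 0 - t 2 * f 0 - Complex.I * t 3 * f 1] i :=
  Vale.Agent.P247.H647.symb_fin _ f i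

theorem sgm_sgm (p t : V4) (f : Sp) : sgm p (sgm t f) = sgm (app (Rq p) t) f := by
  ext i
  have hI : Complex.I * Complex.I = -1 := Complex.I_mul_I
  fin_cases i <;>
    simp only [sgm_fin, app_eq, Rq, Fin.zero_eta, Fin.mk_one, Fin.isValue, Matrix.cons_val_zero,
      Matrix.cons_val_one, Matrix.cons_val, Matrix.cons_val', Matrix.cons_val_fin_one] <;>
    push_cast
  · linear_combination ((p 1 : ℂ) * t 1 * f 0 - p 1 * t 3 * f 1 + p 3 * t 1 * f 1 + p 3 * t 3 * f 0) * hI
  · linear_combination ((p 1 : ℂ) * t 1 * f 1 + p 1 * t 3 * f 0 - p 3 * t 1 * f 0 + p 3 * t 3 * f 1) * hI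

theorem sgm_cq (p : V4) (f : Sp) : sgm (cq p) (sgm p f) = ((∑ c, p c ^ 2 : ℝ) : ℂ) • f := by
  ext i
  have hI : Complex.I * Complex.I = -1 := Complex.I_mul_I
  fin_cases i <;>
    simp only [sgm_fin, cq, Fin.sum_univ_four, Fin.zero_eta, Fin.mk_one, Fin.isValue,
      Matrix.cons_val_zero, Matrix.cons_val_one, Matrix.cons_val, PiLp.smul_apply,
      smul_eq_mul] <;> push_cast
  · linear_combination (-(p 1 : ℂ) ^ 2 * f 0 - p 3 ^ 2 * f 0) * hI
  · linear_combination (-(p 1 : ℂ) ^ 2 * f 1 - p 3 ^ 2 * f 1) * hI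

theorem sgm_cq' (p : V4) (f : Sp) : sgm p (sgm (cq p) f) = ((∑ c, p c ^ 2 : ℝ) : ℂ) • f := by
  ext i
  have hI : Complex.I * Complex.I = -1 := Complex.I_mul_I
  fin_cases i <;>
    simp only [sgm_fin, cq, Fin.sum_univ_four, Fin.zero_eta, Fin.mk_one, Fin.isValue,
      Matrix.cons_val_zero, Matrix.cons_val_one, Matrix.cons_val, PiLp.smul_apply,
      smul_eq_mul] <;> push_cast
  · linear_combination (-(p 1 : ℂ) ^ 2 * f 0 - p 3 ^ 2 * f 0) * hI
  · linear_combination (-(p 1 : ℂ) ^ 2 * f 1 - p 3 ^ 2 * f 1) * hI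

theorem norm_sgm_sq (p : V4) (f : Sp) : ‖sgm p f‖ ^ 2 = (∑ c, p c ^ 2) * ‖f‖ ^ 2 := by
  rw [Vale.Agent.P247.H647.norm_sq_sp, Vale.Agent.P247.H647.norm_sq_sp, sgm_fin, sgm_fin]
  simp only [Complex.sq_norm, Complex.normSq_apply, Fin.sum_univ_four, Fin.isValue,
    Matrix.cons_val_zero, Matrix.cons_val_one, Complex.add_re, Complex.add_im, Complex.sub_re,
    Complex.sub_im, Complex.mul_re, Complex.mul_im, Complex.I_re, Complex.I_im,
    Complex.ofReal_re, Complex.ofReal_im]
  ring

/-! ## Manifolds with a triple -/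

/-- A closed four-manifold with a hypersymplectic triple. -/
structure QM (X : Type) [MetricSpace X] extends CM X where
  /-- smooth coframes in the charts; the columns of `n'` are the frame vectors -/
  n : A → V4 → M4
  n' : A → V4 → M4
  n_smooth : ∀ a, ContDiff ℝ ∞ (n a)
  n'_smooth : ∀ a, ContDiff ℝ ∞ (n' a)
  n_n' : ∀ a y v, app (n a y) (app (n' a y) v) = v
  n'_n : ∀ a y v, app (n' a y) (app (n a y) v) = v
  /-- the unit quaternion from the smooth frame to the measurable frame -/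
  p : A → V4 → V4
  p_meas : ∀ a, Measurable (p a)
  p_unit : ∀ a y, ∑ c, p a y c ^ 2 = 1
  m_eq : ∀ a y, m a y = mm (Rq (p a y)) (n a y)
  w : Fin 3 → X → L2
  T : X → Matrix (Fin 3) (Fin 3) ℝ
  T_smooth : ∀ j k, toCM.Sm0 fun x => T x j k
  w_eq : ∀ j x, w j x = ∑ k, T x j k • eS k
  w_closed : ∀ j a, Closed (toCM.cf a (w j))
  /-- no real eigenvalue `≤ 0` -/
  T_pos : ∀ x (u : Fin 3 → ℝ) (l : ℝ), 0 ≤ l → Matrix.vecMul u (T x) = -(l • u) → u = 0

variable {X : Type} [MetricSpace X]

/-- smooth functions with values in a normed space -/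
def SmF (M : CM X) {E : Type} [NormedAddCommGroup E] [NormedSpace ℝ E] (f : X → E) : Prop :=
  ∀ a, ContDiff ℝ ∞ fun y => f (M.ψ a y)

/-- the measurable frame vector `b_c` in the chart `a` -/
def fv (M : CM X) (a : M.A) (y : V4) (c : Fin 4) : V4 := app (M.m' a y) (e c)

/-- the derivative along the frame vector `b_c` -/
def df (M : CM X) {E : Type} [NormedAddCommGroup E] [NormedSpace ℝ E] (f : X → E) (x : X)
    (c : Fin 4) : E :=
  fderiv ℝ (fun y => f (M.ψ (M.ch x) y)) (M.cy x) (fv M (M.ch x) (M.cy x) c)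

/-- `b₁ = 0` -/
def B1 (M : CM X) : Prop := ∀ η : X → V4, M.Sm1 η → M.dX η = 0 →
  ∃ f : X → ℝ, M.Sm0 f ∧ ∀ x c, η x c = df M f x c

/-- `b⁺ ≤ 3` -/
def BP3 [MeasurableSpace X] (M : CM X) : Prop := ¬ ∃ c : Fin 4 → X → L2,
  (∀ i, c i ∈ M.Om ∧ ∀ a, Closed (M.cf a (c i))) ∧ (Matrix.of fun i j => M.pr (c i) (c j)).PosDef

/-! ## Line bundles -/

/-- A hermitian line bundle with a unitary connection `d - i A`; `γ a y` maps the components in
the smooth gauge of the chart `a` to the components in the global measurable gauge. -/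
structure LBc (M : CM X) where
  γ : M.A → V4 → ℂ
  γ_meas : ∀ a, Measurable (γ a)
  γ_norm : ∀ a y, ‖γ a y‖ = 1
  A : M.A → V4 → V4 →L[ℝ] ℝ
  A_smooth : ∀ a, ContDiff ℝ ∞ (A a)
  G_smooth : ∀ a b, ContDiffOn ℝ ∞ (fun y => conj (γ b (M.τ a b y)) * γ a y) (M.O a b)
  G_der : ∀ a b, ∀ y ∈ M.O a b, ∀ v, fderiv ℝ (fun y => conj (γ b (M.τ a b y)) * γ a y) y v =
    Complex.I * ((A b (M.τ a b y) (fderiv ℝ (M.τ a b) y v) - A a y v : ℝ) : ℂ) *
      (conj (γ b (M.τ a b y)) * γ a y)

variable {M : CM X}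

/-- the trivial line bundle with the trivial connection -/
def LBc.triv (M : CM X) : LBc M where
  γ _ _ := 1
  γ_meas _ := measurable_const
  γ_norm _ _ := norm_one
  A _ _ := 0
  A_smooth _ := contDiff_const
  G_smooth _ _ := contDiffOn_const
  G_der _ _ _ _ _ := by simp

/-- the curvature (`2 π` times the Chern form) -/
def LBc.F (L : LBc M) : X → L2 := M.glue fun a => d1 fun y i => L.A a y (e i)

section sections
variable {E : Type} [NormedAddCommGroup E] [NormedSpace ℂ E]

/-- the components of a section of `L ⊗ E` in the chart `a` -/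
def LBc.lo (L : LBc M) (a : M.A) (s : X → E) (y : V4) : E := conj (L.γ a y) • s (M.ψ a y)

/-- smooth sections of `L ⊗ E` -/
def LBc.Sm (L : LBc M) (s : X → E) : Prop := ∀ a, ContDiff ℝ ∞ (L.lo a s)

/-- the covariant derivative along the frame vector `b_c` -/
def LBc.cv (L : LBc M) (s : X → E) (x : X) (c : Fin 4) : E :=
  L.γ (M.ch x) (M.cy x) •
    cov (L.A (M.ch x)) (L.lo (M.ch x) s) (M.cy x) (fv M (M.ch x) (M.cy x) c)

end sections

theorem LBc.conj_mul (L : LBc M) (a : M.A) (y : V4) : conj (L.γ a y) * L.γ a y = 1 := by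
  rw [Complex.conj_mul', L.γ_norm]; simp

theorem LBc.mul_conj (L : LBc M) (a : M.A) (y : V4) : L.γ a y * conj (L.γ a y) = 1 := by
  rw [mul_comm, L.conj_mul]

theorem continuous_scal : Continuous fun z : ℂ => reL (z • (1 : En)) :=
  reL.continuous.comp (continuous_id.smul continuous_const)

theorem contDiff_scal : ContDiff ℝ ∞ fun z : ℂ => reL (z • (1 : En)) :=
  reL.contDiff.comp (contDiff_id.smul contDiff_const)

/-- the bundle `S⁺ ⊗ L` -/
def LBc.bp (L : LBc M) : Bun M Sp where
  u a y := reL (L.γ a y • (1 : En))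
  u' a y := reL (conj (L.γ a y) • (1 : En))
  u_meas a := continuous_scal.comp_stronglyMeasurable (L.γ_meas a).stronglyMeasurable
  u'_meas a := continuous_scal.comp_stronglyMeasurable
    (Complex.continuous_conj.measurable.comp (L.γ_meas a)).stronglyMeasurable
  u_u' a y v := by
    show L.γ a y • (conj (L.γ a y) • v) = v
    rw [smul_smul, L.mul_conj, one_smul]
  u'_u a y v := by
    show conj (L.γ a y) • (L.γ a y • v) = v
    rw [smul_smul, L.conj_mul, one_smul]
  u_norm a y v := by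
    show ‖L.γ a y • v‖ = ‖v‖
    rw [norm_smul, L.γ_norm, one_mul]
  trans a b := by
    refine (contDiff_scal.comp_contDiffOn (L.G_smooth a b)).congr fun y _ => ?_
    ext1 v
    show conj (L.γ b (M.τ a b y)) • (L.γ a y • v) = (conj (L.γ b (M.τ a b y)) * L.γ a y) • v
    rw [smul_smul]

theorem LBc.bp_lo (L : LBc M) (a : M.A) (s : X → Sp) : L.bp.lo a s = L.lo a s := rfl

/-- the covariant derivative along `b_c` as a field of linear maps on jets -/
def LBc.cvJ (L : LBc M) (c : Fin 4) (x : X) : Jt M Sp →L[ℝ] Sp :=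
  ∑ a, ((∑ i, (M.ext0 a theta x * fv M a (M.inv a x) c i) • jproj M Sp (some (a, i))) -
    (M.zeta a x * L.A a (M.inv a x) (fv M a (M.inv a x) c)) •
      (reL (Complex.I • (1 : En))).comp (jproj M Sp none))

/-- the covariant derivative `H¹ → L²` along `b_c` -/
def LBc.nabH [MeasurableSpace X] [BorelSpace X] (L : LBc M) (c : Fin 4) :
    L.bp.H1 →L[ℝ] LL2 M Sp := (mulOp M (L.cvJ c)).comp L.bp.H1.subtypeL

/-! ## Chart independence of the covariant derivative -/

theorem fv_tau (M : CM X) {a b : M.A} {y : V4} (h : y ∈ M.O a b) (v : V4) :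
    fderiv ℝ (M.τ a b) y (app (M.m' a y) v) = app (M.m' b (M.τ a b y)) v := by
  rw [← app_Dm (M.differentiableAt_τ h)]
  change app (M.Dt a b y) _ = _
  rw [M.Dt_eq h, app_mm, M.m_m']

theorem LBc.cov_tau {E : Type} [NormedAddCommGroup E] [NormedSpace ℂ E] (L : LBc M) {s : X → E}
    (hs : L.Sm s) {a b : M.A} {y : V4} (h : y ∈ M.O a b) (u : V4) :
    L.γ a y • cov (L.A a) (L.lo a s) y u =
      L.γ b (M.τ a b y) • cov (L.A b) (L.lo b s) (M.τ a b y) (fderiv ℝ (M.τ a b) y u) := by
  have hO := (M.isOpen_O a b).mem_nhds h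
  have hG : DifferentiableAt ℝ (fun y => conj (L.γ b (M.τ a b y)) * L.γ a y) y :=
    ((L.G_smooth a b).contDiffAt hO).differentiableAt (by simp)
  have ha : DifferentiableAt ℝ (L.lo a s) y := (hs a).differentiable (by simp) y
  have hb : DifferentiableAt ℝ (L.lo b s) (M.τ a b y) := (hs b).differentiable (by simp) _
  have key : ∀ z ∈ M.O a b, L.lo b s (M.τ a b z) =
      (conj (L.γ b (M.τ a b z)) * L.γ a z) • L.lo a s z := by
    intro z hz
    unfold LBc.lo
    rw [M.ψ_τ hz, smul_smul, mul_assoc, L.mul_conj, mul_one]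
  have h1 : (fun z => L.lo b s (M.τ a b z)) =ᶠ[𝓝 y]
      fun z => (conj (L.γ b (M.τ a b z)) * L.γ a z) • L.lo a s z := by
    filter_upwards [hO] with z hz using key z hz
  have h2 : fderiv ℝ (L.lo b s) (M.τ a b y) (fderiv ℝ (M.τ a b) y u) =
      (conj (L.γ b (M.τ a b y)) * L.γ a y) • fderiv ℝ (L.lo a s) y u +
      (fderiv ℝ (fun y => conj (L.γ b (M.τ a b y)) * L.γ a y) y u) • L.lo a s y := by
    have h3 := (hb.hasFDerivAt.comp y (M.differentiableAt_τ h).hasFDerivAt).fderiv
    have h4 := (hG.hasFDerivAt.smul ha.hasFDerivAt).fderiv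
    have h5 := h1.fderiv_eq (𝕜 := ℝ)
    have h6 : fderiv ℝ (fun z => L.lo b s (M.τ a b z)) y = _ := h3
    have h7 : fderiv ℝ (fun z => (conj (L.γ b (M.τ a b z)) * L.γ a z) • L.lo a s z) y = _ := h4
    have h8 := congrArg (fun T : V4 →L[ℝ] E => T u) (h6.symm.trans (h5.trans h7))
    simpa using h8
  unfold cov
  rw [h2, L.G_der a b y h, key y h]
  have h9 := L.mul_conj b (M.τ a b y)
  simp only [smul_sub, smul_add, smul_smul]
  have e1 : L.γ b (M.τ a b y) * (conj (L.γ b (M.τ a b y)) * L.γ a y) = L.γ a y := by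
    rw [← mul_assoc, h9, one_mul]
  rw [e1, add_sub_assoc, ← sub_smul, sub_eq_add_neg, ← neg_smul]
  congr 2
  push_cast
  linear_combination (Complex.I * (L.A a y u) * L.γ a y) * h9

/-- the covariant derivative in any chart -/
theorem LBc.cv_psi {E : Type} [NormedAddCommGroup E] [NormedSpace ℂ E] (L : LBc M) {s : X → E}
    (hs : L.Sm s) (a : M.A) (y : V4) (c : Fin 4) :
    L.cv s (M.ψ a y) c = L.γ a y • cov (L.A a) (L.lo a s) y (fv M a y c) := by
  have h := M.mem_O_ch a y
  rw [L.cov_tau hs h, fv, fv_tau M h, M.τ_ch]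
  rfl

/-- the derivative of a function in any chart -/
theorem df_psi {E : Type} [NormedAddCommGroup E] [NormedSpace ℝ E] {f : X → E} (hf : SmF M f)
    (a : M.A) (y : V4) (c : Fin 4) :
    df M f (M.ψ a y) c = fderiv ℝ (fun z => f (M.ψ a z)) y (fv M a y c) := by
  have h := M.mem_O_ch a y
  set b := M.ch (M.ψ a y) with hb
  have h1 : (fun z => f (M.ψ a z)) =ᶠ[𝓝 y] fun z => f (M.ψ b (M.τ a b z)) := by
    filter_upwards [(M.isOpen_O a b).mem_nhds h] with z hz
    rw [M.ψ_τ hz]
  have h3 : fderiv ℝ (fun z => f (M.ψ b (M.τ a b z))) y = _ :=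
    ((((hf b).differentiable (by simp) _).hasFDerivAt).comp y
      (M.differentiableAt_τ h).hasFDerivAt).fderiv
  rw [h1.fderiv_eq, h3, ContinuousLinearMap.comp_apply, fv, fv_tau M h, hb, M.τ_ch]
  rfl

end Vale.Agent.P247E
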