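import Vale.Agent.P247E.DB1
import Vale.Agent.P247E.QDefs

/-!
# P247E, row `DICT`: one-forms and line bundles in the unitary frame
-/

set_option linter.all false

open scoped ContDiff Topology Manifold ComplexConjugate
open Set Filter

noncomputable section

namespace Vale.Agent.P247E

open Vale.Agent.P204.T4 Vale.Agent.P204.Mfd Vale.Agent.P247.SCY Vale.Agent.P204.GX
open Vale.Agent.P247X (LB B1Zero dfc)

theorem glue_cf {X : Type} [MetricSpace X] (M : CM X) (u : X → L2) :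
    M.glue (fun a => M.cf a u) = u := by
  funext x
  have h := M.eq_pull_m' u (M.ch x) (M.cy x)
  rw [M.ψ_cy] at h
  exact h.symm

theorem fderiv_unit {g : V4 → ℂ} {y : V4} (hg : DifferentiableAt ℝ g y)
    (h1 : ∀ᶠ z in 𝓝 y, ‖g z‖ = 1) (v : V4) :
    fderiv ℝ g y v = Complex.I * (((conj (g y) * fderiv ℝ g y v).im : ℝ) : ℂ) * g y := by
  have h2 : (fun z => conj (g z) * g z) =ᶠ[𝓝 y] fun _ => (1 : ℂ) := by
    filter_upwards [h1] with z hz
    rw [Complex.conj_mul', hz]; simp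
  have h3 : HasFDerivAt (fun z => conj (g z))
      ((Complex.conjCLE : ℂ →L[ℝ] ℂ).comp (fderiv ℝ g y)) y :=
    Complex.conjCLE.hasFDerivAt.comp y hg.hasFDerivAt
  have h4 := (h3.mul hg.hasFDerivAt).fderiv
  have h5 : fderiv ℝ (fun z => conj (g z) * g z) y = 0 := by
    rw [h2.fderiv_eq]; simp
  have h6 := congrArg (fun T : V4 →L[ℝ] ℂ => T v) (h5.symm.trans h4)
  have h7 : conj (g y) * fderiv ℝ g y v + conj (conj (g y) * fderiv ℝ g y v) = 0 := by
    simp at h6
    rw [map_mul, Complex.conj_conj]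
    linear_combination -h6
  have h8 : conj (g y) * g y = 1 := h2.self_of_nhds
  set q := conj (g y) * fderiv ℝ g y v with hq
  have h9 : q.re = 0 := by
    have := congrArg Complex.re h7
    simp only [Complex.add_re, Complex.conj_re, Complex.zero_re] at this
    linarith
  have h10 : q = Complex.I * (q.im : ℂ) := by
    apply Complex.ext <;> simp [h9]
  rw [← h10, hq]
  linear_combination (-fderiv ℝ g y v) * h8

variable {X : Type} [TopologicalSpace X] [ChartedSpace E4 X] [IsManifold (𝓡 4) ∞ X]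
  {J : EndField X} [CompactSpace X] [T2Space X]

section forms
variable (A : FinAtlas X J) (om : TwoForm X)

theorem atlas_cov (x : X) : ∃ a, x ∈ range (A.P a).psi := by
  obtain ⟨a, y, _, h⟩ := A.cov x
  exact ⟨a, y, h⟩

/-- a one-form in the unitary frame -/
def f1 (θ : HS.Form X 1) (x : X) : V4 := fun c => un1 (ax1 θ x) (A.FrI om x (eb c))

/-- the one-form with given components in the unitary frame -/
def back1 (η : X → V4) : HS.Form X 1 := fun x =>
  (oneE ((dpL (η x)).comp (A.Fr om x)) : E4 [⋀^Fin 1]→L[ℝ] ℝ)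

theorem dp_f1 (θ : HS.Form X 1) (x : X) (v : V4) :
    dp (f1 A om θ x) v = un1 (ax1 θ x) (A.FrI om x v) :=
  dp_lin ((un1 (ax1 θ x)).comp (A.FrI om x)) v

theorem un1_back1 (η : X → V4) (x : X) (v : E4) :
    un1 (ax1 (back1 A om η) x) v = dp (η x) (A.Fr om x v) := by
  rw [un1_apply]
  show oneE ((dpL (η x)).comp (A.Fr om x)) ![v] = _
  rw [oneE_apply, ContinuousLinearMap.comp_apply, dpL_apply]
  rfl

theorem p1_back1 (η : X → V4) (a : Fin A.n) (y : V4) :
    p1 (A.P a) (back1 A om η) y = copp (η ((A.P a).psi y)) (A.mc om a y) := by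
  apply ext_dp; intro v
  rw [dp_p1, un1_back1, dp_copp, A.app_mc]

variable {om} (hJ : AlmostComplex J) (hS : SmoothForm om) (hC : ClosedForm om) (hT : Tames om J)

include hJ hT in
theorem copp_f1 (θ : HS.Form X 1) (a : Fin A.n) (y : V4) :
    copp (f1 A om θ ((A.P a).psi y)) (A.mc om a y) = p1 (A.P a) θ y := by
  apply ext_dp; intro v
  rw [dp_p1, dp_copp, dp_f1, A.app_mc, A.FrI_Fr om hJ hT]

theorem cf_fx (α : TwoForm X) (a : Fin A.n) :
    letI := A.metric
    (CMA A hJ hS hC hT).cf a (fx A om α) = A.omc α a := by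
  letI := A.metric
  funext y
  exact pull_mc_fx A hJ hT α a y

theorem b1_of (h : B1Zero X) : letI := A.metric; B1 (CMA A hJ hS hC hT) := by
  letI := A.metric
  intro η hη h0
  have e1 : ∀ a, p1 (A.P a) (back1 A om η) = (CMA A hJ hS hC hT).cf1 a η := fun a =>
    funext fun y => p1_back1 A om η a y
  have hs : ∀ a, ContDiff ℝ ∞ (p1 (A.P a) (back1 A om η)) := fun a => by
    rw [e1]; exact hη a
  have hd : ∀ a y, d1 (p1 (A.P a) (back1 A om η)) y = 0 := fun a y => by
    rw [e1, ← (CMA A hJ hS hC hT).cf_dX hη a, h0]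
    exact congrFun ((CMA A hJ hS hC hT).cf_zero a) y
  obtain ⟨f, hf, hdf⟩ := h (back1 A om η)
    ⟨smooth_of_p1 A.P (atlas_cov A) hs, closed_of_p1 A.P (atlas_cov A) hs hd⟩
  have hf0 : ∀ a, ContDiff ℝ ∞ fun y => f ((A.P a).psi y) := fun a =>
    contDiff_iff_contDiffAt.2 fun y => contDiffAt_psi (A.P a) (hf _)
  refine ⟨f, hf0, fun x c => ?_⟩
  obtain ⟨a, y, rfl⟩ := atlas_cov A x
  have h1 := df_psi (M := CMA A hJ hS hC hT) (f := f) hf0 a y c
  refine Eq.trans ?_ h1.symm
  show _ = fderiv ℝ (fun y => f ((A.P a).psi y)) y (app (A.mci om a y) (eb c))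
  rw [fderiv_psi (A.P a) (hf _), A.app_mci, (A.P a).dpsi_dinv]
  refine Eq.trans ?_ (hdf _ _)
  have h2 := un1_back1 A om η ((A.P a).psi y) (A.FrI om ((A.P a).psi y) (eb c))
  rw [un1_apply, A.Fr_FrI om hJ hT] at h2
  refine Eq.trans ?_ h2.symm
  rw [dp_eq]
  fin_cases c <;> simp [eb]

theorem dX_of_exact {α : HS.Form X 2} (h : HS.Exact α) :
    letI := A.metric
    ∃ η, (CMA A hJ hS hC hT).Sm1 η ∧ fx A om α = (CMA A hJ hS hC hT).dX η := by
  letI := A.metric
  obtain ⟨θ, h1, h2⟩ := h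
  have e1 : ∀ a, (CMA A hJ hS hC hT).cf1 a (f1 A om θ) = p1 (A.P a) θ := fun a =>
    funext fun y => copp_f1 A hJ hT θ a y
  have hl : ∀ a y, ContDiffAt ℝ ∞ (HS.loc (A.P a).e θ) ((A.P a).g y) := fun a y =>
    (h1 _ (A.P a).he _ ((A.P a).g_mem y)).contDiffAt
      ((A.P a).e.open_target.mem_nhds ((A.P a).g_mem y))
  refine ⟨f1 A om θ, fun a => ?_, ?_⟩
  · rw [e1]
    exact contDiff_iff_contDiffAt.2 fun y => p1_smoothAt (A.P a) (hl a y)
  · rw [← glue_cf (CMA A hJ hS hC hT) (fx A om α)]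
    unfold CM.dX
    congr 1
    funext a y
    rw [e1, d1_p1 (A.P a) (hl a y) (h2 _ (A.P a).he _ ((A.P a).g_mem y))]
    exact congrFun (cf_fx A hJ hS hC hT α a) y

end forms

/-! ### line bundles -/

section lb
variable (L : LB X)

theorem g_self {i : Fin L.n} {x : X} (hi : x ∈ L.U i) : L.g i i x = 1 := by
  have h1 := L.g_co i i i x ⟨⟨hi, hi⟩, hi⟩
  have h2 : L.g i i x ≠ 0 := by
    intro h
    have := L.g_norm i i x ⟨hi, hi⟩
    rw [h] at this; simp at this
  exact mul_left_cancel₀ h2 (by rw [h1, mul_one])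

theorem g_conj {i j : Fin L.n} {x : X} (hi : x ∈ L.U i) (hj : x ∈ L.U j) :
    conj (L.g i j x) = L.g j i x := by
  have h1 := L.g_co i j i x ⟨⟨hi, hj⟩, hi⟩
  rw [g_self L hi] at h1
  have h2 : conj (L.g i j x) * L.g i j x = 1 := by
    rw [Complex.conj_mul', L.g_norm i j x ⟨hi, hj⟩]; simp
  linear_combination (L.g j i x) * h2 - conj (L.g i j x) * h1

theorem g_at {i j : Fin L.n} {x : X} (hi : x ∈ L.U i) (hj : x ∈ L.U j) :
    ContMDiffAt (𝓡 4) 𝓘(ℝ, ℂ) ∞ (L.g i j) x :=
  (L.g_smooth i j x ⟨hi, hj⟩).contMDiffAt (((L.opn i).inter (L.opn j)).mem_nhds ⟨hi, hj⟩)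

variable (A : FinAtlas X J) (i : Fin A.n → Fin L.n) (hi : ∀ a y, (A.P a).psi y ∈ L.U (i a))

include hi in
theorem mem_U {a : Fin A.n} {x : X} (h : x ∈ range (A.P a).psi) : x ∈ L.U (i a) := by
  obtain ⟨y, rfl⟩ := h
  exact hi a y

include hi in
theorem A_loc (a : Fin A.n) (y : V4) :
    ContDiffAt ℝ ∞ (HS.loc (A.P a).e (L.A (i a))) ((A.P a).g y) :=
  (L.A_smooth (i a) _ (A.P a).he _ ⟨(A.P a).g_mem y, hi a y⟩).contDiffAt
    (((A.P a).e.isOpen_inter_preimage_symm (L.opn _)).mem_nhds ⟨(A.P a).g_mem y, hi a y⟩)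

/-- the gauge from the chart `a` to the selected chart -/
def gam (a : Fin A.n) (y : V4) : ℂ :=
  L.g (i (A.ci ((A.P a).psi y))) (i a) ((A.P a).psi y)

include hi in
theorem gam_G {a b : Fin A.n} {y : V4} (h : (A.P a).psi y ∈ range (A.P b).psi) :
    conj (gam L A i b (A.ta a b y)) * gam L A i a y = L.g (i b) (i a) ((A.P a).psi y) := by
  unfold gam
  have h0 := mem_U L A i hi (A.mem_range_ci ((A.P a).psi y))
  rw [A.psi_ta h, g_conj L h0 (mem_U L A i hi h)]
  exact L.g_co _ _ _ _ ⟨⟨mem_U L A i hi h, h0⟩, hi a y⟩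

include hi in
theorem gam_meas (a : Fin A.n) : Measurable (gam L A i a) := by
  have hc : ∀ c, ContinuousOn (fun y => L.g (i c) (i a) ((A.P a).psi y))
      (Par.dom (A.P a) (A.P c)) := fun c y hy =>
    (contDiffAt_psi (A.P a) (g_at L (mem_U L A i hi hy) (hi a y))).continuousAt.continuousWithinAt
  choose T hT1 hT2 using fun c => measurable_piece (Par.isOpen_dom (A.P a) (A.P c)) (hc c)
  refine measurable_cover (A.Sset a) (A.Sset_meas a) (fun y => ⟨_, rfl⟩) T hT1 ?_
  intro c y hy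
  rw [hT2 c y (A.Sset_dom hy)]
  unfold gam
  rw [show A.ci ((A.P a).psi y) = c from hy]

variable {om : TwoForm X}
variable (hJ : AlmostComplex J) (hS : SmoothForm om) (hC : ClosedForm om) (hT : Tames om J)

/-- the line bundle on the concrete manifold -/
def toLBc : @LBc X A.metric (CMA A hJ hS hC hT) :=
  letI := A.metric
  { γ := gam L A i
    γ_meas := gam_meas L A i hi
    γ_norm := fun a y => L.g_norm _ _ _ ⟨mem_U L A i hi (A.mem_range_ci _), hi a y⟩
    A := fun a y => dpL (p1 (A.P a) (L.A (i a)) y)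
    A_smooth := fun a => dpL.contDiff.comp
      (contDiff_iff_contDiffAt.2 fun y => p1_smoothAt (A.P a) (A_loc L A i hi a y))
    G_smooth := fun a b => by
      refine ContDiffOn.congr (f := fun y => L.g (i b) (i a) ((A.P a).psi y))
        (fun y hy => ?_) fun y hy => gam_G L A i hi hy
      exact (contDiffAt_psi (A.P a) (g_at L (mem_U L A i hi hy) (hi a y))).contDiffWithinAt
    G_der := fun a b y hy v => by
      have hy' : (A.P a).psi y ∈ range (A.P b).psi := hy
      have hO := (Par.isOpen_dom (A.P a) (A.P b)).mem_nhds hy'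
      have hg := g_at L (mem_U L A i hi hy') (hi a y)
      have h1 : (fun y => conj (gam L A i b (A.ta a b y)) * gam L A i a y) =ᶠ[𝓝 y]
          fun y => L.g (i b) (i a) ((A.P a).psi y) := by
        filter_upwards [hO] with z hz using gam_G L A i hi hz
      have h2 := fderiv_unit ((contDiffAt_psi (A.P a) hg).differentiableAt (by simp)) (by
        filter_upwards [hO] with z hz
        exact L.g_norm _ _ _ ⟨mem_U L A i hi hz, hi a z⟩) v
      have h3 := L.A_tr (i b) (i a) _ ⟨mem_U L A i hi hy', hi a y⟩ ((A.P a).dpsi y v)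
      show fderiv ℝ (fun y => conj (gam L A i b (A.ta a b y)) * gam L A i a y) y v =
        Complex.I * ((dpL (p1 (A.P b) (L.A (i b)) (A.ta a b y)) (fderiv ℝ (A.ta a b) y v) -
          dpL (p1 (A.P a) (L.A (i a)) y) v : ℝ) : ℂ) *
          (conj (gam L A i b (A.ta a b y)) * gam L A i a y)
      have h4 : (A.P b).dpsi (A.ta a b y) (fderiv ℝ (A.ta a b) y v) = (A.P a).dpsi y v := by
        rw [Par.dpsi_tau hy']; rfl
      rw [h1.fderiv_eq, h2, gam_G L A i hi hy', dpL_apply, dpL_apply, dp_p1, dp_p1, h4,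
        A.psi_ta hy', un1_apply, un1_apply, fderiv_psi (A.P a) hg]
      congr 3
      exact h3.symm }

theorem toLBc_F : letI := A.metric
    (toLBc L A i hi hJ hS hC hT).F = (2 * Real.pi) • fx A om L.F := by
  letI := A.metric
  rw [← fx_smul, ← glue_cf (CMA A hJ hS hC hT) (fx A om _)]
  unfold LBc.F
  congr 1
  funext a y
  have h1 : (fun y c => (toLBc L A i hi hJ hS hC hT).A a y (P247.H74.e c)) =
      p1 (A.P a) (L.A (i a)) := by
    funext y c
    show dpL (p1 (A.P a) (L.A (i a)) y) (eb c) = _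
    rw [dpL_apply, dp_p1]; rfl
  rw [h1, d1_p1 (A.P a) (A_loc L A i hi a y)
    (L.dA (i a) _ (A.P a).he _ ((A.P a).g_mem y) (hi a y))]
  exact (congrFun (cf_fx A hJ hS hC hT _ a) y).symm

theorem triv_of {s : X → ℂ} (hs : letI := A.metric; (toLBc L A i hi hJ hS hC hT).Sm s)
    (h1 : ∀ x, ‖s x‖ = 1) : L.Triv := by
  letI := A.metric
  have h0 : ∀ x, x ∈ L.U (i (A.ci x)) := fun x => mem_U L A i hi (A.mem_range_ci x)
  refine ⟨fun j x => L.g j (i (A.ci x)) x * s x, fun j x hx => ?_, fun j x hx => ?_,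
    fun j k x hx => ?_⟩
  · obtain ⟨a, ha⟩ := atlas_cov A x
    have hr := (A.P a).isOpen_range.mem_nhds ha
    have h2 : (fun x => L.g j (i (A.ci x)) x * s x) =ᶠ[𝓝 x] fun x =>
        L.g j (i a) x * (toLBc L A i hi hJ hS hC hT).lo a s ((A.P a).inv x) := by
      filter_upwards [hr, (L.opn j).mem_nhds hx] with z hz hzj
      obtain ⟨y, rfl⟩ := hz
      rw [(A.P a).inv_psi]
      show _ = _ * (conj (gam L A i a y) * s ((A.P a).psi y))
      unfold gam
      rw [g_conj L (h0 _) (hi a y), ← mul_assoc, L.g_co _ _ _ _ ⟨⟨hzj, hi a y⟩, h0 _⟩]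
    refine (ContMDiffAt.congr_of_eventuallyEq ?_ h2).contMDiffWithinAt
    have h3 : ContMDiffAt (𝓡 4) 𝓘(ℝ, ℂ) ∞
        (fun x => (toLBc L A i hi hJ hS hC hT).lo a s ((A.P a).inv x)) x :=
      (hs a).contDiffAt.comp_contMDiffAt (((A.P a).contMDiffOn_inv x ha).contMDiffAt hr)
    exact (contDiff_mul (𝕜 := ℝ)).contDiffAt.comp_contMDiffAt
      ((g_at L hx (mem_U L A i hi ha)).prodMk_space h3)
  · rw [norm_mul, L.g_norm _ _ _ ⟨hx, h0 x⟩, h1, one_mul]
  · show _ = _ * (_ * _)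
    rw [← mul_assoc, L.g_co _ _ _ _ ⟨hx, h0 x⟩]

end lb

end Vale.Agent.P247E
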