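import Vale.Agent.P247E.DRf

/-!
# P247E: construction of the quaternionic frames
-/

set_option linter.all false

open scoped ContDiff Topology ENNReal ComplexConjugate
open Set MeasureTheory Filter

noncomputable section

namespace Vale.Agent.P247E

open Vale.Agent.P204.GX Vale.Agent.P204.T4
open Vale.Agent.P247.H74 (e)
open Vale.Agent.P247.H647 (omM hat)

theorem eS0 : eS 0 = ![1, 0, 0, 0, 0, 1] := by
  funext i; fin_cases i <;> simp [eS, ofEnt, omM]
theorem eS1 : eS 1 = ![0, 1, 0, 0, -1, 0] := by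
  funext i; fin_cases i <;> simp [eS, ofEnt, omM]
theorem eS2 : eS 2 = ![0, 0, 1, 1, 0, 0] := by
  funext i; fin_cases i <;> simp [eS, ofEnt, omM]

theorem eS0_F0 : eS 0 = F0 := eS0

theorem ev_eS2 (v w : V4) : ev (eS 2) v w = - ev (eS 1) (app J0 v) w := by
  rw [app_J0, ev_eq, ev_eq, eS1, eS2]; simp; ring

theorem ev_F0_J0 (v w : V4) : ev F0 v (app J0 w) = dp v w := by
  rw [app_J0, ev_eq, dp_eq]; simp [F0]; ring

theorem contDiff_det {Y : Type*} [NormedAddCommGroup Y] [NormedSpace ℝ Y] {n : ℕ}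
    {A : Y → Matrix (Fin n) (Fin n) ℝ} (h : ∀ i j, ContDiff ℝ ∞ fun y => A y i j) :
    ContDiff ℝ ∞ fun y => (A y).det := by
  simp only [Matrix.det_apply']
  exact ContDiff.sum fun σ _ => contDiff_const.mul (contDiff_prod fun i _ => h _ _)

theorem contDiff_minv {Y : Type*} [NormedAddCommGroup Y] [NormedSpace ℝ Y] {n : ℕ}
    {A : Y → Matrix (Fin n) (Fin n) ℝ} (h : ∀ i j, ContDiff ℝ ∞ fun y => A y i j)
    (hd : ∀ y, (A y).det ≠ 0) (i j : Fin n) : ContDiff ℝ ∞ fun y => (A y)⁻¹ i j := by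
  have h1 : (fun y => (A y)⁻¹ i j) = fun y => ((A y).det)⁻¹ * (A y).adjugate i j := by
    funext y
    rw [Matrix.inv_def, Ring.inverse_eq_inv']
    rfl
  rw [h1]
  refine ((contDiff_det h).inv hd).mul ?_
  simp only [Matrix.adjugate_apply]
  refine contDiff_det fun k l => ?_
  by_cases hk : k = j
  · simp only [hk, Matrix.updateRow_self]; exact contDiff_const
  · simp only [Matrix.updateRow_ne hk]; exact h k l

theorem contDiff_inv4 {n n' : V4 → M4} (hn : ContDiff ℝ ∞ n)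
    (h : ∀ y v, app (n y) (app (n' y) v) = v) : ContDiff ℝ ∞ n' := by
  have h1 : ∀ y, Matrix.of (n y) * Matrix.of (n' y) = 1 := by
    intro y
    have h2 : mm (n y) (n' y) = oneM := m4_ext fun v => by rw [app_mm, h, app_one]
    ext i j
    rw [Matrix.mul_apply, Matrix.one_apply]
    exact congrFun (congrFun h2 i) j
  refine contDiff_pi.2 fun i => contDiff_pi.2 fun j => ?_
  have h3 := contDiff_minv (A := fun y => Matrix.of (n y))
    (fun i j => contDiff_pi.1 (contDiff_pi.1 hn i) j)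
    (fun y => Matrix.det_ne_zero_of_right_inverse (h1 y)) i j
  simp only [fun y => Matrix.inv_eq_right_inv (h1 y)] at h3
  exact h3

theorem contDiff_ev {A : V4 → L2} {v w : V4 → V4} (hA : ContDiff ℝ ∞ A) (hv : ContDiff ℝ ∞ v)
    (hw : ContDiff ℝ ∞ w) : ContDiff ℝ ∞ fun y => ev (A y) (v y) (w y) := by
  have h1 := contDiff_pi.1 hA
  have h2 := contDiff_pi.1 hv
  have h3 := contDiff_pi.1 hw
  simp only [ev_eq]
  fun_prop

theorem contDiff_app' {A : V4 → M4} {v : V4 → V4} (hA : ContDiff ℝ ∞ A) (hv : ContDiff ℝ ∞ v) :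
    ContDiff ℝ ∞ fun y => app (A y) (v y) := contDiff_app.comp (hA.prodMk hv)

theorem contDiff_Q {A B : V4 → L2} (hA : ContDiff ℝ ∞ A) (hB : ContDiff ℝ ∞ B) :
    ContDiff ℝ ∞ fun y => Q (A y) (B y) := by
  have h1 := contDiff_pi.1 hA
  have h2 := contDiff_pi.1 hB
  simp only [Q]
  fun_prop

theorem contDiff_of_ev {A : V4 → L2} (h : ∀ i j, ContDiff ℝ ∞ fun y => ev (A y) (eb i) (eb j)) :
    ContDiff ℝ ∞ A := by
  have h0 := h 0 1; have h1 := h 0 2; have h2 := h 0 3
  have h3 := h 1 2; have h4 := h 1 3; have h5 := h 2 3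
  simp only [(ev_eb _).1, (ev_eb _).2.1, (ev_eb _).2.2.1, (ev_eb _).2.2.2.1, (ev_eb _).2.2.2.2.1,
    (ev_eb _).2.2.2.2.2] at h0 h1 h2 h3 h4 h5
  refine contDiff_pi.2 fun k => ?_
  fin_cases k
  exacts [h0, h1, h2, h3, h4, h5]

variable {X : Type} [MetricSpace X] (M : CM X)

theorem contDiff_detm (a : M.A) : ContDiff ℝ ∞ fun y => det4 (M.m a y) := by
  simp only [M.det_m_eq]
  exact contDiff_const.mul (contDiff_Q (M.F_smooth a) (M.F_smooth a))

theorem sm0_Q {u v : X → L2} (hu : u ∈ M.Om) (hv : v ∈ M.Om) : M.Sm0 fun x => Q (u x) (v x) := by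
  intro a
  have h : (fun y => Q (u (M.ψ a y)) (v (M.ψ a y))) =
      fun y => Q (M.cf a u y) (M.cf a v y) / det4 (M.m a y) := by
    funext y
    unfold CM.cf
    rw [Q_pull, mul_div_cancel_left₀ _ (M.m_det a y).ne']
  rw [h]
  exact (contDiff_Q (hu a) (hv a)).div (contDiff_detm M a) fun y => (M.m_det a y).ne'

theorem eS_mem (h1 : (fun _ => eS 1) ∈ M.Om) (k : Fin 3) : (fun _ => eS k) ∈ M.Om := by
  fin_cases k
  · intro a
    show ContDiff ℝ ∞ fun y => pull (M.m a y) (eS 0)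
    rw [eS0_F0]; exact M.F_smooth a
  · exact h1
  · intro a
    refine contDiff_of_ev fun i j => ?_
    have h : (fun y => ev (M.cf a (fun _ => eS 2) y) (eb i) (eb j)) =
        fun y => - ev (M.cf a (fun _ => eS 1) y) (app (M.J a y) (eb i)) (eb j) := by
      funext y
      unfold CM.cf
      rw [ev_pull, ev_pull, ev_eS2, M.m_J]
    show ContDiff ℝ ∞ fun y => ev (M.cf a (fun _ => eS 2) y) (eb i) (eb j)
    rw [h]
    exact (contDiff_ev (h1 a) (contDiff_app' (M.J_smooth a) contDiff_const) contDiff_const).neg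

theorem contDiff_met (a : M.A) (v w : V4) :
    ContDiff ℝ ∞ fun y => dp (app (M.m a y) v) (app (M.m a y) w) := by
  have h : (fun y => dp (app (M.m a y) v) (app (M.m a y) w)) =
      fun y => ev (pull (M.m a y) F0) v (app (M.J a y) w) := by
    funext y; rw [ev_pull, M.m_J, ev_F0_J0]
  rw [h]
  exact contDiff_ev (M.F_smooth a) contDiff_const (contDiff_app' (M.J_smooth a) contDiff_const)

theorem dp_self_pos {v : V4} (h : v ≠ 0) : 0 < dp v v := by
  rw [dp_eq]
  by_contra h0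
  apply h
  have h1 : v 0 = 0 := by nlinarith [mul_self_nonneg (v 0), mul_self_nonneg (v 1), mul_self_nonneg (v 2), mul_self_nonneg (v 3)]
  have h2 : v 1 = 0 := by nlinarith [mul_self_nonneg (v 0), mul_self_nonneg (v 1), mul_self_nonneg (v 2), mul_self_nonneg (v 3)]
  have h3 : v 2 = 0 := by nlinarith [mul_self_nonneg (v 0), mul_self_nonneg (v 1), mul_self_nonneg (v 2), mul_self_nonneg (v 3)]
  have h4 : v 3 = 0 := by nlinarith [mul_self_nonneg (v 0), mul_self_nonneg (v 1), mul_self_nonneg (v 2), mul_self_nonneg (v 3)]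
  funext i; fin_cases i <;> assumption

theorem met_pos (a : M.A) (y : V4) :
    0 < dp (app (M.m a y) (eb 0)) (app (M.m a y) (eb 0)) := by
  refine dp_self_pos fun h => ?_
  have h1 := M.m'_m a y (eb 0)
  rw [h, app_zero] at h1
  simpa [eb] using congrFun h1 0

/-- the normalising factor -/
def kap (a : M.A) (y : V4) : ℝ :=
  (Real.sqrt (dp (app (M.m a y) (eb 0)) (app (M.m a y) (eb 0))))⁻¹

theorem contDiff_kap (a : M.A) : ContDiff ℝ ∞ (kap M a) :=
  ((contDiff_met M a _ _).sqrt fun y => (met_pos M a y).ne').inv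
    fun y => (Real.sqrt_pos.2 (met_pos M a y)).ne'

/-- the unit quaternion -/
def pq (a : M.A) (y : V4) : V4 := kap M a y • app (M.m a y) (eb 0)

theorem pq_unit (a : M.A) (y : V4) : ∑ c, pq M a y c ^ 2 = 1 := by
  have h := met_pos M a y
  have h1 : kap M a y ^ 2 * dp (app (M.m a y) (eb 0)) (app (M.m a y) (eb 0)) = 1 := by
    rw [kap, inv_pow, Real.sq_sqrt h.le, inv_mul_cancel₀ h.ne']
  rw [← h1, dp_eq, Fin.sum_univ_four]
  simp only [pq, Pi.smul_apply, smul_eq_mul]
  ring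

theorem pq_meas (a : M.A) : Measurable (pq M a) := by
  refine (contDiff_kap M a).continuous.measurable.smul ?_
  exact contDiff_app.continuous.measurable.comp ((M.m_meas a).prodMk measurable_const)

theorem mm_col (P R : M4) (d j : Fin 4) : mm P R d j = app P (app R (eb j)) d := by
  rw [← app_mm]
  simp [app, eb, Pi.single_apply]

theorem Rq_cq_app (p v : V4) : app (Rq (cq p)) v =
    ![dp p v, ev (eS 0) p v, ev (eS 1) p v, ev (eS 2) p v] := by
  funext i
  fin_cases i <;> simp [app_eq, Rq, cq, dp_eq, ev_eq, eS0, eS1, eS2] <;> ring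

theorem nq_smooth (h1 : (fun _ => eS 1) ∈ M.Om) (a : M.A) :
    ContDiff ℝ ∞ fun y => mm (Rq (cq (pq M a y))) (M.m a y) := by
  refine contDiff_pi.2 fun d => contDiff_pi.2 fun j => ?_
  simp only [mm_col, Rq_cq_app]
  have hk : ∀ k, ContDiff ℝ ∞ fun y => ev (eS k) (pq M a y) (app (M.m a y) (eb j)) := by
    intro k
    have h : (fun y => ev (eS k) (pq M a y) (app (M.m a y) (eb j))) =
        fun y => kap M a y * ev (M.cf a (fun _ => eS k) y) (eb 0) (eb j) := by
      funext y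
      unfold CM.cf pq
      rw [ev_smul_left, ev_pull]
    rw [h]
    exact (contDiff_kap M a).mul (contDiff_ev (eS_mem M h1 k a) contDiff_const contDiff_const)
  fin_cases d
  · show ContDiff ℝ ∞ fun y => dp (pq M a y) (app (M.m a y) (eb j))
    simp only [pq, dp_smul_left]
    exact (contDiff_kap M a).mul (contDiff_met M a _ _)
  · exact hk 0
  · exact hk 1
  · exact hk 2

theorem Q_eS (A : L2) : Q A (eS 0) = A 0 + A 5 ∧ Q A (eS 1) = A 1 - A 4 ∧ Q A (eS 2) = A 2 + A 3 := by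
  rw [eS0, eS1, eS2]
  simp [Q]

theorem sd_eq {A : L2} (h0 : A 5 = A 0) (h1 : A 4 = -A 1) (h2 : A 3 = A 2) :
    A = ∑ k, (Q A (eS k) / 2) • eS k := by
  rw [Fin.sum_univ_three, (Q_eS A).1, (Q_eS A).2.1, (Q_eS A).2.2, eS0, eS1, eS2, h0, h1, h2]
  funext i
  fin_cases i <;> simp [h0, h1, h2]

/-- the manifold with a triple -/
def mkQ (h1 : (fun _ => eS 1) ∈ M.Om) (w : Fin 3 → X → L2) (hw : ∀ j, w j ∈ M.Om)
    (hc : ∀ j a, Closed (M.cf a (w j)))
    (hs : ∀ j x, w j x 5 = w j x 0 ∧ w j x 4 = -w j x 1 ∧ w j x 3 = w j x 2)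
    (ht : ∀ x, w 1 x 0 = 0 ∧ w 2 x 0 = 0 ∧ w 1 x 2 = 0 ∧ 0 < w 0 x 0 ∧ 0 < w 1 x 1 ∧ 0 < w 2 x 2) :
    QM X where
  toCM := M
  n a y := mm (Rq (cq (pq M a y))) (M.m a y)
  n' a y := mm (M.m' a y) (Rq (pq M a y))
  n_smooth := nq_smooth M h1
  n'_smooth a := contDiff_inv4 (nq_smooth M h1 a) fun y v => by
    rw [app_mm, app_mm, M.m_m', app_Rq_cq, pq_unit, one_smul]
  n_n' a y v := by rw [app_mm, app_mm, M.m_m', app_Rq_cq, pq_unit, one_smul]
  n'_n a y v := by rw [app_mm, app_mm, app_Rq_cq', pq_unit, one_smul, M.m'_m]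
  p := pq M
  p_meas := pq_meas M
  p_unit := pq_unit M
  m_eq a y := m4_ext fun v => by rw [app_mm, app_mm, app_Rq_cq', pq_unit, one_smul]
  w := w
  T x := Matrix.of fun j k => Q (w j x) (eS k) / 2
  T_smooth j k a := (sm0_Q M (hw j) (eS_mem M h1 k) a).div_const 2
  w_eq j x := sd_eq (hs j x).1 (hs j x).2.1 (hs j x).2.2
  w_closed := hc
  T_pos x u l hl h := by
    obtain ⟨a1, a2, a3, a4, a5, a6⟩ := ht x
    have h0 := congrFun h 0
    have h1 := congrFun h 1
    have h2 := congrFun h 2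
    simp only [Matrix.vecMul, dotProduct, Fin.sum_univ_three, Matrix.of_apply, (Q_eS _).1,
      (Q_eS _).2.1, (Q_eS _).2.2, (hs _ x).1, (hs _ x).2.1, (hs _ x).2.2, a1, a2, a3,
      Pi.neg_apply, Pi.smul_apply, smul_eq_mul] at h0 h1 h2
    have e0 : u 0 = 0 := by
      have : u 0 * (w 0 x 0 + l) = 0 := by linarith
      exact (mul_eq_zero.1 this).resolve_right (by linarith)
    have e2 : u 2 = 0 := by
      have : u 2 * (w 2 x 2 + l) = 0 := by rw [e0] at h2; linarith
      exact (mul_eq_zero.1 this).resolve_right (by linarith)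
    have e1 : u 1 = 0 := by
      have : u 1 * (w 1 x 1 + l) = 0 := by rw [e0, e2] at h1; linarith
      exact (mul_eq_zero.1 this).resolve_right (by linarith)
    funext i; fin_cases i <;> assumption

end Vale.Agent.P247E
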