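import Vale.Agent.P247E.QDirac

/-!
# P247E: change of the measurable frame by a rotation
-/

set_option linter.all false

open scoped ContDiff Topology ENNReal ComplexConjugate
open Set MeasureTheory Filter

noncomputable section

namespace Vale.Agent.P247E

open Vale.Agent.P204.GX Vale.Agent.P204.T4
open Vale.Agent.P247.H74 (e)
open Vale.Agent.P247.H647 (omM hat)

/-- rotation in the first complex coordinate -/
def rot (c s : ℝ) : M4 := ![![c, -s, 0, 0], ![s, c, 0, 0], ![0, 0, 1, 0], ![0, 0, 0, 1]]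

theorem app_rot (c s : ℝ) (v : V4) :
    app (rot c s) v = ![c * v 0 - s * v 1, s * v 0 + c * v 1, v 2, v 3] := by
  funext i
  fin_cases i <;> simp [app_eq, rot] <;> ring

theorem rot_rot {c s : ℝ} (h : c ^ 2 + s ^ 2 = 1) (v : V4) :
    app (rot c s) (app (rot c (-s)) v) = v := by
  rw [app_rot, app_rot]
  funext i
  fin_cases i <;> simp
  · linear_combination v 0 * h
  · linear_combination v 1 * h

theorem rot_rot' {c s : ℝ} (h : c ^ 2 + s ^ 2 = 1) (v : V4) :
    app (rot c (-s)) (app (rot c s) v) = v := by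
  have := rot_rot (c := c) (s := -s) (by rw [neg_sq]; exact h) v
  rwa [neg_neg] at this

theorem rot_J0 (c s : ℝ) (v : V4) : app (rot c s) (app J0 v) = app J0 (app (rot c s) v) := by
  rw [app_rot, app_J0, app_J0, app_rot]
  funext i
  fin_cases i <;> simp <;> ring

theorem det_rot (c s : ℝ) : det4 (rot c s) = c ^ 2 + s ^ 2 := by
  simp [det4, mn, rot]; ring

theorem pull_rot (c s : ℝ) (A : L2) : pull (rot c s) A =
    ![(c ^ 2 + s ^ 2) * A 0, c * A 1 + s * A 3, c * A 2 + s * A 4, c * A 3 - s * A 1,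
      c * A 4 - s * A 2, A 5] := by
  apply ext_ev
  intro v w
  rw [ev_pull, app_rot, app_rot, ev_eq, ev_eq]
  simp
  ring

theorem pP_F0_iff {A : L2} : pP J0 A = F0 ↔ A 0 = 1 ∧ A 5 = 1 ∧ A 4 = -A 1 ∧ A 3 = A 2 := by
  have e : ∀ i, pP J0 A i = (1 / 2) * (A i + (![A 0, A 4, -A 3, -A 2, A 1, A 5] : L2) i) := by
    intro i
    unfold pP
    rw [pull_J0]; rfl
  constructor
  · intro h
    have h0 : (1 / 2) * (A 0 + A 0) = 1 := (e 0).symm.trans (congrFun h 0)
    have h1 : (1 / 2) * (A 1 + A 4) = 0 := (e 1).symm.trans (congrFun h 1)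
    have h2 : (1 / 2) * (A 2 + -A 3) = 0 := (e 2).symm.trans (congrFun h 2)
    have h5 : (1 / 2) * (A 5 + A 5) = 1 := (e 5).symm.trans (congrFun h 5)
    exact ⟨by linarith, by linarith, by linarith, by linarith⟩
  · rintro ⟨h0, h5, h4, h3⟩
    funext i
    rw [e]
    fin_cases i
    · show (1 / 2) * (A 0 + A 0) = 1; rw [h0]; ring
    · show (1 / 2) * (A 1 + A 4) = 0; rw [h4]; ring
    · show (1 / 2) * (A 2 + -A 3) = 0; rw [h3]; ring
    · show (1 / 2) * (A 3 + -A 2) = 0; rw [h3]; ring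
    · show (1 / 2) * (A 4 + A 1) = 0; rw [h4]; ring
    · show (1 / 2) * (A 5 + A 5) = 1; rw [h5]; ring

theorem measurable_rot {Y : Type*} [MeasurableSpace Y] {c s : Y → ℝ} (hc : Measurable c)
    (hs : Measurable s) : Measurable fun y => rot (c y) (s y) := by
  refine measurable_pi_lambda _ fun i => measurable_pi_lambda _ fun j => ?_
  fin_cases i <;> fin_cases j <;> simp [rot] <;> first | exact hc | exact hs | exact hs.neg

theorem measurable_mm {α : Type*} [MeasurableSpace α] {P R : α → M4} (hP : Measurable P)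
    (hR : Measurable R) : Measurable fun a => mm (P a) (R a) := by
  have hP' : ∀ i j, Measurable fun a => P a i j := fun i j =>
    (measurable_pi_apply j).comp ((measurable_pi_apply i).comp hP)
  have hR' : ∀ i j, Measurable fun a => R a i j := fun i j =>
    (measurable_pi_apply j).comp ((measurable_pi_apply i).comp hR)
  refine measurable_pi_lambda _ fun i => measurable_pi_lambda _ fun j => ?_
  unfold mm
  exact Finset.measurable_sum _ fun k _ => (hP' i k).mul (hR' k j)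

variable {X : Type} [MetricSpace X]

/-- a measurable rotation -/
structure Rt (M : CM X) where
  c : X → ℝ
  s : X → ℝ
  unit : ∀ x, c x ^ 2 + s x ^ 2 = 1
  c_meas : ∀ a, Measurable fun y => c (M.ψ a y)
  s_meas : ∀ a, Measurable fun y => s (M.ψ a y)

namespace Rt

variable {M : CM X} (R : Rt M)

def r (x : X) : M4 := rot (R.c x) (R.s x)
def r' (x : X) : M4 := rot (R.c x) (-R.s x)

theorem r_r' (x : X) (v : V4) : app (R.r x) (app (R.r' x) v) = v := rot_rot (R.unit x) v
theorem r'_r (x : X) (v : V4) : app (R.r' x) (app (R.r x) v) = v := rot_rot' (R.unit x) v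

theorem mm_r'_r (x : X) : mm (R.r' x) (R.r x) = oneM :=
  m4_ext fun v => by rw [app_mm, R.r'_r, app_one]
theorem mm_r_r' (x : X) : mm (R.r x) (R.r' x) = oneM :=
  m4_ext fun v => by rw [app_mm, R.r_r', app_one]

theorem det_r (x : X) : det4 (R.r x) = 1 := by rw [r, det_rot, R.unit]
theorem det_r' (x : X) : det4 (R.r' x) = 1 := by rw [r', det_rot, neg_sq, R.unit]

theorem pull_r_F0 (x : X) : pull (R.r x) F0 = F0 := by
  rw [r, pull_rot, R.unit]
  funext i; fin_cases i <;> simp [F0]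

/-- two-forms in the new frame -/
def tr (u : X → L2) (x : X) : L2 := pull (R.r' x) (u x)
/-- back to the old frame -/
def bk (u : X → L2) (x : X) : L2 := pull (R.r x) (u x)
/-- one-forms, back to the old frame -/
def bk1 (η : X → V4) (x : X) : V4 := copp (η x) (R.r x)
/-- one-forms in the new frame -/
def tr1 (η : X → V4) (x : X) : V4 := copp (η x) (R.r' x)

theorem tr_bk (u : X → L2) : R.tr (R.bk u) = u := by
  funext x; rw [tr, bk, ← pull_mm, R.mm_r_r', pull_one]

theorem pull_tr (u : X → L2) (x : X) (P : M4) :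
    pull (mm (R.r x) P) (R.tr u x) = pull P (u x) := by
  rw [tr, pull_mm, ← pull_mm (R.r' x), R.mm_r'_r, pull_one]

/-- the manifold with the rotated frame -/
def cm : CM X where
  A := M.A
  fA := M.fA
  dA := M.dA
  ψ := M.ψ
  ψo := M.ψo
  cov := M.cov
  τ := M.τ
  τ_spec := M.τ_spec
  τ_smooth := M.τ_smooth
  lip := M.lip
  m a y := mm (R.r (M.ψ a y)) (M.m a y)
  m' a y := mm (M.m' a y) (R.r' (M.ψ a y))
  m_meas a := measurable_mm (measurable_rot (R.c_meas a) (R.s_meas a)) (M.m_meas a)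
  m'_meas a := measurable_mm (M.m'_meas a) (measurable_rot (R.c_meas a) (R.s_meas a).neg)
  m_m' a y v := by rw [app_mm, app_mm, M.m_m', R.r_r']
  m'_m a y v := by rw [app_mm, app_mm, R.r'_r, M.m'_m]
  m_det a y := by rw [det4_mm, R.det_r, one_mul]; exact M.m_det a y
  m_cocycle a b y h := by rw [mm_assoc, ← M.m_cocycle a b y h, M.τ_spec a b y h]
  J := M.J
  J_smooth := M.J_smooth
  J_cx := M.J_cx
  J_pos := M.J_pos
  m_J a y v := by rw [app_mm, app_mm, M.m_J, r, rot_J0]
  F_smooth a := by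
    simp only [pull_mm, R.pull_r_F0]
    exact M.F_smooth a
  om := R.tr M.om
  om_smooth a := by
    simp only [R.pull_tr]
    exact M.om_smooth a
  om_closed a := by
    simp only [R.pull_tr]
    exact M.om_closed a
  om_pP x := by
    obtain ⟨h0, h5, h4, h3⟩ := pP_F0_iff.1 (M.om_pP x)
    have hu := R.unit x
    rw [pP_F0_iff, tr, r', pull_rot]
    refine ⟨?_, h5, ?_, ?_⟩
    · show (R.c x ^ 2 + (-R.s x) ^ 2) * M.om x 0 = 1
      rw [neg_sq, hu, h0, one_mul]
    · show R.c x * M.om x 4 - -R.s x * M.om x 2 = -(R.c x * M.om x 1 + -R.s x * M.om x 3)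
      rw [h4, h3]; ring
    · show R.c x * M.om x 3 - -R.s x * M.om x 1 = R.c x * M.om x 2 + -R.s x * M.om x 4
      rw [h4, h3]; ring

theorem cf_tr (a : M.A) (u : X → L2) : R.cm.cf a (R.tr u) = M.cf a u := by
  funext y; exact R.pull_tr u _ _

theorem cf_bk (a : M.A) (u : X → L2) : M.cf a (R.bk u) = R.cm.cf a u := by
  rw [← R.cf_tr, R.tr_bk]

theorem cf1_bk (a : M.A) (η : X → V4) : M.cf1 a (R.bk1 η) = R.cm.cf1 a η := by
  funext y
  show copp (copp _ _) _ = copp (η (M.ψ a y)) (mm (R.r (M.ψ a y)) (M.m a y))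
  rw [copp_mm]

theorem cf1_tr (a : M.A) (η : X → V4) : R.cm.cf1 a (R.tr1 η) = M.cf1 a η := by
  funext y
  show copp (copp (η (M.ψ a y)) (R.r' (M.ψ a y))) (mm (R.r (M.ψ a y)) (M.m a y)) =
    copp (η (M.ψ a y)) (M.m a y)
  rw [copp_mm, ← copp_mm (η _), R.mm_r'_r, copp_one]

theorem glue_eq (f : M.A → V4 → L2) : R.cm.glue f = R.tr (M.glue f) := by
  funext x
  show pull (mm (M.m' (M.ch x) (M.cy x)) (R.r' (M.ψ (M.ch x) (M.cy x)))) (f (M.ch x) (M.cy x)) =
    pull (R.r' x) (pull (M.m' (M.ch x) (M.cy x)) (f (M.ch x) (M.cy x)))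
  rw [pull_mm, M.ψ_cy]

theorem dX_tr (η : X → V4) : R.cm.dX (R.tr1 η) = R.tr (M.dX η) := by
  unfold CM.dX
  rw [← R.glue_eq]
  congr 1
  funext a
  exact congrArg d1 (R.cf1_tr a η)

theorem dX_bk (η : X → V4) : R.cm.dX η = R.tr (M.dX (R.bk1 η)) := by
  unfold CM.dX
  rw [← R.glue_eq]
  congr 1
  funext a
  exact congrArg d1 (R.cf1_bk a η).symm

theorem df_eq (f : X → ℝ) : df R.cm f = R.tr1 (df M f) := by
  funext x c
  show fderiv ℝ (fun y => f (M.ψ (M.ch x) y)) (M.cy x)
    (app (mm (M.m' (M.ch x) (M.cy x)) (R.r' (M.ψ (M.ch x) (M.cy x)))) (e c)) =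
    ∑ i, fderiv ℝ (fun y => f (M.ψ (M.ch x) y)) (M.cy x) (app (M.m' (M.ch x) (M.cy x)) (e i)) *
      R.r' x i c
  rw [M.ψ_cy, app_mm]
  have h : app (M.m' (M.ch x) (M.cy x)) (app (R.r' x) (e c)) =
      ∑ i, R.r' x i c • app (M.m' (M.ch x) (M.cy x)) (e i) := by
    funext j
    simp only [app, e, Pi.single_apply, mul_ite, mul_one, mul_zero, Finset.sum_ite_eq',
      Finset.mem_univ, if_true, Finset.sum_apply, Pi.smul_apply, smul_eq_mul]
    exact Finset.sum_congr rfl fun i _ => mul_comm _ _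
  rw [h, map_sum]
  exact Finset.sum_congr rfl fun i _ => by rw [map_smul, smul_eq_mul, mul_comm]

theorem tr1_bk1 (η : X → V4) : R.tr1 (R.bk1 η) = η := by
  funext x; rw [tr1, bk1, ← copp_mm, R.mm_r_r', copp_one]

theorem b1 (h : B1 M) : B1 R.cm := by
  intro η hη h0
  have h1 : M.Sm1 (R.bk1 η) := fun a => by rw [R.cf1_bk]; exact hη a
  have h2 : M.dX (R.bk1 η) = 0 := by
    apply M.ext_cf
    intro a y _
    rw [← R.cf_tr, ← R.dX_bk, h0, M.cf_zero]
    exact congrFun (R.cm.cf_zero a) y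
  obtain ⟨f, hf, hf'⟩ := h _ h1 h2
  refine ⟨f, hf, fun x c => ?_⟩
  have h3 : R.bk1 η = df M f := by funext x c; exact hf' x c
  rw [R.df_eq, ← h3, R.tr1_bk1]

variable [MeasurableSpace X]

theorem mu_eq : R.cm.mu = M.mu := by
  unfold CM.mu
  refine Finset.sum_congr rfl fun a _ => ?_
  congr 2
  funext y
  show ENNReal.ofReal (M.zl a y * det4 (mm _ _)) = _
  rw [det4_mm, R.det_r, one_mul]

theorem pr_tr (u v : X → L2) : R.cm.pr (R.tr u) (R.tr v) = M.pr u v := by
  unfold CM.pr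
  rw [R.mu_eq]
  congr 1
  funext x
  rw [tr, tr, Q_pull, R.det_r', one_mul]

theorem bp3 (h : BP3 M) : BP3 R.cm := by
  rintro ⟨c, h1, h2⟩
  refine h ⟨fun i => R.bk (c i), fun i => ⟨fun a => ?_, fun a => ?_⟩, ?_⟩
  · rw [R.cf_bk]; exact (h1 i).1 a
  · rw [R.cf_bk]; exact (h1 i).2 a
  · simp only [← R.pr_tr, R.tr_bk]
    exact h2

end Rt

/-- a line bundle on the manifold with the rotated frame -/
def LBc.rot {M : CM X} (L : LBc M) (R : Rt M) : LBc R.cm where
  γ := L.γ
  γ_meas := L.γ_meas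
  γ_norm := L.γ_norm
  A := L.A
  A_smooth := L.A_smooth
  G_smooth := L.G_smooth
  G_der := L.G_der

theorem LBc.rot_F {M : CM X} (L : LBc M) (R : Rt M) : (L.rot R).F = R.tr L.F := R.glue_eq _

end Vale.Agent.P247E
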