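import Vale.Agent.P204.Bdl.B1
import Vale.Agent.P247.H447.E5.Sta

/-!
# P247E: first order operators on a closed four-manifold, definitions

The manifold is `M : CM X` (finitely many charts `ψ a : ℝ⁴ → X`, measure `M.mu`, partition of
unity `M.zeta`, measurable frame `M.m`).  A Euclidean vector bundle with fibre `V` is a family of
measurable orthogonal gauges; sections are plain maps `X → V`.
-/

open scoped ContDiff Topology ENNReal
open Set MeasureTheory Filter

noncomputable section

namespace Vale.Agent.P247E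

open Vale.Agent.P204.GX Vale.Agent.P204.T4
open Vale.Agent.P247.H74 (e)

variable {X : Type} [MetricSpace X] (M : CM X)

/-! ## Bundles, sections -/

/-- A Euclidean vector bundle with fibre `V`: `u a y` maps the components in the smooth gauge of
the chart `a` to the components in the global measurable gauge. -/
structure Bun (V : Type) [NormedAddCommGroup V] [InnerProductSpace ℝ V] where
  u : M.A → V4 → V →L[ℝ] V
  u' : M.A → V4 → V →L[ℝ] V
  u_meas : ∀ a, StronglyMeasurable (u a)
  u'_meas : ∀ a, StronglyMeasurable (u' a)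
  u_u' : ∀ a y v, u a y (u' a y v) = v
  u'_u : ∀ a y v, u' a y (u a y v) = v
  u_norm : ∀ a y v, ‖u a y v‖ = ‖v‖
  trans : ∀ a b, ContDiffOn ℝ ∞ (fun y => (u' b (M.τ a b y)).comp (u a y)) (M.O a b)

variable {M}
variable {V W : Type} [NormedAddCommGroup V] [InnerProductSpace ℝ V]
  [NormedAddCommGroup W] [InnerProductSpace ℝ W]

/-- the trivial bundle -/
def Bun.triv (M : CM X) (V : Type) [NormedAddCommGroup V] [InnerProductSpace ℝ V] : Bun M V where
  u _ _ := ContinuousLinearMap.id ℝ V
  u' _ _ := ContinuousLinearMap.id ℝ V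
  u_meas _ := stronglyMeasurable_const
  u'_meas _ := stronglyMeasurable_const
  u_u' _ _ _ := rfl
  u'_u _ _ _ := rfl
  u_norm _ _ _ := rfl
  trans _ _ := contDiffOn_const

/-- the components of a section in the chart `a` -/
def Bun.lo (E : Bun M V) (a : M.A) (s : X → V) (y : V4) : V := E.u' a y (s (M.ψ a y))

/-- smooth sections -/
def Bun.Sm (E : Bun M V) : Submodule ℝ (X → V) where
  carrier := {s | ∀ a, ContDiff ℝ ∞ (E.lo a s)}
  add_mem' := by
    intro s t hs ht a
    have : E.lo a (s + t) = fun y => E.lo a s y + E.lo a t y := by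
      funext y; simp only [Bun.lo, Pi.add_apply, map_add]
    rw [this]; exact (hs a).add (ht a)
  zero_mem' := by
    intro a
    have : E.lo a 0 = fun _ => 0 := by funext y; simp only [Bun.lo, Pi.zero_apply, map_zero]
    rw [this]; exact contDiff_const
  smul_mem' := by
    intro c s hs a
    have : E.lo a (c • s) = fun y => c • E.lo a s y := by
      funext y; simp only [Bun.lo, Pi.smul_apply, map_smul]
    rw [this]; exact (hs a).const_smul c

/-- smooth bundle homomorphisms -/
def Bun.Hom (E : Bun M V) (F : Bun M W) (B : X → V →L[ℝ] W) : Prop :=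
  ∀ a, ContDiff ℝ ∞ fun y => (F.u' a y).comp ((B (M.ψ a y)).comp (E.u a y))

/-- all local components are in the local Sobolev class of order `k` -/
def Bun.SobX (E : Bun M V) (k : ℕ) (s : X → V) : Prop :=
  ∀ a, Vale.Agent.P247.H306.Sob k (E.lo a s)

/-! ## First order operators -/

/-- the local expression of a first order operator -/
def locOp (Mi : Fin 4 → V4 → V →L[ℝ] W) (N : V4 → V →L[ℝ] W) (f : V4 → V) (y : V4) : W :=
  ∑ i, Mi i y (fderiv ℝ f y (e i)) + N y (f y)

/-- A first order differential operator with smooth coefficients. -/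
structure Op (E : Bun M V) (F : Bun M W) where
  Mi : M.A → Fin 4 → V4 → V →L[ℝ] W
  N : M.A → V4 → V →L[ℝ] W
  Mi_smooth : ∀ a i, ContDiff ℝ ∞ (Mi a i)
  N_smooth : ∀ a, ContDiff ℝ ∞ (N a)
  compat : ∀ s ∈ E.Sm, ∀ a b, ∀ y ∈ M.O a b,
    F.u a y (locOp (Mi a) (N a) (E.lo a s) y) =
      F.u b (M.τ a b y) (locOp (Mi b) (N b) (E.lo b s) (M.τ a b y))

variable {E : Bun M V} {F : Bun M W}

/-- the action on (smooth) sections -/
def Op.app (P : Op E F) (s : X → V) (x : X) : W :=
  F.u (M.ch x) (M.cy x) (locOp (P.Mi (M.ch x)) (P.N (M.ch x)) (E.lo (M.ch x) s) (M.cy x))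

/-- the symbol is a positive multiple of an isometry on every nonzero covector -/
def Op.Cliff (P : Op E F) : Prop :=
  ∀ a y (ξ : V4), ξ ≠ 0 → ∃ c : ℝ, 0 < c ∧ ∀ v, ‖(∑ i, ξ i • P.Mi a i y) v‖ = c * ‖v‖

/-- Gårding's inequality holds locally in every chart -/
def Op.Gar (P : Op E F) : Prop := ∀ a, Vale.Agent.P247.H447.E5.Gar (P.Mi a)

/-! ## Jets -/

/-- values of a section and of its weighted chart derivatives -/
abbrev Jt (M : CM X) (V : Type) : Type := PiLp 2 fun _ : Option (M.A × Fin 4) => V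

/-- the weighted chart derivative `ζ_a ∂ᵢ` -/
def Bun.nab (E : Bun M V) (a : M.A) (i : Fin 4) (s : X → V) (x : X) : V :=
  M.zeta a x • E.u a (M.inv a x) (fderiv ℝ (E.lo a s) (M.inv a x) (e i))

/-- the jet of a section -/
def Bun.jet (E : Bun M V) (s : X → V) (x : X) : Jt M V :=
  WithLp.toLp 2 fun o => match o with
    | none => s x
    | some p => E.nab p.1 p.2 s x

/-- the components of a jet -/
def jproj (M : CM X) (V : Type) [NormedAddCommGroup V] [InnerProductSpace ℝ V]
    (o : Option (M.A × Fin 4)) : Jt M V →L[ℝ] V :=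
  PiLp.proj (𝕜 := ℝ) 2 (fun _ : Option (M.A × Fin 4) => V) o

/-- the operator as a field of linear maps on jets -/
def Op.sym (P : Op E F) (x : X) : Jt M V →L[ℝ] W :=
  ∑ a, ((∑ i, M.ext0 a theta x • ((F.u a (M.inv a x)).comp ((P.Mi a i (M.inv a x)).comp
      ((E.u' a (M.inv a x)).comp (jproj M V (some (a, i))))))) +
    M.zeta a x • ((F.u a (M.inv a x)).comp ((P.N a (M.inv a x)).comp
      ((E.u' a (M.inv a x)).comp (jproj M V none)))))

/-! ## `L²` and `H¹` -/

variable [MeasurableSpace X] [BorelSpace X]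

/-- square integrable sections -/
abbrev LL2 (M : CM X) (V : Type) [NormedAddCommGroup V] : Type := Lp V 2 M.mu

open Classical in
/-- multiplication by a field of linear maps (`0` if it is not bounded on `L²`) -/
def mulOp (M : CM X) {V W : Type} [NormedAddCommGroup V] [NormedSpace ℝ V] [NormedAddCommGroup W]
    [NormedSpace ℝ W] (B : X → V →L[ℝ] W) : LL2 M V →L[ℝ] LL2 M W :=
  if h : ∃ T : LL2 M V →L[ℝ] LL2 M W, ∀ f, T f =ᵐ[M.mu] fun x => B x (f x) then h.choose else 0

/-- the Sobolev space `H¹`: the closure of the jets of smooth sections -/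
def Bun.H1 (E : Bun M V) : Submodule ℝ (LL2 M (Jt M V)) :=
  (Submodule.span ℝ {f : LL2 M (Jt M V) | ∃ s ∈ E.Sm, f =ᵐ[M.mu] E.jet s}).topologicalClosure

instance (E : Bun M V) [CompleteSpace V] : CompleteSpace E.H1 := by
  unfold Bun.H1
  exact (Submodule.isClosed_topologicalClosure _).completeSpace_coe

/-- the underlying `L²` section -/
def Bun.J (E : Bun M V) : E.H1 →L[ℝ] LL2 M V :=
  ((jproj M V none).compLpL 2 M.mu).comp E.H1.subtypeL

/-- `w ∈ H¹` is the jet of the section `s` -/
def Bun.Rep (E : Bun M V) (w : E.H1) (s : X → V) : Prop :=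
  ((w : LL2 M (Jt M V)) : X → Jt M V) =ᵐ[M.mu] E.jet s

/-- the operator `H¹ → L²` -/
def Op.clm (P : Op E F) : E.H1 →L[ℝ] LL2 M W := (mulOp M P.sym).comp E.H1.subtypeL

/-- the (real) index -/
def Op.ind (P : Op E F) : ℤ := (P.clm : E.H1 →ₗ[ℝ] LL2 M W).index

/-- formal adjoints -/
def Op.IsAdj (P : Op E F) (P' : Op F E) : Prop :=
  ∀ s ∈ E.Sm, ∀ t ∈ F.Sm,
    ∫ x, inner ℝ (P.app s x) (t x) ∂M.mu = ∫ x, inner ℝ (s x) (P'.app t x) ∂M.mu

/-- smooth solutions of `P s = 0` -/
def Op.kerS (P : Op E F) : Set (X → V) := {s | s ∈ E.Sm ∧ ∀ x, P.app s x = 0}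

end Vale.Agent.P247E
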