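import Vale.Agent.P247E.Fa

/-!
# P247E: the Fredholm property
-/

open scoped Topology
open Set Filter Module MeasureTheory

noncomputable section

namespace Vale.Agent.P247E

open Vale.Agent.P204.GX Vale.Agent.P204.T4

variable {X : Type} [MetricSpace X] [CompactSpace X] [MeasurableSpace X] [BorelSpace X] {M : CM X}
  {V W : Type} [NormedAddCommGroup V] [InnerProductSpace ℝ V] [FiniteDimensional ℝ V]
  [NormedAddCommGroup W] [InnerProductSpace ℝ W] [FiniteDimensional ℝ W]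
  {E : Bun M V} {F : Bun M W}

omit [CompactSpace X] [FiniteDimensional ℝ V] [FiniteDimensional ℝ W] in
theorem Op.IsAdj.symm {P : Op E F} {P' : Op F E} (h : P.IsAdj P') : P'.IsAdj P :=
  fun t ht s hs => by simpa only [real_inner_comm] using (h s hs t ht).symm

namespace Fred

theorem mem (hB : BAS_statement) (hR : REG_statement) {P : Op E F} (hP : P.Gar) (g : LL2 M V) :
    g ∈ (LinearMap.ker (P.clm : E.H1 →ₗ[ℝ] LL2 M W)).map (E.J : E.H1 →ₗ[ℝ] LL2 M V) ↔
      ∃ s ∈ P.kerS, (g : X → V) =ᵐ[M.mu] s := by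
  obtain ⟨b1, -, -, -, b5, -, b7⟩ := hB X M V W E F
  constructor
  · rintro ⟨w, hw, rfl⟩
    obtain ⟨s, hs, r, h⟩ := (hR X M V W E F P hP w).2 0 F.Sm.zero_mem
      (by rw [show P.clm w = 0 from hw]; exact Lp.coeFn_zero _ _ _)
    exact ⟨s, ⟨hs, congrFun h⟩, b5 w s r⟩
  · rintro ⟨s, ⟨hs, h⟩, e⟩
    obtain ⟨w, r⟩ := (b1 s hs).2.2.2.2
    refine ⟨w, Lp.ext ?_, Lp.ext ((b5 w s r).trans e.symm)⟩
    exact (((b7 P).2.2.2 s hs).2.2.2 w r).trans
      (EventuallyEq.trans (Eventually.of_forall h) (Lp.coeFn_zero _ _ _).symm)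

theorem eqv (hB : BAS_statement) (hG : GAR_statement) (hR : REG_statement) {P : Op E F}
    (hP : P.Gar) : Nonempty (Submodule.span ℝ P.kerS ≃ₗ[ℝ] (LinearMap.ker
      (P.clm : E.H1 →ₗ[ℝ] LL2 M W)).map (E.J : E.H1 →ₗ[ℝ] LL2 M V)) ∧
    Nonempty (LinearMap.ker (P.clm : E.H1 →ₗ[ℝ] LL2 M W) ≃ₗ[ℝ] (LinearMap.ker
      (P.clm : E.H1 →ₗ[ℝ] LL2 M W)).map (E.J : E.H1 →ₗ[ℝ] LL2 M V)) := by
  obtain ⟨b1, -, -, b4, b5, -⟩ := hB X M V W E F
  have le : Submodule.span ℝ P.kerS ≤ E.Sm := Submodule.span_le.2 fun s hs => hs.1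
  have ml : ∀ s : Submodule.span ℝ P.kerS, MemLp s.1 2 M.mu := fun s => by
    obtain ⟨w, r⟩ := (b1 s (le s.2)).2.2.2.2
    exact (Lp.memLp _).ae_eq (b5 w s r)
  let i : Submodule.span ℝ P.kerS →ₗ[ℝ] LL2 M V :=
    { toFun := fun s => (ml s).toLp
      map_add' := fun s t => MemLp.toLp_add (ml s) (ml t)
      map_smul' := fun c s => MemLp.toLp_const_smul c (ml s) }
  have hi : Function.Injective i := fun s t h => Subtype.ext (b4 s (le s.2) t (le t.2)
    ((MemLp.toLp_eq_toLp_iff (ml s) (ml t)).1 h))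
  constructor
  · refine ⟨(LinearEquiv.ofInjective i hi).trans (.ofEq _ _ (le_antisymm ?_ fun g hg => ?_))⟩
    · rintro _ ⟨⟨s, hs⟩, rfl⟩
      induction hs using Submodule.span_induction with
      | mem s hs => exact (mem hB hR hP _).2 ⟨s, hs, MemLp.coeFn_toLp (ml _)⟩
      | zero => exact (map_zero i).symm ▸ Submodule.zero_mem _
      | add s t hs ht h k => exact (map_add i ⟨s, hs⟩ ⟨t, ht⟩).symm ▸ Submodule.add_mem _ h k
      | smul c s hs h => exact (map_smul i c ⟨s, hs⟩).symm ▸ Submodule.smul_mem _ c h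
    · obtain ⟨s, hs, e⟩ := (mem hB hR hP g).1 hg
      exact ⟨⟨s, Submodule.subset_span hs⟩, Lp.ext ((MemLp.coeFn_toLp (ml _)).trans e.symm)⟩
  · obtain ⟨C, -, h⟩ := hG X M V W E F P hP
    refine ⟨(LinearEquiv.ofInjective ((E.J : E.H1 →ₗ[ℝ] LL2 M V).domRestrict _)
      ((injective_iff_map_eq_zero _).2 fun w hw => Subtype.ext (norm_le_zero_iff.1 ?_))).trans
      (.ofEq _ _ (LinearMap.range_domRestrict _ _))⟩
    have := h w
    rwa [show P.clm w = 0 from w.2, show E.J w = 0 from hw, norm_zero, norm_zero, add_zero,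
      mul_zero] at this

theorem orth (hB : BAS_statement) (hA : ADJ_statement) (hW : WS_statement) {P : Op E F}
    {P' : Op F E} (h : P.IsAdj P') (hP : P'.Gar) :
    (LinearMap.range (P.clm : E.H1 →ₗ[ℝ] LL2 M W))ᗮ =
      (LinearMap.ker (P'.clm : F.H1 →ₗ[ℝ] LL2 M V)).map (F.J : F.H1 →ₗ[ℝ] LL2 M W) := by
  obtain ⟨b1, -, -, -, -, -, b7⟩ := hB X M V W E F
  refine le_antisymm (fun g hg => ?_) ?_
  · obtain ⟨w, h1, h2⟩ := hW X M W V F E P' P h.symm hP g 0 fun t ht => by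
      obtain ⟨w, r⟩ := (b1 t ht).2.2.2.2
      have := hg _ ⟨w, rfl⟩
      rw [real_inner_comm, L2.inner_def] at this
      trans 0
      · refine (integral_congr_ae ?_).trans this
        filter_upwards [((b7 P).2.2.2 t ht).2.2.2 w r] with x hx
        rw [← hx]; rfl
      · refine (integral_eq_zero_of_ae ?_).symm
        filter_upwards [Lp.coeFn_zero V 2 M.mu] with x hx
        rw [hx]; exact inner_zero_left _
    exact ⟨w, h2, h1⟩
  · rintro _ ⟨w', hw, rfl⟩ _ ⟨w, rfl⟩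
    exact (((hA X M V W E F P).2 P' h).2 w w').trans
      (by rw [show P'.clm w' = 0 from hw, inner_zero_right])

end Fred

open Fred in
theorem FRED (hB : BAS_statement) (hA : ADJ_statement) (hC : REL_statement) (hG : GAR_statement)
    (hW : WS_statement) (hR : REG_statement) : FRED_statement := by
  intro X _ _ _ _ M V W _ _ _ _ _ _ E F P P' h hP hP'
  have := FiniteDimensional.complete ℝ V
  have := FiniteDimensional.complete ℝ W
  obtain ⟨C, C0, hC1⟩ := hG X M V W E F P hP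
  obtain ⟨C', C0', hC2⟩ := hG X M W V F E P' hP'
  obtain ⟨k1, cl⟩ := Fa.semi (hC X M V W E F) C0 hC1
  obtain ⟨k2, -⟩ := Fa.semi (hC X M W V F E) C0' hC2
  obtain ⟨q⟩ := Fa.fin_orth (R := LinearMap.range (P.clm : E.H1 →ₗ[ℝ] LL2 M W)) cl
  have o := orth hB hA hW h hP'
  obtain ⟨⟨q1⟩, ⟨q2⟩⟩ := eqv hB hG hR hP
  obtain ⟨⟨q3⟩, -⟩ := eqv hB hG hR hP'
  let q4 := q.trans ((LinearEquiv.ofEq _ _ o).trans q3.symm)
  have := q3.symm.finiteDimensional
  refine ⟨k1, cl, q4.symm.finiteDimensional, fun g => ?_, q1.symm.finiteDimensional, this, ?_⟩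
  · have : CompleteSpace (LinearMap.range (P.clm : E.H1 →ₗ[ℝ] LL2 M W)) := cl.completeSpace_coe
    change g ∈ LinearMap.range (P.clm : E.H1 →ₗ[ℝ] LL2 M W) ↔ _
    rw [← (LinearMap.range (P.clm : E.H1 →ₗ[ℝ] LL2 M W)).orthogonal_orthogonal, o,
      Submodule.mem_orthogonal']
    have e : ∀ (f : LL2 M W) (t : X → W), (f : X → W) =ᵐ[M.mu] t →
        inner ℝ g f = ∫ x, inner ℝ ((g : X → W) x) (t x) ∂M.mu := fun f t k => by
      rw [L2.inner_def]
      exact integral_congr_ae (k.mono fun x hx => by simp only [hx])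
    constructor
    · intro k t ht
      obtain ⟨b1, -, -, -, b5, -⟩ := hB X M W V F E
      obtain ⟨w, r⟩ := (b1 t ht.1).2.2.2.2
      exact (e _ t (b5 w t r)).symm.trans (k _ ((mem hB hR hP' _).2 ⟨t, ht, b5 w t r⟩))
    · intro k f hf
      obtain ⟨t, ht, r⟩ := (mem hB hR hP' _).1 hf
      exact (e f t r).trans (k t ht)
  · rw [Op.ind, LinearMap.index_eq_finrank_sub, q4.finrank_eq, (q2.trans q1.symm).finrank_eq]

end Vale.Agent.P247E
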