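import Vale.Agent.P247E.Sta

/-!
# P247E: estimates up to constants, comparison of norms on the manifold and in the charts
-/

set_option linter.all false

open scoped ContDiff Topology ENNReal NNReal
open Set MeasureTheory Filter Metric

noncomputable section

namespace Vale.Agent.P247E.G

open Vale.Agent.P204.GX Vale.Agent.P204.T4
open Vale.Agent.P247.H74 (e)

/-- `A ≤ C * B` -/
def Dom {σ : Type*} (A B : σ → ℝ≥0∞) : Prop := ∃ C : ℝ≥0, ∀ s, A s ≤ C * B s

section dom

variable {σ τ : Type*} {A A' B B' : σ → ℝ≥0∞}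

theorem Dom.of_le (h : ∀ s, A s ≤ B s) : Dom A B := ⟨1, by simpa using h⟩

theorem Dom.trans (h : Dom A B) (h' : Dom B B') : Dom A B' := by
  obtain ⟨C, h⟩ := h
  obtain ⟨C', h'⟩ := h'
  exact ⟨C * C', fun s => (h s).trans (by push_cast; rw [mul_assoc]; gcongr; exact h' s)⟩

theorem Dom.add (h : Dom A B) (h' : Dom A' B) : Dom (fun s => A s + A' s) B := by
  obtain ⟨C, h⟩ := h
  obtain ⟨C', h'⟩ := h'
  exact ⟨C + C', fun s => by push_cast; rw [add_mul]; exact add_le_add (h s) (h' s)⟩

theorem Dom.add' (h : Dom A B) (h' : Dom A' B') : Dom (fun s => A s + A' s) fun s => B s + B' s :=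
  (h.trans (.of_le fun _ => le_self_add)).add (h'.trans (.of_le fun _ => le_add_self))

theorem Dom.sum {ι : Type*} {S : Finset ι} {A : ι → σ → ℝ≥0∞} (h : ∀ i, Dom (A i) B) :
    Dom (fun s => ∑ i ∈ S, A i s) B := by
  choose C h using h
  exact ⟨∑ i ∈ S, C i, fun s => by
    push_cast; rw [Finset.sum_mul]; exact Finset.sum_le_sum fun i _ => h i s⟩

theorem Dom.comp (h : Dom A B) (f : τ → σ) : Dom (fun t => A (f t)) fun t => B (f t) :=
  h.imp fun _ h t => h (f t)

variable {α G H K : Type*} [MeasurableSpace α] {μ : Measure α} [NormedAddCommGroup G]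
  [NormedAddCommGroup H] [NormedAddCommGroup K] {p : ℝ≥0∞}

theorem dom_pt {f : σ → α → G} {g : σ → α → H} (C : ℝ) (h : ∀ s, ∀ᵐ x ∂μ, ‖f s x‖ ≤ C * ‖g s x‖) :
    Dom (fun s => eLpNorm (f s) p μ) fun s => eLpNorm (g s) p μ :=
  ⟨C.toNNReal, fun s => eLpNorm_le_mul_eLpNorm_of_ae_le_mul (h s) p⟩

theorem dom_sum {ι : Type*} [Fintype ι] (hp : 1 ≤ p) {f : σ → α → G} {g : ι → σ → α → H} (C : ℝ)
    (hg : ∀ i s, AEStronglyMeasurable (g i s) μ)
    (h : ∀ s, ∀ᵐ x ∂μ, ‖f s x‖ ≤ C * ∑ i, ‖g i s x‖) :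
    Dom (fun s => eLpNorm (f s) p μ) fun s => ∑ i, eLpNorm (g i s) p μ :=
  (dom_pt (g := fun s => ∑ i, fun x => ‖g i s x‖) C fun s => (h s).mono fun x hx => by
    rwa [Finset.sum_apply, Real.norm_of_nonneg (Finset.sum_nonneg fun _ _ => norm_nonneg _)]).trans
    (.of_le fun s => (eLpNorm_sum_le (fun i _ => (hg i s).norm) hp).trans (by simp))

theorem dom_pt2 (hp : 1 ≤ p) {f : σ → α → G} {g : σ → α → H} {k : σ → α → K} (C : ℝ)
    (hg : ∀ s, AEStronglyMeasurable (g s) μ) (hk : ∀ s, AEStronglyMeasurable (k s) μ)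
    (h : ∀ s, ∀ᵐ x ∂μ, ‖f s x‖ ≤ C * (‖g s x‖ + ‖k s x‖)) :
    Dom (fun s => eLpNorm (f s) p μ) fun s => eLpNorm (g s) p μ + eLpNorm (k s) p μ :=
  (dom_pt (g := fun s => (fun x => ‖g s x‖) + fun x => ‖k s x‖) C fun s => (h s).mono fun x hx => by
    rwa [Pi.add_apply, Real.norm_of_nonneg (by positivity)]).trans
    (.of_le fun s => (eLpNorm_add_le (hg s).norm (hk s).norm hp).trans (by simp))

theorem dom_supp {f : σ → α → G} {S : Set α} (h : ∀ s x, x ∉ S → f s x = 0) :
    Dom (fun s => eLpNorm (f s) p μ) fun s => eLpNorm (f s) p (μ.restrict S) :=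
  .of_le fun s => (eLpNorm_restrict_eq_of_support_subset fun x hx =>
    by_contra fun k => hx (h s x k)).ge

theorem dom_meas {ν : Measure α} {c : ℝ≥0} (h : μ ≤ (c : ℝ≥0∞) • ν) :
    Dom (fun f : α → G => eLpNorm f p μ) fun f => eLpNorm f p ν :=
  ⟨c ^ (1 / p).toReal, fun f => (eLpNorm_le_of_measure_le_smul h).trans
    (by rw [ENNReal.coe_rpow_of_nonneg _ ENNReal.toReal_nonneg, smul_eq_mul])⟩

end dom

variable {X : Type} [MetricSpace X] [MeasurableSpace X] [BorelSpace X] (M : CM X)
  {G : Type*} [NormedAddCommGroup G] {p : ℝ≥0∞}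

theorem mu_res (a : M.A) {K : Set V4} (hK : MeasurableSet K) : M.mu.restrict (M.ψ a '' K) =
    ((volume.restrict K).withDensity fun y => ENNReal.ofReal (det4 (M.m a y))).map (M.ψ a) := by
  have h := (M.measurableEmbedding_ψ a).measurableSet_image.2 hK
  rw [← inter_eq_left.2 (image_subset_range (M.ψ a) K), ← Measure.restrict_restrict h,
    M.mu_restrict, Measure.restrict_map (M.measurable_ψ a) h, preimage_image_eq _ (M.ψ_inj a),
    restrict_withDensity hK]

/-- from the manifold to the chart -/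
theorem dom_X (a : M.A) {K : Set V4} (hK : IsCompact K) :
    Dom (fun g : X → G => eLpNorm g p (M.mu.restrict (M.ψ a '' K)))
      fun g => eLpNorm (g ∘ M.ψ a) p (volume.restrict K) := by
  obtain ⟨C, hC⟩ := hK.exists_bound_of_continuousOn (M.continuous_det_m a).continuousOn
  simp only [← (M.measurableEmbedding_ψ a).eLpNorm_map_measure]
  refine dom_meas (c := C.toNNReal) ?_
  rw [mu_res M a hK.measurableSet, ← Measure.map_smul, ← withDensity_const]
  exact Measure.map_mono (withDensity_mono ((ae_restrict_mem hK.measurableSet).mono fun y hy =>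
    ENNReal.ofReal_le_ofReal ((le_abs_self _).trans (hC y hy)))) (M.measurable_ψ a)

/-- from the chart to the manifold -/
theorem dom_R (a : M.A) {K : Set V4} (hK : IsCompact K) :
    Dom (fun g : X → G => eLpNorm (g ∘ M.ψ a) p (volume.restrict K)) fun g => eLpNorm g p M.mu := by
  obtain ⟨C, hC⟩ := hK.exists_bound_of_continuousOn
    ((M.continuous_det_m a).inv₀ fun y => (M.m_det a y).ne').continuousOn
  simp only [← (M.measurableEmbedding_ψ a).eLpNorm_map_measure]
  refine (dom_meas (c := C.toNNReal) (ν := M.mu.restrict (M.ψ a '' K)) ?_).trans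
    (.of_le fun g => eLpNorm_mono_measure _ Measure.restrict_le_self)
  rw [mu_res M a hK.measurableSet, ← Measure.map_smul, ← withDensity_smul' _ _ ENNReal.coe_ne_top]
  refine Measure.map_mono ?_ (M.measurable_ψ a)
  conv_lhs => rw [← withDensity_one (μ := volume.restrict K)]
  refine withDensity_mono ((ae_restrict_mem hK.measurableSet).mono fun y hy => ?_)
  have h1 := (le_abs_self _).trans (hC y hy)
  have h2 := M.m_det a y
  show 1 ≤ ENNReal.ofReal C * _
  rw [← ENNReal.ofReal_mul ((inv_pos.2 h2).le.trans h1), ENNReal.one_le_ofReal]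
  exact (inv_le_iff_one_le_mul₀ h2).1 h1

variable {M} {V W : Type} [NormedAddCommGroup V] [InnerProductSpace ℝ V]
  [NormedAddCommGroup W] [InnerProductSpace ℝ W] (E : Bun M V)

omit [MeasurableSpace X] [BorelSpace X]

theorem norm_lo (a : M.A) (s : X → V) (y : V4) : ‖E.lo a s y‖ = ‖s (M.ψ a y)‖ := by
  rw [← E.u_norm a y, Bun.lo, E.u_u']

theorem norm_nab (a : M.A) (i : Fin 4) (s : X → V) (y : V4) :
    ‖E.nab a i s (M.ψ a y)‖ = M.zl a y * ‖fderiv ℝ (E.lo a s) y (e i)‖ := by
  rw [Bun.nab, norm_smul, E.u_norm, M.inv_ψ, Real.norm_of_nonneg (M.zeta_nonneg _ _), CM.zl]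

theorem le_jet (s : X → V) (x : X) : ‖s x‖ ≤ ‖E.jet s x‖ :=
  PiLp.norm_apply_le (E.jet s x) none

theorem nab_le_jet (a : M.A) (i : Fin 4) (s : X → V) (x : X) : ‖E.nab a i s x‖ ≤ ‖E.jet s x‖ :=
  PiLp.norm_apply_le (E.jet s x) (some (a, i))

theorem jet_le (s : X → V) (x : X) : ‖E.jet s x‖ ≤ ∑ o, ‖E.jet s x o‖ := by
  rw [PiLp.norm_eq_of_L2]
  exact Real.sqrt_le_iff.2 ⟨by positivity, Finset.sum_sq_le_sq_sum_of_nonneg fun _ _ => by simp⟩

theorem opn_le (T : V4 →L[ℝ] V) : ‖T‖ ≤ ∑ i, ‖T (e i)‖ :=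
  T.opNorm_le_bound (by positivity) fun v => by
    conv_lhs => rw [pi_eq_sum_univ' v, map_sum]
    rw [Finset.sum_mul]
    refine norm_sum_le_of_le _ fun i _ => ?_
    rw [map_smul, norm_smul, mul_comm]
    exact mul_le_mul_of_nonneg_left (norm_le_pi_norm v i) (norm_nonneg _)

/-- the localisation of a section -/
def cut (a : M.A) (s : X → V) (y : V4) : V := M.zl a y • E.lo a s y

theorem cut_supp (a : M.A) (s : X → V) : tsupport (cut E a s) ⊆ closedBall 0 2 :=
  closure_minimal (fun y hy => by_contra fun h => hy (by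
    rw [cut, M.zl_eq_zero a fun k => h (ball_subset_closedBall k), zero_smul])) isClosed_closedBall

theorem cut_smooth (a : M.A) (s : E.Sm) : ContDiff ℝ ∞ (cut E a s) :=
  (M.contDiff_zl a).smul (s.2 a)

theorem cut_fderiv (a : M.A) :
    ∃ C : ℝ, ∀ (s : E.Sm) y, ‖fderiv ℝ (cut E a s) y‖ ≤ C * ‖E.jet s (M.ψ a y)‖ := by
  obtain ⟨C, hC⟩ := ((M.hasCompactSupport_zl a).fderiv ℝ).exists_bound_of_continuous
    ((M.contDiff_zl a).continuous_fderiv (by simp))
  refine ⟨4 + C, fun s y => ?_⟩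
  rw [show cut E a s = fun y => M.zl a y • E.lo a s y from rfl, fderiv_fun_smul
    ((M.contDiff_zl a).differentiable (by simp) y) ((s.2 a).differentiable (by simp) y), add_mul]
  refine norm_add_le_of_le ?_ ?_
  · rw [norm_smul, Real.norm_of_nonneg (M.zl_nonneg a y)]
    refine (mul_le_mul_of_nonneg_left (opn_le _) (M.zl_nonneg a y)).trans ?_
    rw [Finset.mul_sum]
    refine (Finset.sum_le_card_nsmul _ _ _ fun i _ =>
      (norm_nab E a i s y).ge.trans (nab_le_jet E a i s _)).trans (by simp)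
  · rw [ContinuousLinearMap.norm_smulRight_apply, norm_lo]
    exact mul_le_mul (hC y) (le_jet E s _) (norm_nonneg _) ((norm_nonneg _).trans (hC y))

variable [MeasurableSpace X] [BorelSpace X]

theorem dom_cut (a : M.A) :
    Dom (fun s : X → V => eLpNorm (cut E a s) p volume) fun s => eLpNorm s p M.mu := by
  refine (dom_supp fun s y hy => image_eq_zero_of_notMem_tsupport fun k => hy (cut_supp E a s k)).trans
    ((dom_pt 1 fun s => .of_forall fun y => ?_).trans (dom_R M a (isCompact_closedBall 0 2)))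
  rw [cut, norm_smul, norm_lo, Real.norm_of_nonneg (M.zl_nonneg a y)]
  exact mul_le_mul_of_nonneg_right (M.zeta_le_one _ _) (norm_nonneg _)

theorem dom_dcut (a : M.A) : Dom (fun s : E.Sm => eLpNorm (fderiv ℝ (cut E a s)) p volume)
    fun s => eLpNorm (E.jet s) p M.mu := by
  obtain ⟨C, hC⟩ := cut_fderiv E a
  exact (dom_supp fun (s : E.Sm) y hy => by_contra fun k => hy (cut_supp E a s
    (support_fderiv_subset ℝ (f := cut E a s) k))).trans ((dom_pt C fun s => .of_forall fun y => hC s y).trans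
    ((dom_R M a (isCompact_closedBall 0 2)).comp fun s : E.Sm => E.jet s))

theorem meas_zeta (a : M.A) : Measurable (M.zeta a) := by
  have h : ∀ (c : M.A) (g : V4 → ℝ), Continuous g → Measurable (M.ext0 c g) := fun c g hg => by
    refine measurable_of_restrict_of_restrict_compl (M.isOpen_range c).measurableSet ?_ ?_
    · rw [← (M.ψo c).isEmbedding.toHomeomorph.toMeasurableEquiv.measurable_comp_iff]
      exact (hg.congr fun y => (M.ext0_ψ_self c g y).symm).measurable
    · rw [show (range (M.ψ c))ᶜ.domRestrict (M.ext0 c g) = fun _ => 0 from funext fun x => if_neg x.2]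
      exact measurable_const
  exact (h a _ chi.continuous).div (Finset.measurable_sum _ fun c _ => h c _ chi.continuous)

theorem dom_uncut (hp : 1 ≤ p) : Dom (fun s : {s : X → V // AEStronglyMeasurable s M.mu} =>
    eLpNorm s.1 p M.mu) fun s => ∑ a, eLpNorm (cut E a s.1) p volume := by
  refine (dom_sum hp (g := fun a s x => M.zeta a x • s.1 x) 1
    (fun a s => (meas_zeta a).aestronglyMeasurable.smul s.2) fun s => .of_forall fun x => ?_).trans
    (.sum fun a => ?_)
  · rw [one_mul]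
    exact le_trans (by rw [← Finset.sum_smul, M.sum_zeta, one_smul]) (norm_sum_le _ _)
  refine (dom_supp fun s x k => by
    rw [M.zeta_eq_zero a fun q => k (image_mono ball_subset_closedBall q), zero_smul]).trans
    (((dom_X M a (isCompact_closedBall 0 2)).comp _).trans (.of_le fun s => le_trans ?_
    (Finset.single_le_sum (f := fun a => eLpNorm (cut E a s.1) p volume) (fun _ _ => zero_le)
      (Finset.mem_univ a))))
  refine (eLpNorm_mono_measure _ Measure.restrict_le_self).trans (eLpNorm_mono fun y => ?_)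
  simp only [cut, norm_smul, norm_lo, Function.comp, CM.zl, le_refl]

end Vale.Agent.P247E.G
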