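import Vale.Agent.P247E.GRel

/-!
# P247E: row `GAR`
-/

set_option linter.all false

open scoped ContDiff Topology ENNReal NNReal
open Set MeasureTheory Filter Metric

noncomputable section

namespace Vale.Agent.P247E.G

open Vale.Agent.P204.GX Vale.Agent.P204.T4
open Vale.Agent.P247.H74 (e)
open Vale.Agent.P247.H447.E5 (Gar)

variable {V W : Type} [NormedAddCommGroup V] [NormedSpace ℝ V] [NormedAddCommGroup W]
  [NormedSpace ℝ W]

/-- the interior estimate -/
theorem gar_int {Mi : Fin 4 → V4 → V →L[ℝ] W} {N : V4 → V →L[ℝ] W} (hM : ∀ i, Continuous (Mi i))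
    (hN : Continuous N) (hG : Gar Mi) (i : Fin 4) :
    Dom (fun f : {f : V4 → V // ContDiff ℝ ∞ f} =>
      eLpNorm (fun y => fderiv ℝ f.1 y (e i)) 2 (volume.restrict (closedBall 0 2))) fun f =>
      eLpNorm (fun y => ∑ j, Mi j y (fderiv ℝ f.1 y (e j)) + N y (f.1 y)) 2
        (volume.restrict (closedBall 0 3)) + eLpNorm f.1 2 (volume.restrict (closedBall 0 3)) := by
  have c1 : ∀ (f : {f : V4 → V // ContDiff ℝ ∞ f}) j, Continuous fun y => fderiv ℝ f.1 y (e j) :=
    fun f j => (f.2.continuous_fderiv (by simp)).clm_apply continuous_const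
  generalize hR : (fun f : {f : V4 → V // ContDiff ℝ ∞ f} =>
    eLpNorm (fun y => ∑ j, Mi j y (fderiv ℝ f.1 y (e j)) + N y (f.1 y)) 2
      (volume.restrict (closedBall 0 3)) + eLpNorm f.1 2 (volume.restrict (closedBall 0 3))) = R
  refine (isCompact_closedBall (0 : V4) 2).induction_on (p := fun K => Dom
    (fun f : {f : V4 → V // ContDiff ℝ ∞ f} =>
    eLpNorm (fun y => fderiv ℝ f.1 y (e i)) 2 (volume.restrict K)) R) (.of_le (by simp))
    (fun s t h ht => .trans (.of_le fun f => eLpNorm_mono_measure _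
      (Measure.restrict_mono h le_rfl)) ht) (fun s t hs ht => .trans (.of_le fun f => ?_)
      (hs.add ht)) fun x hx => ?_
  · refine (eLpNorm_mono_measure _ (Measure.restrict_union_le s t)).trans ?_
    simp only [eLpNorm_eq_lintegral_rpow_enorm_toReal two_ne_zero ENNReal.ofNat_ne_top,
      lintegral_add_measure]
    exact ENNReal.rpow_add_le_add_rpow _ _ (by simp) (by norm_num)
  subst hR
  obtain ⟨r, hr, C, hC⟩ := hG x
  have r0 : 0 < min r 1 := lt_min hr one_pos
  let χ : ContDiffBump x := ⟨min r 1 / 4, min r 1 / 2, by positivity, by linarith⟩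
  have hχ : ∀ y, y ∉ closedBall (0 : V4) 3 → y ∉ tsupport χ := fun y hy k => hy (by
    rw [χ.tsupport_eq] at k
    exact closedBall_subset_closedBall' (by
      have := min_le_right r 1
      simp only [χ, mem_closedBall] at *; linarith) k)
  obtain ⟨B, hB⟩ := (isCompact_closedBall (0 : V4) 3).exists_bound_of_continuousOn
    (f := fun y => ∑ j, ‖fderiv ℝ χ y (e j)‖ * ‖Mi j y‖ + ‖N y‖) (Continuous.continuousOn (by
      have := (χ.contDiff (n := 1)).continuous_fderiv (by simp)
      fun_prop))
  have d : ∀ (f : {f : V4 → V // ContDiff ℝ ∞ f}) y j, fderiv ℝ (fun y => χ y • f.1 y) y (e j) =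
      χ y • fderiv ℝ f.1 y (e j) + fderiv ℝ χ y (e j) • f.1 y := fun f y j => by
    rw [fderiv_fun_smul ((χ.contDiff (n := 1)).differentiable (by simp) y)
      (f.2.differentiable (by simp) y)]
    simp
  refine ⟨ball x χ.rIn, mem_nhdsWithin_of_mem_nhds (ball_mem_nhds _ χ.rIn_pos),
    Dom.trans (B := fun f => eLpNorm (fun y => ∑ j, Mi j y (fderiv ℝ (fun y => χ y • f.1 y) y (e j)))
      2 volume + eLpNorm (fun y => χ y • f.1 y) 2 volume) ⟨C, fun f => le_trans ?_ (hC _
        (χ.contDiff.smul f.2) χ.hasCompactSupport.smul_right ((tsupport_smul_subset_left _ _).trans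
          (χ.tsupport_eq ▸ closedBall_subset_ball (by
            have := min_le_left r 1
            simp only [χ]; linarith))) i)⟩ (.add ?_ ?_)⟩
  · refine (eLpNorm_congr_ae ((ae_restrict_mem measurableSet_ball).mono fun y hy => ?_)).le.trans
      (eLpNorm_mono_measure _ Measure.restrict_le_self)
    refine ((d f y i).trans ?_).symm
    simp [χ.one_of_mem_closedBall (ball_subset_closedBall hy),
      (χ.eventuallyEq_one_of_mem_ball hy).fderiv_eq]
  · refine (dom_supp fun f y hy => ?_).trans (dom_pt2 one_le_two (1 + B) (fun f => ?_)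
      (fun f => f.2.continuous.aestronglyMeasurable) fun f =>
        (ae_restrict_mem measurableSet_closedBall).mono fun y hy => ?_)
    · simp [d, image_eq_zero_of_notMem_tsupport (hχ y hy),
        fderiv_of_notMem_tsupport ℝ (hχ y hy)]
    · have := f.2.continuous
      have := c1 f
      exact Continuous.aestronglyMeasurable (by fun_prop)
    · have h1 := (le_abs_self _).trans (hB y hy)
      have h2 : ‖χ y‖ ≤ 1 := by rw [Real.norm_of_nonneg χ.nonneg]; exact χ.le_one
      rw [show ∑ j, Mi j y (fderiv ℝ (fun y => χ y • f.1 y) y (e j)) =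
        χ y • (∑ j, Mi j y (fderiv ℝ f.1 y (e j)) + N y (f.1 y)) +
          (∑ j, fderiv ℝ χ y (e j) • Mi j y (f.1 y) - χ y • N y (f.1 y)) by
        simp [d, Finset.sum_add_distrib, Finset.smul_sum]]
      have h3 : ‖∑ j, fderiv ℝ χ y (e j) • Mi j y (f.1 y) - χ y • N y (f.1 y)‖ ≤ B * ‖f.1 y‖ := by
        refine le_trans ?_ (mul_le_mul_of_nonneg_right h1 (norm_nonneg _))
        rw [add_mul, Finset.sum_mul]
        refine norm_sub_le_of_le (norm_sum_le_of_le _ fun j _ => ?_) ?_
        · rw [norm_smul, mul_assoc]; gcongr; exact (Mi j y).le_opNorm _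
        · rw [norm_smul]
          exact (mul_le_of_le_one_left (norm_nonneg _) h2).trans ((N y).le_opNorm _)
      have h4 : 0 ≤ B := le_trans (by positivity) h1
      refine (norm_add_le_of_le ((norm_smul_le _ _).trans
        (mul_le_of_le_one_left (norm_nonneg _) h2)) h3).trans ?_
      nlinarith [norm_nonneg (f.1 y), norm_nonneg (∑ j, Mi j y (fderiv ℝ f.1 y (e j)) + N y (f.1 y))]
  · refine (dom_supp fun f y hy => ?_).trans ((dom_pt 1 fun f => .of_forall fun y => ?_).trans
      (.of_le fun f => le_add_self))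
    · simp [image_eq_zero_of_notMem_tsupport (hχ y hy)]
    · rw [norm_smul, Real.norm_of_nonneg χ.nonneg]
      exact mul_le_mul_of_nonneg_right χ.le_one (norm_nonneg _)

theorem GAR (hB : BAS_statement) : GAR_statement := by
  intro X _ _ _ _ M V W _ _ _ _ _ _ E F P hP
  obtain ⟨h1, h2, -, -, h5, -, h7⟩ := hB X M V W E F
  obtain ⟨-, -, -, h7⟩ := h7 P
  have : CompleteSpace V := FiniteDimensional.complete ℝ V
  obtain ⟨C, hC⟩ : Dom (fun s : E.Sm => eLpNorm (E.jet s) 2 M.mu)
      fun s => eLpNorm (P.app s) 2 M.mu + eLpNorm s.1 2 M.mu := by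
    refine (dom_sum one_le_two (g := fun o (s : E.Sm) x => E.jet s x o) 1 (fun o s =>
      (jproj M V o).continuous.comp_aestronglyMeasurable (h1 s s.2).2.2.1.aestronglyMeasurable)
      fun s => .of_forall fun x => by rw [one_mul]; exact jet_le E s x).trans (.sum ?_)
    rintro (_ | ⟨a, i⟩)
    · exact .of_le fun _ => le_add_self
    refine (dom_supp (f := fun s : E.Sm => E.nab a i s) fun s x k => by
      rw [Bun.nab, M.zeta_eq_zero a fun q => k (image_mono ball_subset_closedBall q),
        zero_smul]).trans (((dom_X M a (isCompact_closedBall 0 2)).comp _).trans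
      ((dom_pt 1 fun s => .of_forall fun y => ?_).trans (((gar_int
        (fun i => (P.Mi_smooth a i).continuous) (P.N_smooth a).continuous (hP a) i).comp
        fun s : E.Sm => ⟨E.lo a s, s.2 a⟩).trans (.add' ?_ ?_))))
    · rw [Function.comp, norm_nab]
      exact mul_le_mul_of_nonneg_right (M.zeta_le_one _ _) (norm_nonneg _)
    · refine .trans (.of_le fun s => eLpNorm_mono fun y => ?_)
        ((dom_R M a (isCompact_closedBall 0 3)).comp fun s : E.Sm => P.app s)
      rw [Function.comp, ← norm_lo F, (h7 s s.2).2.1 a]; rfl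
    · exact .trans (.of_le fun s => eLpNorm_mono fun y => (norm_lo E a s y).le)
        ((dom_R M a (isCompact_closedBall 0 3)).comp fun s : E.Sm => s.1)
  refine ⟨C + 1, by positivity, fun w => h2.induction (fun w ⟨s, hs, hr⟩ => ?_)
    (isClosed_le (by fun_prop) (by fun_prop)) w⟩
  have := hC ⟨s, hs⟩
  simp only [rep_norm hr, ← eLpNorm_congr_ae ((h7 s hs).2.2.2 w hr), ← eLpNorm_congr_ae (h5 w s hr),
    ← Lp.enorm_def, ← ofReal_norm_eq_enorm] at this
  rw [← ENNReal.ofReal_add (norm_nonneg _) (norm_nonneg _), ← ENNReal.ofReal_coe_nnreal,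
    ← ENNReal.ofReal_mul C.coe_nonneg, ENNReal.ofReal_le_ofReal_iff (by positivity)] at this
  exact this.trans (by gcongr; simp)

end Vale.Agent.P247E.G
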