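import Vale.Agent.P247E.Loc
import Vale.Agent.P247.H109.LRk
import Vale.Agent.P247.H94.LRC5

/-!
# P247E: the row `REG`
-/

open scoped ContDiff Topology ENNReal NNReal
open Set MeasureTheory Filter Metric

set_option linter.all false

noncomputable section

namespace Vale.Agent.P247E

open Vale.Agent.P204.GX Vale.Agent.P204.T4
open Vale.Agent.P247.H447.E5

variable {X : Type} [MetricSpace X] [MeasurableSpace X] [BorelSpace X] {M : CM X}
variable {V W : Type} [NormedAddCommGroup V] [InnerProductSpace ℝ V] [FiniteDimensional ℝ V]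
  [NormedAddCommGroup W] [InnerProductSpace ℝ W] [FiniteDimensional ℝ W] {E : Bun M V} {F : Bun M W}

theorem Bun.rep_of_J (E : Bun M V) {w : E.H1} {s : X → V} (hs : s ∈ E.Sm)
    (h : (E.J w : X → V) =ᵐ[M.mu] s) : E.Rep w s :=
  E.J_inj (Lp.ext (h.trans (E.rep_jw hs).J_ae.symm)) ▸ E.rep_jw hs

theorem Op.reg (P : Op E F) (hP : P.Gar) (w : E.H1) (k : ℕ) (h : F.SobX k (P.clm w)) :
    E.SobX (k + 1) (E.J w) := fun a => by
  obtain ⟨Pd, h1, h2⟩ := E.loc_wd F w a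
  have h3 := E.ll_lo a (Lp.memLp (E.J w))
  replace h := h a
  induction k with
  | zero => exact ⟨h3, fun i => ⟨_, (h1 i).2, (h1 i).1⟩⟩
  | succ k ih =>
    exact P247.H109.LRk P247.H94.LR.LRC V W _ (P.Mi_smooth a) (hP a) (k + 1) _ _ Pd (by omega)
      (sob_add h (sob_neg (P247.H399.Emb.PROD _ _ _ (ContinuousLinearMap.id ℝ (V →L[ℝ] W)) (k + 4)
        _ _ _ _ (sob_of_contDiff (P.N_smooth a) _) (ih (h.mono k.le_succ)) (by omega) le_rfl
        (by omega)))) h3 (fun i => (h1 i).1) (fun i => (h1 i).2)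
      ((h2 P).mono fun y hy => by simp [hy])

theorem Op.reg_sm (P : Op E F) (hP : P.Gar) (w : E.H1) {g : X → W} (hg : g ∈ F.Sm)
    (h : (P.clm w : X → W) =ᵐ[M.mu] g) : ∃ s ∈ E.Sm, E.Rep w s ∧ P.app s = g := by
  obtain ⟨s, hs, h1⟩ := E.sm_of_sob fun k a => (P.reg hP w k (fun b => sob_congr
    (sob_of_contDiff (hg b) k) (F.ae_lo.1 h b).symm) a).mono k.le_succ
  have h2 := E.rep_of_J hs h1
  exact ⟨s, hs, h2, F.eq_of_ae (P.app_mem hs) hg ((h2.clm_ae hs P).symm.trans h)⟩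

theorem REG : REG_statement := fun _ _ _ _ _ _ _ _ _ _ _ _ _ _ _ _ P hP w =>
  ⟨P.reg hP w, fun _ => P.reg_sm hP w⟩

end Vale.Agent.P247E
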