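import Vale.Agent.P247E.Adj

set_option linter.all false

/-! P247E: weak solutions are strong solutions (`WS`). -/

open scoped ContDiff Topology ENNReal NNReal
open Set MeasureTheory Filter

noncomputable section

namespace Vale.Agent.P247E

open Vale.Agent.P204.GX Vale.Agent.P204.T4
open Vale.Agent.P247.H74 (e)
open Vale.Agent.P247.H306 (LL Sob)

variable {V W : Type} [NormedAddCommGroup V] [InnerProductSpace ℝ V] [FiniteDimensional ℝ V]
  [NormedAddCommGroup W] [InnerProductSpace ℝ W] [FiniteDimensional ℝ W]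

theorem ll_clm {N : V4 → V →L[ℝ] W} (hN : Continuous N) {f : V4 → V} (hf : LL 2 f) :
    LL 2 fun y => N y (f y) := fun K hK => by
  obtain ⟨C, hC⟩ := hK.exists_bound_of_continuousOn hN.continuousOn
  refine (hf K hK).of_le_mul (c := C) ((ContinuousLinearMap.id ℝ (V →L[ℝ] W)
    ).aestronglyMeasurable_comp₂ hN.aestronglyMeasurable (hf K hK).1) ?_
  filter_upwards [ae_restrict_mem hK.measurableSet] with y hy
  exact (N y).le_of_opNorm_le (hC y hy) _

/-- the pairing of a locally square integrable function with a test function is integrable -/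
theorem integrable_inner_ll {f φ : V4 → V} (hf : LL 2 f) (hφ : Continuous φ)
    (hc : HasCompactSupport φ) : Integrable fun y => inner ℝ (f y) (φ y) := by
  obtain ⟨C, hC⟩ := hφ.bounded_above_of_compact_support hc
  have h0 : ∀ y ∉ tsupport φ, inner ℝ (f y) (φ y) = 0 := fun y hy => by
    rw [image_eq_zero_of_notMem_tsupport hy, inner_zero_right]
  rw [← integrableOn_iff_integrable_of_support_subset (s := tsupport φ)
    fun y hy => by_contra fun h => hy (h0 y h)]
  haveI : IsFiniteMeasure (volume.restrict (tsupport φ)) :=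
    isFiniteMeasure_restrict.2 hc.isCompact.measure_lt_top.ne
  have h1 : Integrable f (volume.restrict (tsupport φ)) := (hf _ hc).integrable one_le_two
  refine (h1.norm.mul_const C).mono' (h1.1.inner hφ.aestronglyMeasurable) (.of_forall fun y => ?_)
  exact (norm_inner_le_norm _ _).trans (mul_le_mul_of_nonneg_left (hC y) (norm_nonneg _))

/-- the adjoint applied to a function divided by the density -/
theorem adj_div {Mi : Fin 4 → V4 → V →L[ℝ] W} (N : V4 → V →L[ℝ] W) {r : V4 → ℝ} {φ : V4 → W}
    {y : V4} (hr : DifferentiableAt ℝ r y) (h0 : r y ≠ 0) (hφ : DifferentiableAt ℝ φ y) (v : V) :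
    inner ℝ v (locOp (adjM Mi) (adjN Mi N r) (fun z => (r z)⁻¹ • φ z) y) * r y =
      inner ℝ (N y v) (φ y) - ∑ i, (inner ℝ (Mi i y v) (fderiv ℝ φ y (e i)) +
        inner ℝ (fderiv ℝ (Mi i) y (e i) v) (φ y)) := by
  have h1 : ∀ i, fderiv ℝ (fun z => (r z)⁻¹ • φ z) y (e i) = (r y)⁻¹ • fderiv ℝ φ y (e i) +
      (-((r y) ^ 2)⁻¹ * fderiv ℝ r y (e i)) • φ y := fun i => by
    have a1 : HasFDerivAt (fun z => (r z)⁻¹) (-(r y ^ 2)⁻¹ • fderiv ℝ r y) y :=
      (hasDerivAt_inv h0).comp_hasFDerivAt y hr.hasFDerivAt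
    rw [(a1.fun_smul hφ.hasFDerivAt).fderiv]
    simp
  simp only [h1, locOp, adjM, adjN, inner_add_left, inner_add_right,
    ContinuousLinearMap.neg_apply, inner_neg_right, inner_adjL, ContinuousLinearMap.sub_apply,
    ContinuousLinearMap.add_apply, ContinuousLinearMap.smul_apply,
    inner_sub_left, real_inner_smul_left, real_inner_smul_right, Fin.sum_univ_four]
  field_simp
  ring

theorem WS (hB : BAS_statement) (hL : LOC_statement) (h0 : WS0_statement) : WS_statement := by
  intro X _ _ _ _ M V W _ _ _ _ _ _ E F P P' hA hG f g hw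
  have hf : E.SobX 1 f := fun a => by
    have lf := E.ll_lo a (Lp.memLp f)
    have lg := F.ll_lo a (Lp.memLp g)
    have lN := ll_clm (P.N_smooth a).continuous lf
    refine h0 V W (P.Mi a) (P.Mi_smooth a) (hG a) _ (fun y => F.lo a g y - P.N a y (E.lo a f y))
      lf (fun K hK => (lg K hK).sub (lN K hK)) fun φ hφ hc => ?_
    have cr := contDiff_rho (M := M) a
    have r0 : ∀ y, rho M a y ≠ 0 := fun y => (rho_pos a y).ne'
    have c1 : ContDiff ℝ ∞ fun z => (rho M a z)⁻¹ • φ z := (cr.inv r0).smul hφ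
    have k1 : HasCompactSupport fun z => (rho M a z)⁻¹ • φ z := hc.smul_left
    have ht := F.ext_mem a c1 k1
    have t0 : ∀ x ∉ M.ψ a '' tsupport φ, F.ext a (fun z => (rho M a z)⁻¹ • φ z) x = 0 :=
      fun x hx => F.ext_zero a (fun z hz => by
        rw [image_eq_zero_of_notMem_tsupport hz, smul_zero]) hx
    have hC : IsClosed (M.ψ a '' tsupport φ) := (hc.isCompact.image (M.continuous_ψ a)).isClosed
    have e1 := hw _ ht
    simp only [real_inner_comm _ ((f : X → V) _), real_inner_comm _ ((g : X → W) _)] at e1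
    rw [E.pair_chart a (fun x hx => P'.app_zero hC t0 fun h => hx (image_subset_range _ _ h)),
      F.pair_chart a (fun x hx => t0 x fun h => hx (image_subset_range _ _ h)), P'.lo_app ht,
      F.lo_ext, hA.locOp_eq a c1 k1] at e1
    have e2 : ∀ y, inner ℝ (P.adjLoc a (fun z => (rho M a z)⁻¹ • φ z) y) (E.lo a f y) * rho M a y
        = inner ℝ (P.N a y (E.lo a f y)) (φ y) -
          ∑ i, (inner ℝ (P.Mi a i y (E.lo a f y)) (fderiv ℝ φ y (e i)) +
            inner ℝ (fderiv ℝ (P.Mi a i) y (e i) (E.lo a f y)) (φ y)) := fun y => by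
      rw [real_inner_comm]
      exact adj_div _ (cr.differentiable (by simp) y) (r0 y) (hφ.differentiable (by simp) y) _
    have e3 : ∀ y, inner ℝ ((rho M a y)⁻¹ • φ y) (F.lo a g y) * rho M a y =
        inner ℝ (F.lo a g y) (φ y) := fun y => by
      rw [real_inner_smul_left, real_inner_comm]
      field_simp [r0 y]
    simp only [e2, e3] at e1
    have i1 := integrable_inner_ll lN hφ.continuous hc
    have i2 := integrable_inner_ll lg hφ.continuous hc
    have i3 : Integrable fun y => ∑ i, (inner ℝ (P.Mi a i y (E.lo a f y)) (fderiv ℝ φ y (e i)) +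
        inner ℝ (fderiv ℝ (P.Mi a i) y (e i) (E.lo a f y)) (φ y)) :=
      integrable_finset_sum _ fun i _ => (integrable_inner_ll
        (ll_clm (P.Mi_smooth a i).continuous lf)
        ((hφ.continuous_fderiv (by simp)).clm_apply continuous_const)
        (hc.fderiv_apply (𝕜 := ℝ) _)).add (integrable_inner_ll (ll_clm
          (((P.Mi_smooth a i).continuous_fderiv (by simp)).clm_apply continuous_const) lf)
          hφ.continuous hc)
    rw [integral_sub i1 i3] at e1
    simp only [inner_sub_left]
    rw [integral_sub i2 i1]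
    linarith
  obtain ⟨w, rfl⟩ := (hL X M V W E F).2.2.1 f hf
  refine ⟨w, rfl, ?_⟩
  obtain ⟨bF, -, dF, -, jF, -, oF⟩ := hB X M W V F E
  have c1 : Continuous fun t : LL2 M W => inner ℝ (P.clm w) t := continuous_const.inner continuous_id
  have c2 : Continuous fun t : LL2 M W => inner ℝ g t := continuous_const.inner continuous_id
  refine ext_inner_right ℝ (congrFun (Continuous.ext_on dF c1 c2 ?_))
  rintro t ⟨s, hs, hts⟩
  obtain ⟨w', hw'⟩ := (bF s hs).2.2.2.2
  have a1 := jF w' s hw'
  have a2 := ((oF P').2.2.2 s hs).2.2.2 w' hw'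
  have a3 : t = F.J w' := Lp.ext (hts.trans a1.symm)
  have a4 := ((ADJ hB X M V W E F P).2 P' hA).2 w w'
  show inner ℝ (P.clm w) t = inner ℝ g t
  rw [a3, a4, L2.inner_def, L2.inner_def]
  refine (integral_congr_ae ?_).trans ((hw s hs).trans (integral_congr_ae ?_))
  · filter_upwards [a2] with x h1 using by rw [h1]
  · filter_upwards [a1] with x h1 using by rw [h1]

end Vale.Agent.P247E
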