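import Vale.Agent.P247E.Sta
import Vale.Agent.P247.H94.LRC5
import Vale.Agent.P299.H863.Comm

/-!
# P247E: Friedrichs' lemma
-/

open scoped Topology ContDiff ENNReal NNReal
open Set Filter Metric MeasureTheory

noncomputable section

namespace Vale.Agent.P247E

open Vale.Agent.P204.T4
open Vale.Agent.P247.H74 (e)
open Vale.Agent.P247.H306 (LL Sob)
open Vale.Agent.P363.R.Sob Vale.Agent.P247.H94.LR Vale.Agent.P299.H863
open Vale.Agent.P247.H109 (dq)

namespace Ws0

variable {V W : Type} [NormedAddCommGroup V] [NormedSpace ℝ V] [CompleteSpace V]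
  [NormedAddCommGroup W] [NormedSpace ℝ W] [CompleteSpace W] [FiniteDimensional ℝ V]
  [FiniteDimensional ℝ W]

/-- the mollifier -/
abbrev rh (n : ℕ) : V4 → ℝ := (stdBump n : ContDiffBump (0 : V4)).normed volume

theorem rh_test (n : ℕ) : Test (rh n) :=
  ⟨(stdBump n).contDiff_normed, (stdBump n).hasCompactSupport_normed⟩

theorem intg {ψ : V4 → ℝ} (hψ : Test ψ) {f : V4 → V} (hf : LocallyIntegrable f) (x : V4) :
    Integrable fun z => ψ z • f (x - z) :=
  hψ.2.convolutionExists_left (ContinuousLinearMap.lsmul ℝ ℝ) hψ.continuous hf x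

theorem fd_moll (n : ℕ) {f : V4 → V} (hf : LocallyIntegrable f) (x v : V4) :
    fderiv ℝ (moll volume (stdBump n) f) x v = ∫ z, fderiv ℝ (rh n) z v • f (x - z) := by
  rw [moll, ((rh_test n).2.hasFDerivAt_convolution_left (ContinuousLinearMap.lsmul ℝ ℝ)
    ((stdBump n).contDiff_normed (n := 1)) hf x).fderiv, convolution_def,
    ContinuousLinearMap.integral_apply (((rh_test n).2.fderiv ℝ).convolutionExists_left
      (ContinuousLinearMap.precompL V4 (ContinuousLinearMap.lsmul ℝ ℝ : ℝ →L[ℝ] V →L[ℝ] V))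
      ((rh_test n).1.continuous_fderiv (by simp)) hf x)]
  rfl

theorem near {f : V4 → V} (hf : LL 2 f) {K : Set V4} (hK : IsCompact K) : ∀ᶠ n in atTop,
    eLpNorm (moll volume (stdBump n) f) 2 (volume.restrict K) ≤ eLpNorm f 2 (volume.restrict K) + 1
    ∧ eLpNorm f 2 (volume.restrict K) ≤
      eLpNorm (moll volume (stdBump n) f) 2 (volume.restrict K) + 1 := by
  filter_upwards [(Vale.Agent.P247.H109.tendsto_moll_locp one_le_two (by simp) hK
    (hf _ hK.cthickening)).eventually (ge_mem_nhds one_pos)] with n hn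
  have m1 := (moll_contDiff (stdBump n) (LL.locInt one_le_two hf)).continuous.aestronglyMeasurable
    (μ := volume.restrict K)
  have m2 := (hf K hK).1
  constructor
  · refine le_trans ?_ ((eLpNorm_add_le m2 (m1.sub m2) one_le_two).trans (by gcongr))
    rw [add_sub_cancel]
  · refine le_trans ?_ ((eLpNorm_sub_le m1 (m1.sub m2) one_le_two).trans (by gcongr))
    rw [sub_sub_cancel]

theorem ll_clm {A : V4 → V →L[ℝ] W} (hA : Continuous A) {f : V4 → V} (hf : LL 2 f) :
    LL 2 fun y => A y (f y) := fun K hK => by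
  obtain ⟨c, hc⟩ := bdd_on hA hK
  exact (hf K hK).of_le_mul (c := c) (aesm_clm hA.aestronglyMeasurable (hf K hK).1)
    ((ae_restrict_mem hK.measurableSet).mono fun x hx => (A x).le_of_opNorm_le (hc x hx) _)

/-- the commutator term -/
theorem comm {A : V4 → V →L[ℝ] W} (hA : ContDiff ℝ ∞ A) {f : V4 → V} (hf : LL 2 f) (x₀ v : V4)
    (r : ℝ) : ∃ B ≠ ⊤, ∀ n, eLpNorm (fun x => A x (fderiv ℝ (moll volume (stdBump n) f) x v) -
      fderiv ℝ (moll volume (stdBump n) fun y => A y (f y)) x v) 2
      (volume.restrict (closedBall x₀ r)) ≤ B := by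
  have hK := isCompact_closedBall x₀ (r + 1)
  obtain ⟨L, hL⟩ := (hA.of_le (by simp) : ContDiff ℝ 1 A).locallyLipschitz.locallyLipschitzOn
    |>.exists_lipschitzOnWith_of_compact hK
  have hu := (memLp_indicator_iff_restrict hK.measurableSet).2 (hf _ hK)
  refine ⟨L * ‖v‖ₑ * frC (E := V4) volume * eLpNorm (hu.1.mk _) 2 volume, ?_, fun n => ?_⟩
  · rw [← eLpNorm_congr_ae hu.1.ae_eq_mk]
    exact ENNReal.mul_ne_top (ENNReal.mul_ne_top (by finiteness) frC_ne_top) hu.2.ne
  have z1 : ∀ z, fderiv ℝ (rh n) z = 0 ∨ ‖z‖ ≤ 1 := fun z => by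
    refine or_iff_not_imp_left.2 fun k => ?_
    have := support_fderiv_subset ℝ (f := rh n) k
    rw [ContDiffBump.tsupport_normed_eq, mem_closedBall_zero_iff] at this
    exact this.trans (stdBump_rOut_le n)
  have m : ∀ x ∈ closedBall x₀ r, ∀ z : V4, ‖z‖ ≤ 1 → x - z ∈ closedBall x₀ (r + 1) :=
    fun x hx z hz => by
      rw [mem_closedBall_iff_norm, sub_right_comm]
      exact (norm_sub_le _ _).trans (add_le_add (mem_closedBall_iff_norm.1 hx) hz)
  have mg := (continuous_fr (μ := volume) (E := V4) n).measurable.ennreal_ofReal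
  have := eLpNorm_kernel_le (μ := volume) (k := fun x z => (closedBall x₀ r).indicator
    (fun x => fderiv ℝ (rh n) z v • (A x - A (x - z))) x) (mg.const_mul (L * ‖v‖ₑ))
    (fun x z => ?_) hu.1.stronglyMeasurable_mk
  · rw [lintegral_const_mul _ mg, lintegral_fr] at this
    refine le_trans (le_of_eq (eLpNorm_congr_ae ?_))
      ((eLpNorm_mono_measure _ Measure.restrict_le_self).trans this)
    filter_upwards [ae_restrict_mem measurableSet_closedBall] with x hx
    have l1 := LL.locInt one_le_two hf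
    have l2 := LL.locInt one_le_two (ll_clm hA.continuous hf)
    have t := (rh_test n).fderiv v
    rw [fd_moll n l1, fd_moll n l2, ← ContinuousLinearMap.integral_comp_comm _ (intg t l1 x),
      ← integral_sub ((A x).integrable_comp (intg t l1 x)) (intg t l2 x)]
    refine integral_congr_ae ?_
    filter_upwards [(Measure.measurePreserving_sub_left volume x).quasiMeasurePreserving.ae
      hu.1.ae_eq_mk] with z hz
    rw [indicator_of_mem hx, ← hz]
    rcases z1 z with k | k
    · simp [k]
    · simp [indicator_of_mem (m x hx z k), smul_sub]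
  · by_cases hx : x ∈ closedBall x₀ r
    · rw [indicator_of_mem hx]
      rcases z1 z with k | k
      · simp [k, ← ofReal_norm]
      have h2 := hL.norm_sub_le (closedBall_subset_closedBall (by linarith) hx) (m x hx z k)
      rw [sub_sub_cancel] at h2
      rw [← ofReal_norm, ← ofReal_norm, ← ENNReal.ofReal_coe_nnreal,
        ← ENNReal.ofReal_mul (by positivity), ← ENNReal.ofReal_mul (by positivity), norm_smul]
      refine ENNReal.ofReal_le_ofReal ((mul_le_mul ((fderiv ℝ (rh n) z).le_opNorm v) h2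
        (norm_nonneg _) (by positivity)).trans_eq (by ring))
    · simp [hx, ← ofReal_norm]

theorem ident {Mi : Fin 4 → V4 → V →L[ℝ] W} (hM : ∀ i, ContDiff ℝ ∞ (Mi i)) {f : V4 → V}
    {G : V4 → W} (hf : LL 2 f) (hw : ∀ ψ, Test ψ →
      ∫ y, ∑ i, fderiv ℝ ψ y (e i) • Mi i y (f y) = -∫ y, ψ y • G y) (n : ℕ) (x : V4) :
    ∑ j, fderiv ℝ (moll volume (stdBump n) fun y => Mi j y (f y)) x (e j) =
      moll volume (stdBump n) G x := by
  have l2 := fun j => LL.locInt one_le_two (ll_clm (hM j).continuous hf)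
  have e1 := hw _ (test_normed_sub (μ := volume) (stdBump n) x)
  have e2 : ∀ y j, fderiv ℝ (fun s => rh n (x - s)) y (e j) = -fderiv ℝ (rh n) (x - y) (e j) :=
    fun y j => by
      erw [(((rh_test n).differentiable _).hasFDerivAt.comp y
        ((hasFDerivAt_id y).const_sub x)).fderiv]
      simp
  rw [← moll_apply', ← integral_sub_left_eq_self _ volume x] at e1
  simp only [e2, sub_sub_cancel, neg_smul, Finset.sum_neg_distrib, integral_neg, neg_inj] at e1
  rw [← e1, integral_finsetSum _ fun j _ => intg ((rh_test n).fderiv _) (l2 j) x]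
  exact Finset.sum_congr rfl fun j _ => fd_moll n (l2 j) _ _

theorem loc {Mi : Fin 4 → V4 → V →L[ℝ] W} (hM : ∀ i, ContDiff ℝ ∞ (Mi i))
    (hG : Vale.Agent.P247.H447.E5.Gar Mi) {f : V4 → V} {G : V4 → W} (hf : LL 2 f) (hg : LL 2 G)
    (hw : ∀ ψ, Test ψ → ∫ y, ∑ i, fderiv ℝ ψ y (e i) • Mi i y (f y) = -∫ y, ψ y • G y) (x₀ : V4)
    (i : Fin 4) : ∃ r > 0, ∃ B ≠ ⊤, ∀ᶠ n in atTop, eLpNorm (fun x =>
      fderiv ℝ (moll volume (stdBump n) f) x (e i)) 2 (volume.restrict (ball x₀ r)) ≤ B := by
  obtain ⟨r, r0, C, hC⟩ := hG x₀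
  obtain ⟨η, h1, h2, h3, h4, h5⟩ := exists_eta x₀ (half_pos r0)
  have hK := isCompact_closedBall x₀ (r / 2)
  choose B B0 hB using fun j => comm (hM j) hf x₀ (e j) (r / 2)
  obtain ⟨c, hc⟩ := bdd_on (f := fun x => ∑ j, fderiv ℝ η x (e j) • Mi j x)
    (continuous_finsetSum _ fun j _ => ((h1.continuous_fderiv (by simp)).clm_apply
      continuous_const).smul (hM j).continuous) hK
  have f0 := (hf _ hK).2.ne
  have g0 := (hg _ hK).2.ne
  set a := eLpNorm f 2 (volume.restrict (closedBall x₀ (r / 2)))
  set b := eLpNorm G 2 (volume.restrict (closedBall x₀ (r / 2)))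
  refine ⟨r / 2 / 2, by positivity, C * ((c * (a + 1) + (b + 1 + ∑ j, B j)) + (a + 1)), by
    have := ENNReal.sum_ne_top.2 fun j (_ : j ∈ Finset.univ) => B0 j
    finiteness, ?_⟩
  filter_upwards [near hf hK, near hg hK] with n ⟨n1, _⟩ ⟨n2, _⟩
  have s1 := moll_contDiff (stdBump n) (LL.locInt one_le_two hf)
  have s2 := moll_contDiff (stdBump n) (LL.locInt one_le_two hg)
  have id := ident hM hf hw n
  set u := moll volume (stdBump n) f
  have sp : tsupport (fun x => η x • u x) ⊆ closedBall x₀ (r / 2) :=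
    closure_minimal (fun x hx => by_contra fun k => hx (by simp [h4 x k])) isClosed_closedBall
  have d : ∀ x v, fderiv ℝ (fun x => η x • u x) x v = fderiv ℝ η x v • u x + η x • fderiv ℝ u x v :=
    fun x v => by
      rw [fderiv_fun_smul (h1.differentiable (by simp) x) (s1.differentiable (by simp) x), add_comm]
      rfl
  have c1 : Continuous fun x => ∑ j, Mi j x (fderiv ℝ u x (e j)) := continuous_finsetSum _
    fun j _ => (hM j).continuous.clm_apply ((s1.continuous_fderiv (by simp)).clm_apply
      continuous_const)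
  refine le_trans ?_ ((hC (fun x => η x • u x) (h1.smul s1) (hK.of_isClosed_subset isClosed_closure sp)
    (sp.trans (closedBall_subset_ball (half_lt_self r0))) i).trans ?_)
  · refine le_trans (le_of_eq (eLpNorm_congr_ae ?_))
      (eLpNorm_mono_measure _ Measure.restrict_le_self)
    filter_upwards [ae_restrict_mem measurableSet_ball] with x hx
    rw [EventuallyEq.fderiv_eq (f₁ := fun x => η x • u x) (f := u)]
    filter_upwards [isOpen_ball.mem_nhds hx] with y hy
    rw [h3 y (ball_subset_closedBall hy), one_smul]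
  have q : (fun x => ∑ j, Mi j x (fderiv ℝ (fun x => η x • u x) x (e j))) =
      (fun x => (∑ j, fderiv ℝ η x (e j) • Mi j x) (u x)) +
        fun x => η x • ∑ j, Mi j x (fderiv ℝ u x (e j)) := by
    funext x
    simp [d, Finset.sum_add_distrib, Finset.smul_sum]
  have o : ∀ {Y : Type} [NormedAddCommGroup Y] [NormedSpace ℝ Y] (g : V4 → Y),
      eLpNorm (fun x => η x • g x) 2 volume ≤
        eLpNorm g 2 (volume.restrict (closedBall x₀ (r / 2))) := fun g => by
    simpa using eLpNorm_le_restrict (f := g) (g := fun x => η x • g x) hK.measurableSet (c := 1)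
      (fun x k => by simp [h4 x k]) fun x _ => by
        rw [norm_smul]; exact mul_le_mul_of_nonneg_right (h2 x) (norm_nonneg _)
  rw [q]
  gcongr
  · refine (eLpNorm_add_le (((continuous_finsetSum _ fun j _ => ((h1.continuous_fderiv
      (by simp)).clm_apply continuous_const).smul (hM j).continuous).clm_apply
      s1.continuous).aestronglyMeasurable) (h1.continuous.smul c1).aestronglyMeasurable
      one_le_two).trans (add_le_add ?_ ((o _).trans ?_))
    · exact (eLpNorm_le_restrict hK.measurableSet (fun x k => by simp [h5 x k]) fun x hx =>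
        ContinuousLinearMap.le_of_opNorm_le _ (hc x hx) _).trans (by gcongr)
    · let w := fun j x => Mi j x (fderiv ℝ u x (e j)) -
        fderiv ℝ (moll volume (stdBump n) fun y => Mi j y (f y)) x (e j)
      have m : ∀ j, Continuous (w j) := fun j => ((hM j).continuous.clm_apply
        ((s1.continuous_fderiv (by simp)).clm_apply continuous_const)).sub (((moll_contDiff _
          (LL.locInt one_le_two (ll_clm (hM j).continuous hf))).continuous_fderiv
            (by simp)).clm_apply continuous_const)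
      have : (fun x => ∑ j, Mi j x (fderiv ℝ u x (e j))) =
          moll volume (stdBump n) G + ∑ j, w j := by
        funext x
        simp [w, ← id]
      rw [this]
      exact (eLpNorm_add_le s2.continuous.aestronglyMeasurable
        (Finset.aestronglyMeasurable_sum _ fun j _ => (m j).aestronglyMeasurable) one_le_two).trans
        (add_le_add n2 ((eLpNorm_sum_le (fun j _ => (m j).aestronglyMeasurable) one_le_two).trans
          (Finset.sum_le_sum fun j _ => hB j n)))
  · exact (o u).trans n1

theorem moll_dq (n : ℕ) {f : V4 → V} (hf : LocallyIntegrable f) (h : ℝ) (v : V4) :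
    moll volume (stdBump n) (dq h v f) = dq h v (moll volume (stdBump n) f) := by
  funext x
  rw [dq, moll_apply, moll_apply, moll_apply,
    ← integral_sub (intg (rh_test n) hf _) (intg (rh_test n) hf _), ← integral_smul]
  congr 1
  funext z
  rw [dq, smul_comm, smul_sub, add_sub_right_comm]

theorem sob {Mi : Fin 4 → V4 → V →L[ℝ] W} (hM : ∀ i, ContDiff ℝ ∞ (Mi i))
    (hG : Vale.Agent.P247.H447.E5.Gar Mi) {f : V4 → V} {G : V4 → W} (hf : LL 2 f) (hg : LL 2 G)
    (hw : ∀ ψ, Test ψ → ∫ y, ∑ i, fderiv ℝ ψ y (e i) • Mi i y (f y) = -∫ y, ψ y • G y) :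
    Sob 1 f := by
  refine ⟨hf, fun i => Vale.Agent.P247.H109.exists_wd_fin hf fun K hK => ?_⟩
  refine hK.induction_on (p := fun K => ∃ C : ℝ≥0∞, C ≠ ⊤ ∧ ∃ h0 : ℝ, 0 < h0 ∧ ∀ h : ℝ, h ≠ 0 →
    |h| < h0 → eLpNorm (dq h (e i) f) 2 (volume.restrict K) ≤ C) ?_ ?_ ?_ fun x _ => ?_
  · exact ⟨0, by simp, 1, one_pos, fun h _ _ => by simp⟩
  · rintro s t hst ⟨B, hB, h0, k, h⟩
    exact ⟨B, hB, h0, k, fun t h1 h2 => (eLpNorm_mono_measure _
      (Measure.restrict_mono hst le_rfl)).trans (h t h1 h2)⟩
  · rintro s t ⟨B, hB, a, a0, h⟩ ⟨B', hB', b, b0, h'⟩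
    exact ⟨B + B', ENNReal.add_ne_top.2 ⟨hB, hB'⟩, min a b, lt_min a0 b0, fun τ h1 h2 =>
      (eLpNorm_mono_measure _ (Measure.restrict_union_le s t)).trans (eLpNorm_add_measure_le.trans
        (add_le_add (h τ h1 (h2.trans_le (min_le_left _ _)))
          (h' τ h1 (h2.trans_le (min_le_right _ _)))))⟩
  obtain ⟨r, r0, B, B0, hB⟩ := loc hM hG hf hg hw x i
  have hK := isCompact_closedBall x (r / 4)
  refine ⟨closedBall x (r / 4), mem_nhdsWithin_of_mem_nhds (closedBall_mem_nhds x (by positivity)),
    B + 1, by finiteness, r / 4, by positivity, fun h h1 h2 => ?_⟩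
  obtain ⟨n, n1, -, n2⟩ := (hB.and (near (LL.dq hf (e i) h) hK)).exists
  have l := LL.locInt one_le_two hf
  rw [moll_dq n l] at n2
  refine n2.trans (add_le_add_left ((Vale.Agent.P247.H109.eLpNorm_dq_le_smooth
    ((moll_contDiff _ l).of_le (by simp)) h1 (r := r / 4)
    (by rw [Vale.Agent.P247.H109.norm_smul_e]; exact h2.le) one_le_two (by simp) hK).trans
    ((eLpNorm_mono_measure _ (Measure.restrict_mono ?_ le_rfl)).trans n1)) _)
  rw [cthickening_closedBall (by positivity) (by positivity)]
  exact closedBall_subset_ball (by linarith)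

end Ws0

open Ws0 in
theorem WS0 : WS0_statement := by
  intro V W _ _ _ _ _ _ Mi hM hG f g hf hg h
  have := FiniteDimensional.complete ℝ V
  have := FiniteDimensional.complete ℝ W
  have l1 := fun i => ll_clm (((hM i).continuous_fderiv (by simp)).clm_apply
    (continuous_const (y := e i))) hf
  have l2 : LL 2 fun y => ∑ i, fderiv ℝ (Mi i) y (e i) (f y) := fun K hK =>
    memLp_finsetSum _ fun i _ => l1 i K hK
  refine sob hM hG hf (G := fun y => g y + ∑ i, fderiv ℝ (Mi i) y (e i) (f y))
    (fun K hK => (hg K hK).add (l2 K hK)) fun ψ hψ => ext_inner_left ℝ fun w => ?_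
  have i1 := integrable_finsetSum Finset.univ fun i _ => (hψ.fderiv (e i)).integrable_smul
    (LL.locInt one_le_two (ll_clm (hM i).continuous hf))
  have i2 := hψ.integrable_smul (LL.locInt one_le_two hg)
  have i3 := hψ.integrable_smul (LL.locInt one_le_two l2)
  have := h (fun y => ψ y • w) (hψ.1.smul contDiff_const) hψ.2.smul_right
  simp only [fderiv_smul_const (hψ.differentiable _), ContinuousLinearMap.smulRight_apply,
    Finset.sum_add_distrib] at this
  simp only [smul_add]
  rw [integral_add i2 i3, neg_add, inner_add_right, inner_neg_right, inner_neg_right,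
    ← integral_inner i1, ← integral_inner i2, ← integral_inner i3, ← sub_eq_add_neg,
    eq_sub_iff_add_eq, ← integral_add (i1.const_inner _) (i3.const_inner _)]
  simpa only [inner_sum, Finset.smul_sum, real_inner_smul_right, real_inner_comm,
    real_inner_smul_left, RCLike.conj_to_real] using this

end Vale.Agent.P247E
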