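import Vale.Agent.P247E.Fred
import Vale.Agent.P247E.Clg
import Vale.Agent.P247E.Ws0
import Vale.Agent.P247E.Ws
import Vale.Agent.P247E.Reg
import Vale.Agent.P247E.GGar

/-!
# P247E: the elliptic package without hypotheses; homotopy invariance of the index
-/

open scoped Topology
open Set Filter Metric MeasureTheory

noncomputable section

namespace Vale.Agent.P247E

open Vale.Agent.P204.GX Vale.Agent.P204.T4

theorem adj : ADJ_statement := ADJ BAS

theorem rel : REL_statement := G.REL BAS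

theorem gn4 : GN4_statement := G.GN4 BAS

theorem gar : GAR_statement := G.GAR BAS

theorem ws : WS_statement := WS BAS LOC WS0

theorem fred : FRED_statement := FRED BAS adj rel gar ws REG

theorem CLA : CLA_statement := by
  intro X _ _ _ _ M V W _ _ _ _ _ _ E F hd P P' h hP a y ξ hξ
  obtain ⟨c, c0, hc⟩ := hP a y ξ hξ
  refine ⟨c, c0, fun w => ?_⟩
  obtain ⟨v, rfl⟩ := (LinearMap.injective_iff_surjective_of_finrank_eq_finrank hd
    (f := (∑ i, ξ i • P.Mi a i y : V →L[ℝ] W))).1 ((injective_iff_map_eq_zero _).2 fun v hv => by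
      have := hc v
      rw [show (∑ i, ξ i • P.Mi a i y) v = 0 from hv, norm_zero] at this
      exact norm_eq_zero.1 ((mul_eq_zero.1 this.symm).resolve_left c0.ne')) w
  have : (∑ i, ξ i • P'.Mi a i y) ((∑ i, ξ i • P.Mi a i y) v) = -(c ^ 2 • v) :=
    ext_inner_left ℝ fun u => by
      rw [inner_neg_right, real_inner_smul_right, ← Clg.conf hc]
      generalize (∑ i, ξ i • P.Mi a i y) v = w
      simp only [sum_apply, smul_apply, sum_inner, inner_sum, real_inner_smul_left,
        real_inner_smul_right, ((adj X M V W E F P).2 P' h).1, mul_neg, Finset.sum_neg_distrib,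
        neg_neg]
  erw [this, hc, norm_neg, norm_smul, Real.norm_of_nonneg (sq_nonneg c)]
  ring

variable {X : Type} [MetricSpace X] [CompactSpace X] [MeasurableSpace X] [BorelSpace X] {M : CM X}
  {V W : Type} [NormedAddCommGroup V] [InnerProductSpace ℝ V] [FiniteDimensional ℝ V]
  [NormedAddCommGroup W] [InnerProductSpace ℝ W] [FiniteDimensional ℝ W]
  {E : Bun M V} {F : Bun M W}

theorem Op.Cliff.gar {P : Op E F} (h : P.Cliff) : P.Gar := fun a =>
  CLG V W _ (P.Mi_smooth a) (h a)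

theorem Op.Cliff.fr [CompleteSpace V] [CompleteSpace W] {P : Op E F} (h : P.Cliff)
    (hd : Module.finrank ℝ V = Module.finrank ℝ W) : Fa.Fr P.clm :=
  have := fred X M V W E F P _ P.isAdj_adj h.gar (CLA X M V W E F hd P _ P.isAdj_adj h).gar
  ⟨this.1, this.2.1, this.2.2.1⟩

namespace Htp

theorem cut (a : M.A) {χ : X → ℝ} (h1 : ∀ x, |χ x| ≤ 1) (h0 : ∀ x ∉ M.ψ a '' ball 0 5, χ x = 0)
    {g g' : V4 → V →L[ℝ] W} {ε : ℝ} (ε0 : 0 ≤ ε) (h : ∀ y ∈ closedBall (0 : V4) 5, ‖g y - g' y‖ ≤ ε)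
    (o : Option (M.A × Fin 4)) (x : X) (z : Jt M V) :
    ‖χ x • F.u a (M.inv a x) (g (M.inv a x) (E.u' a (M.inv a x) (jproj M V o z))) -
      χ x • F.u a (M.inv a x) (g' (M.inv a x) (E.u' a (M.inv a x) (jproj M V o z)))‖ ≤
      ε * ‖z‖ := by
  by_cases k : x ∈ M.ψ a '' ball 0 5
  · obtain ⟨y, hy, rfl⟩ := k
    rw [← smul_sub, ← map_sub, norm_smul, F.u_norm, M.inv_ψ, ← sub_apply, ← one_mul (ε * _)]
    refine mul_le_mul (h1 _) (((g y - g' y).le_of_opNorm_le (h y (ball_subset_closedBall hy))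
      _).trans ?_) (norm_nonneg _) zero_le_one
    rw [E.u'_norm]
    exact mul_le_mul_of_nonneg_left (PiLp.norm_apply_le z o) ε0
  · simp only [h0 x k, zero_smul, sub_zero, norm_zero]
    positivity

theorem near {P Q : Op E F} {ε : ℝ} (ε0 : 0 ≤ ε)
    (h1 : ∀ a i, ∀ y ∈ closedBall (0 : V4) 5, ‖P.Mi a i y - Q.Mi a i y‖ ≤ ε)
    (h2 : ∀ a, ∀ y ∈ closedBall (0 : V4) 5, ‖P.N a y - Q.N a y‖ ≤ ε) :
    ‖P.clm - Q.clm‖ ≤ Fintype.card M.A * (5 * ε) := by
  refine ContinuousLinearMap.opNorm_le_bound _ (by positivity) fun w =>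
    Lp.norm_le_mul_norm_of_ae_le_mul (g := (w : LL2 M (Jt M V))) ?_
  filter_upwards [Lp.coeFn_sub (P.clm w) (Q.clm w), P.clm_ae w, Q.clm_ae w] with x k1 k2 k3
  rw [sub_apply, k1, Pi.sub_apply, k2, k3]
  generalize (w : LL2 M (Jt M V)) x = z
  simp only [Op.sym, sum_apply, add_apply, smul_apply, ContinuousLinearMap.comp_apply,
    ← Finset.sum_sub_distrib, add_sub_add_comm]
  refine (norm_sum_le_of_le _ fun a _ => norm_add_le_of_le (norm_sum_le_of_le _ fun i _ =>
    cut a (fun x => ?_) (fun _ => M.ext0_eq_zero a fun _ => theta_zero) ε0 (h1 a i) _ x z)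
    (cut a (fun x => (abs_of_nonneg (M.zeta_nonneg a x)).trans_le (M.zeta_le_one a x))
      (fun _ k => M.zeta_eq_zero a fun k' => k (image_mono (ball_subset_ball (by norm_num)) k'))
      ε0 (h2 a) _ x z)).trans_eq (by simp; ring)
  unfold CM.ext0
  split_ifs
  · exact (abs_of_nonneg theta.nonneg).trans_le theta.le_one
  · simp

theorem unif {g : ℝ → V4 → V →L[ℝ] W}
    (h : ContinuousOn (fun q : ℝ × V4 => g q.1 q.2) (Icc 0 1 ×ˢ univ)) (s : Icc (0 : ℝ) 1) {ε : ℝ}
    (ε0 : 0 < ε) : ∀ᶠ t : Icc (0 : ℝ) 1 in 𝓝 s, ∀ y ∈ closedBall (0 : V4) 5, ‖g t y - g s y‖ ≤ ε := by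
  have c : Continuous fun q : Icc (0 : ℝ) 1 × V4 => g q.1 q.2 :=
    h.comp_continuous (f := fun q : Icc (0 : ℝ) 1 × V4 => (q.1.1, q.2)) (by fun_prop)
      fun q => ⟨q.1.2, trivial⟩
  refine (isCompact_closedBall _ _).eventually_forall_of_forall_eventually fun y _ => ?_
  exact (c.sub (c.comp (f := fun q : Icc (0 : ℝ) 1 × V4 => (s, q.2))
    (by fun_prop))).norm.continuousAt.eventually (ge_mem_nhds (by simpa using ε0))

theorem ext {P Q : Op E F} (h1 : P.Mi = Q.Mi) (h2 : P.N = Q.N) : P = Q := by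
  cases P; cases Q; congr

end Htp

open Htp in
theorem HTP : HTP_statement := by
  intro X _ _ _ _ M V W _ _ _ _ _ _ E F hd P hP h1 h2
  have := FiniteDimensional.complete ℝ V
  have := FiniteDimensional.complete ℝ W
  refine IsLocallyConstant.apply_eq_of_preconnectedSpace (f := fun t : Icc (0 : ℝ) 1 => (P t).ind)
    ((IsLocallyConstant.iff_eventually_eq _).2 fun s => ?_) 0 1
  refine Tendsto.eventually (f := fun t : Icc (0 : ℝ) 1 => (P t).clm)
    (Metric.tendsto_nhds.2 fun ε ε0 => ?_) ((hP s s.2).fr hd).ev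
  obtain ⟨δ, δ0, hδ⟩ := exists_pos_mul_lt ε0 ((Fintype.card M.A : ℝ) * 5)
  filter_upwards [eventually_all.2 fun a => eventually_all.2 fun i =>
    unif (g := fun t => (P t).Mi a i) (h1 a i) s δ0,
    eventually_all.2 fun a => unif (g := fun t => (P t).N a) (h2 a) s δ0] with t k1 k2
  exact (dist_eq_norm (P t).clm (P s).clm).trans_lt
    ((near δ0.le k1 k2).trans_lt (by rwa [← mul_assoc]))

theorem ZER : ZER_statement := by
  intro X _ _ _ _ M V W _ _ _ _ _ _ E F
  refine ⟨fun P B hB => ?_, fun hd P Q hP h => ?_⟩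
  · have e : ∀ a s y, F.u a y (locOp (P.Mi a) (fun y => P.N a y +
        (F.u' a y).comp ((B (M.ψ a y)).comp (E.u a y))) (E.lo a s) y) =
        F.u a y (locOp (P.Mi a) (P.N a) (E.lo a s) y) + B (M.ψ a y) (s (M.ψ a y)) := fun a s y => by
      simp only [locOp, add_apply, map_add, ContinuousLinearMap.comp_apply, F.u_u', E.u_lo,
        add_assoc]
    let Q : Op E F := ⟨P.Mi, fun a y => P.N a y + (F.u' a y).comp ((B (M.ψ a y)).comp (E.u a y)),
      P.Mi_smooth, fun a => (P.N_smooth a).add (hB a), fun s hs a b y hy => by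
        rw [e, e, P.compat s hs a b y hy, M.ψ_τ hy]⟩
    have e2 : ∀ s x, Q.app s x = P.app s x + B x (s x) := fun s x =>
      (e _ s _).trans (by rw [M.ψ_cy]; rfl)
    refine ⟨Q, rfl, e2, ContinuousLinearMap.ext (E.H1_ind
      (isClosed_eq Q.clm.continuous (ContinuousLinearMap.continuous _)) fun w s hs r => Lp.ext ?_)⟩
    filter_upwards [r.clm_ae hs Q, r.clm_ae hs P, r.J_ae, hB.bm.mulOp_ae (E.J w),
      Lp.coeFn_add (P.clm w) (mulOp M B (E.J w))] with x k1 k2 k3 k4 k5
    rw [k1, e2, ← k2, ← k3, ← k4]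
    exact k5.symm
  · have e : ∀ (t : ℝ) a f y, locOp (P.Mi a) (fun y => (1 - t) • P.N a y + t • Q.N a y) f y =
        (1 - t) • locOp (P.Mi a) (P.N a) f y + t • locOp (Q.Mi a) (Q.N a) f y := fun t a f y => by
      simp only [locOp, add_apply, smul_apply, h]
      module
    let R : ℝ → Op E F := fun t => ⟨P.Mi, fun a y => (1 - t) • P.N a y + t • Q.N a y, P.Mi_smooth,
      fun a => ((P.N_smooth a).const_smul _).add ((Q.N_smooth a).const_smul _),
      fun s hs a b y hy => by
        simp only [e, map_add, map_smul, P.compat s hs a b y hy, Q.compat s hs a b y hy]⟩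
    have := HTP X M V W E F hd R (fun _ _ => hP)
      (fun a i => ((P.Mi_smooth a i).continuous.comp continuous_snd).continuousOn) fun a => by
        have := (P.N_smooth a).continuous
        have := (Q.N_smooth a).continuous
        exact Continuous.continuousOn (by dsimp only [R]; fun_prop)
    rwa [Htp.ext (P := R 0) (Q := P) rfl (by ext1; simp [R]),
      Htp.ext (P := R 1) (Q := Q) h.symm (by ext1; simp [R]), eq_comm] at this

end Vale.Agent.P247E
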