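import Vale.Agent.P247E.Loc0
import Vale.Agent.P247.H399.Comp
import Vale.Agent.P247.H447.E5.Basic
import Vale.Agent.P363.R.Sob.Chain

/-!
# P247E: the row `LOC`
-/

open scoped ContDiff Topology ENNReal NNReal
open Set MeasureTheory Filter Metric

set_option linter.all false

noncomputable section

namespace Vale.Agent.P247E

open Vale.Agent.P204.GX Vale.Agent.P204.T4
open Vale.Agent.P247.H74 (e)
open Vale.Agent.P247.H306 (LL Sob)
open Vale.Agent.P247.H447.E5
open Vale.Agent.P363.R.Sob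

variable {X : Type} [MetricSpace X] [MeasurableSpace X] [BorelSpace X] {M : CM X}
variable {V W : Type} [NormedAddCommGroup V] [InnerProductSpace ℝ V] [FiniteDimensional ℝ V]
  [NormedAddCommGroup W] [InnerProductSpace ℝ W] [FiniteDimensional ℝ W] {E : Bun M V} {F : Bun M W}
variable {A B : Type} [NormedAddCommGroup A] [NormedSpace ℝ A] [NormedAddCommGroup B]
  [NormedSpace ℝ B]

theorem Bun.ae_of_jet' (E : Bun M V) (a : M.A) {G G' : V4 → Jt M V → A}
    (h1 : ∀ y, Continuous (G y)) (h2 : ∀ y, Continuous (G' y))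
    (h : ∀ s ∈ E.Sm, ∀ y, G y (E.jet s (M.ψ a y)) = G' y (E.jet s (M.ψ a y))) (w : E.H1) :
    ∀ᵐ y, G y ((w : LL2 M (Jt M V)) (M.ψ a y)) = G' y ((w : LL2 M (Jt M V)) (M.ψ a y)) := by
  obtain ⟨s, h3, -, h4⟩ := E.approx w
  exact (ae_charts.1 h4 a).mono fun y hy => tendsto_nhds_unique (((h1 y).tendsto _).comp hy)
    ((((h2 y).tendsto _).comp hy).congr fun n => (h _ (h3 n) y).symm)

theorem td_mul {u v : ℕ → ℝ≥0∞} {C : ℝ≥0∞} (hC : C ≠ ⊤) (h : Tendsto u atTop (𝓝 0))
    (k : ∀ n, v n ≤ C * u n) : Tendsto v atTop (𝓝 0) :=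
  tendsto_of_tendsto_of_tendsto_of_le_of_le tendsto_const_nhds
    (by simpa using ENNReal.Tendsto.const_mul (a := C) h (.inr hC)) (fun _ => zero_le) k

theorem td_loc {G : V4 → A →L[ℝ] B} (hG : Lb G) (a : M.A) {u : ℕ → X → A}
    (h : Tendsto (fun n => eLpNorm (u n) 2 M.mu) atTop (𝓝 0))
    (hm : ∀ n, AEStronglyMeasurable (u n) M.mu) {K : Set V4} (hK : IsCompact K) :
    Tendsto (fun n => eLpNorm (fun y => G y (u n (M.ψ a y))) 1 (volume.restrict K)) atTop (𝓝 0) := by
  obtain ⟨C, hC⟩ := hG.norm_le hK 2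
  obtain ⟨C', hC'⟩ := norm_chart a hK 2
  have := fin_restrict hK
  exact td_mul (ENNReal.rpow_ne_top_of_nonneg (by norm_num) (measure_ne_top _ _))
    (td_mul ENNReal.coe_ne_top (td_mul ENNReal.coe_ne_top h fun n => hC' _ _) fun n => hC _)
    fun n => (eLpNorm_le_eLpNorm_mul_rpow_measure_univ one_le_two
      (hG.aesm (aesm_chart a (hm n)).restrict)).trans_eq (mul_comm _ _)

theorem Bun.lo_J (E : Bun M V) (w : E.H1) (a : M.A) : E.lo a (E.J w) =ᵐ[volume]
    fun y => E.u' a y ((w : LL2 M (Jt M V)) (M.ψ a y) none) := E.ae_lo.1 (E.J_ae w) a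

theorem Bun.isWD_D (E : Bun M V) {a : M.A} {D : V4 → Jt M V →L[ℝ] V} {i : Fin 4} (h1 : Lb D)
    (h2 : ∀ s ∈ E.Sm, ∀ y, D y (E.jet s (M.ψ a y)) = fderiv ℝ (E.lo a s) y (e i)) (w : E.H1) :
    IsWD volume (e i) (E.lo a (E.J w)) fun y => D y ((w : LL2 M (Jt M V)) (M.ψ a y)) := by
  obtain ⟨s, h3, h4, -⟩ := E.approx w
  have m := fun n => (E.bm_jet (h3 n)).1.aestronglyMeasurable.sub
    (Lp.aestronglyMeasurable (w : LL2 M (Jt M V)))
  refine IsWD.of_tendsto_local (ll_locInt (E.ll_lo a (Lp.memLp _)))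
    (ll_locInt (h1.ll (ll_chart a (Lp.memLp _)))) fun K hK => ⟨fun n => E.lo a (s n),
      fun n y => fderiv ℝ (E.lo a (s n)) y (e i), fun n => isWD_of_contDiff ((h3 n a).of_le (by simp)),
      fun n => (h3 n a).continuous.locallyIntegrable, fun n => (((h3 n a).continuous_fderiv
        (by simp)).clm_apply continuous_const).locallyIntegrable,
      (td_loc ((E.lb_u' a).comp (lb_const (jproj M V none))) a h4 m hK).congr fun n =>
        eLpNorm_congr_ae (ae_restrict_of_ae ((E.lo_J w a).mono fun y hy => ?_)),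
      (td_loc h1 a h4 m hK).congr fun n => by simp only [Pi.sub_def, map_sub, h2 _ (h3 n)]⟩
  simp only [Pi.sub_apply, map_sub, hy]
  rfl

theorem Bun.loc_wd (E : Bun M V) (F : Bun M W) (w : E.H1) (a : M.A) : ∃ Pd : Fin 4 → V4 → V,
    (∀ i, LL 2 (Pd i) ∧ IsWD volume (e i) (E.lo a (E.J w)) (Pd i)) ∧
    ∀ P : Op E F, ∀ᵐ y, F.lo a (P.clm w) y =
      ∑ i, P.Mi a i y (Pd i y) + P.N a y (E.lo a (E.J w) y) := by
  obtain ⟨D, h1, h2⟩ := E.exists_D a
  refine ⟨_, fun i => ⟨(h1 i).ll (ll_chart a (Lp.memLp _)),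
    E.isWD_D (h1 i) (fun s hs => h2 s hs i) w⟩, fun P => ?_⟩
  filter_upwards [E.lo_J w a, F.ae_lo.1 (P.clm_ae w) a, E.ae_of_jet' a
    (G := fun y z => F.u' a y (P.sym (M.ψ a y) z))
    (G' := fun y z => ∑ i, P.Mi a i y (D i y z) + P.N a y (E.u' a y (z none)))
    (fun y => by fun_prop) (fun y => by fun_prop) (fun s hs y => by
      simp only [P.sym_jet hs, P.app_ψ hs, F.u'_u, h2 s hs]; rfl) w] with y k1 k2 k3
  rw [k1, k2, ← k3]; rfl

theorem Bun.J_inj (E : Bun M V) : Function.Injective E.J :=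
  (injective_iff_map_eq_zero _).2 fun w hw => Subtype.ext (Lp.ext (EventuallyEq.trans
    (ae_charts.2 fun a => by
      obtain ⟨D, h1, h2⟩ := E.exists_D a
      obtain ⟨G₀, G, -, -, -, -, h3⟩ := E.exists_G a
      have h4 : E.lo a (E.J w) =ᵐ[volume] fun _ => 0 := by
        rw [hw]
        exact (E.ae_lo.1 (Lp.coeFn_zero V 2 M.mu) a).trans (.of_forall fun y => map_zero _)
      filter_upwards [h4, E.lo_J w a, ae_all_iff.2 fun i => ((E.isWD_D (h1 i) (fun s hs => h2 s hs i)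
        w).congr h4 .rfl).unique isWD_zero (ll_locInt ((h1 i).ll (ll_chart a (Lp.memLp _))))
          (locallyIntegrable_const _), E.ae_of_jet' a (G := fun _ z => z)
        (G' := fun y z => G₀ y (E.u' a y (z none)) + ∑ i, G i y (D i y z)) (fun y => by fun_prop)
        (fun y => by fun_prop) (fun s hs y => by
          simp only [h2 s hs]; exact h3 s hs y) w] with y k1 k2 k3 k4
      rw [k4, ← k2, k1]
      simp [k3]) (Lp.coeFn_zero _ 2 M.mu).symm))

theorem Bun.ext_congr (E : Bun M V) (a : M.A) {f g : V4 → V} (h : f =ᵐ[volume] g) :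
    E.ext a f =ᵐ[M.mu] E.ext a g :=
  (ae_range a (p := fun x => E.ext a f x = E.ext a g x) (h.mono fun y hy => by
    rw [E.ext_ψ, E.ext_ψ, hy])).mono fun x hx => by
      by_cases k : x ∈ range (M.ψ a)
      · exact hx k
      · rw [Bun.ext, Bun.ext, if_neg k, if_neg k]

theorem Bun.sm_of_sob (E : Bun M V) {f : X → V} (h : ∀ k, E.SobX k f) :
    ∃ s ∈ E.Sm, f =ᵐ[M.mu] s := by
  choose g h1 h2 using fun a => P247.H399.Emb.SMOOTH V _ fun k => h k a
  refine ⟨_, E.Sm.sum_mem (t := Finset.univ) fun a _ => E.ext_mem a ((M.contDiff_zl a).smul (h1 a))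
    (M.hasCompactSupport_zl a).smul_right, ?_⟩
  filter_upwards [ae_all_iff.2 fun a => E.ext_congr a (f := fun y => M.zl a y • E.lo a f y)
    (g := M.zl a • g a) ((h2 a).mono fun y hy => by simp only [hy]; rfl)] with x hx
  simp only [Finset.sum_apply, ← hx, E.ext_zl, sum_zeta_smul]

theorem moll_zero {g : V4 → V} (h : ∀ y ∉ closedBall (0 : V4) 2, g y = 0) (n : ℕ) {y : V4}
    (hy : y ∉ closedBall (0 : V4) 3) : moll volume (stdBump n) g y = 0 := by
  rw [moll_congr_on (f' := fun _ => 0) _ fun z hz => h z fun k => hy ?_, moll_apply]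
  · simp
  · rw [mem_closedBall]
    linarith [stdBump_rOut_le (E := V4) n, mem_ball'.1 hz, mem_closedBall.1 k, dist_triangle y z 0]

theorem td_ext (a : M.A) {G : V4 → V →L[ℝ] W} (hG : Lb G) {g : V4 → V} (hg : LL 2 g)
    (h : ∀ y ∉ closedBall (0 : V4) 2, g y = 0) : ∃ h₀ : MemLp ((Bun.triv M W).ext a
      fun y => G y (g y)) 2 M.mu, ∃ h₁ : ∀ n, MemLp ((Bun.triv M W).ext a
        fun y => G y (moll volume (stdBump n) g y)) 2 M.mu,
      Tendsto (fun n => (h₁ n).toLp) atTop (𝓝 h₀.toLp) := by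
  have K := isCompact_closedBall (0 : V4) 3
  have h' : ∀ y ∉ closedBall (0 : V4) 3, g y = 0 := fun y hy =>
    h y fun k => hy (closedBall_subset_closedBall (by norm_num) k)
  have key : ∀ {f : V4 → V}, LL 2 f → (∀ y ∉ closedBall (0 : V4) 3, f y = 0) →
      MemLp ((Bun.triv M W).ext a fun y => G y (f y)) 2 M.mu := fun h1 h2 =>
    Bun.memLp_ext _ a K (fun y hy => by rw [h2 y hy, map_zero])
      (memLp_of_ll K (hG.ll h1) fun y hy => by rw [h2 y hy, map_zero])
  refine ⟨key hg h', fun n => key (ll_of_continuous (moll_contDiff _ (ll_locInt hg)).continuous)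
    fun y => moll_zero h n, (Lp.tendsto_Lp_iff_tendsto_eLpNorm'' _ _ _ _).2 ?_⟩
  obtain ⟨C, hC⟩ := hG.norm_le K 2
  obtain ⟨C', hC'⟩ := norm_supp a K 2
  refine td_mul (C := C') ENNReal.coe_ne_top (td_mul ENNReal.coe_ne_top (tendsto_moll_std (by simp)
    (memLp_of_ll K hg h')) fun n => (hC _).trans (mul_le_mul_right
      (eLpNorm_mono_measure _ Measure.restrict_le_self) _)) fun n => ?_
  rw [← Bun.ext_sub]
  refine (hC' _ _ fun x => Bun.ext_zero _ a fun y hy => by
    simp [h' y hy, moll_zero h n hy]).trans_eq ?_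
  simp only [Bun.ext_ψ, Pi.sub_apply, map_sub]
  rfl

theorem Bun.exists_J (E : Bun M V) {f : LL2 M V} (hf : E.SobX 1 f) : ∃ w : E.H1, E.J w = f := by
  suffices h : ∀ a, ∃ w : E.H1, (E.J w : X → V) =ᵐ[M.mu] fun x => M.zeta a x • f x by
    choose w hw using h
    refine ⟨∑ a, w a, Lp.ext ?_⟩
    rw [map_sum]
    filter_upwards [Lp.coeFn_finsetSum Finset.univ fun a => E.J (w a), ae_all_iff.2 hw] with x k1 k2
    rw [k1, Finset.sum_apply]
    simp only [k2, sum_zeta_smul]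
  intro a
  obtain ⟨G₀, G, g1, g2, g3, g4, g5⟩ := E.exists_G a
  choose P h1 h2 using (hf a).2
  have z := M.contDiff_zl a
  have l := fun {χ : V4 → ℝ} (h : Continuous χ) => (lb_cont h).smul
    (lb_const (ContinuousLinearMap.id ℝ V))
  have h3 : LL 2 fun y => M.zl a y • E.lo a f y := (l z.continuous).ll (hf a).1
  have h4 := fun i => (h1 i).smooth_smul z (ll_locInt (hf a).1) (ll_locInt (h2 i))
  have h5 : ∀ y ∉ closedBall (0 : V4) 2, M.zl a y • E.lo a f y = 0 := fun y hy => by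
    rw [zl_zero' a hy, zero_smul]
  obtain ⟨m0, m1, t0⟩ := td_ext a g1 h3 h5
  choose n0 n1 t1 using fun i => td_ext a (g2 i) (ll_add ((l ((z.continuous_fderiv
    (by simp)).clm_apply continuous_const)).ll (hf a).1) ((l z.continuous).ll (h2 i)))
    (g := fun y => fderiv ℝ (M.zl a) y (e i) • E.lo a f y + M.zl a y • P i y) fun y hy => by
      have : M.zl a =ᶠ[𝓝 y] fun _ => 0 :=
        eventually_of_mem (isClosed_closedBall.isOpen_compl.mem_nhds hy) fun z => zl_zero' a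
      simp [this.fderiv_eq, zl_zero' a hy]
  have ae : ∀ {u : X → Jt M V} {v : Fin 4 → X → Jt M V} (hu : MemLp u 2 M.mu)
      (hv : ∀ i, MemLp (v i) 2 M.mu), (hu.toLp + ∑ i, (hv i).toLp : LL2 M (Jt M V)) =ᵐ[M.mu]
        fun x => u x + ∑ i, v i x := fun hu hv => by
    filter_upwards [Lp.coeFn_add hu.toLp (∑ i, (hv i).toLp), Lp.coeFn_finsetSum Finset.univ
      fun i => (hv i).toLp, hu.coeFn_toLp, ae_all_iff.2 fun i => (hv i).coeFn_toLp]
      with x k1 k2 k3 k4
    rw [k1, Pi.add_apply, k2, k3, Finset.sum_apply]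
    simp only [k4]
  refine ⟨⟨_, mem_closure_of_tendsto (t0.add (tendsto_finsetSum Finset.univ fun i _ => t1 i))
    (.of_forall fun n => ?_)⟩, (E.J_ae _).trans ((ae m0 n0).mono fun x hx => ?_)⟩
  · have hs := E.ext_mem a (moll_contDiff (stdBump n) (ll_locInt h3))
      (HasCompactSupport.intro (isCompact_closedBall 0 3) fun y => moll_zero h5 n)
    refine Submodule.subset_span ⟨_, hs, (ae (m1 n) fun i => n1 i n).trans
      (.of_forall fun x => ?_)⟩
    by_cases k : x ∈ range (M.ψ a)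
    · obtain ⟨y, rfl⟩ := k
      simp only [g5 _ hs, E.lo_ext, Bun.ext_ψ, fderiv_moll _ (h4 _) (ll_locInt h3)]
      rfl
    · simp only [Bun.ext, if_neg k, Finset.sum_const_zero, add_zero]
      exact (E.jet_eq_zero (eventually_of_mem (((isCompact_closedBall 0 3).image
        (M.continuous_ψ a)).isClosed.isOpen_compl.mem_nhds fun k' => k (image_subset_range _ _ k'))
        fun z => E.ext_zero a fun y => moll_zero h5 n)).symm
  · simp only [hx, ← congrFun (E.ext_zl a f) x, Bun.ext]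
    split_ifs
    · simp [Bun.triv, g3, g4]
    · simp

theorem LOC : LOC_statement := fun _ _ _ _ _ _ _ _ _ _ _ _ _ _ E F =>
  ⟨E.J_inj, fun w a => ⟨E.ll_lo a (Lp.memLp _), E.loc_wd F w a⟩, fun _ => E.exists_J,
    fun _ => E.sm_of_sob, fun _ _ => E.ae_lo⟩

end Vale.Agent.P247E
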