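import Vale.Agent.P247E.Bas

/-!
# P247E: the chain rule for jets
-/

open scoped ContDiff Topology ENNReal NNReal
open Set MeasureTheory Filter Metric

set_option linter.all false

noncomputable section

namespace Vale.Agent.P247E

open Vale.Agent.P204.GX Vale.Agent.P204.T4
open Vale.Agent.P247.H74 (e)
open Vale.Agent.P247.H306 (LL)

variable {X : Type} [MetricSpace X] {M : CM X}
variable {V W : Type} [NormedAddCommGroup V] [InnerProductSpace ℝ V]
  [NormedAddCommGroup W] [InnerProductSpace ℝ W] {E : Bun M V} {F : Bun M W}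
variable {A B : Type} [NormedAddCommGroup A] [NormedSpace ℝ A] [NormedAddCommGroup B]
  [NormedSpace ℝ B]

theorem Lb.add {f g : V4 → A} (hf : Lb f) (hg : Lb g) : Lb fun y => f y + g y :=
  ⟨hf.1.add hg.1, fun R => by
    obtain ⟨C₁, h1⟩ := hf.2 R
    obtain ⟨C₂, h2⟩ := hg.2 R
    exact ⟨C₁ + C₂, fun y hy => norm_add_le_of_le (h1 y hy) (h2 y hy)⟩⟩

theorem lb_sum {ι : Type} (s : Finset ι) {f : ι → V4 → A} (h : ∀ i, Lb (f i)) :
    Lb fun x => ∑ i ∈ s, f i x := by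
  induction s using Finset.cons_induction with
  | empty => exact lb_const 0
  | cons i s hi ih => simpa only [Finset.sum_cons] using (h i).add ih

theorem Lb.smul {f : V4 → ℝ} {g : V4 → A} (hf : Lb f) (hg : Lb g) : Lb fun y => f y • g y :=
  hf.bil (ContinuousLinearMap.lsmul ℝ ℝ) hg

theorem Lb.norm_le {G : V4 → A →L[ℝ] B} (h : Lb G) {K : Set V4} (hK : IsCompact K) (p : ℝ≥0∞) :
    ∃ C : ℝ≥0, ∀ f : V4 → A, eLpNorm (fun y => G y (f y)) p (volume.restrict K) ≤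
      C * eLpNorm f p (volume.restrict K) := by
  obtain ⟨R, hR⟩ := hK.isBounded.subset_closedBall 0
  obtain ⟨C, hC⟩ := h.2 R
  exact ⟨C.toNNReal, fun f => eLpNorm_le_mul_eLpNorm_of_ae_le_mul ((ae_restrict_iff'
    hK.measurableSet).2 (.of_forall fun y hy => (G y).le_of_opNorm_le
      (hC y (mem_closedBall_zero_iff.1 (hR hy))) _)) p⟩

theorem Lb.aesm {G : V4 → A →L[ℝ] B} (h : Lb G) {f : V4 → A} {μ : Measure V4}
    (hf : AEStronglyMeasurable f μ) : AEStronglyMeasurable (fun y => G y (f y)) μ :=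
  (ContinuousLinearMap.id ℝ (A →L[ℝ] B)).aestronglyMeasurable_comp₂ h.1.aestronglyMeasurable hf

theorem Lb.ll {G : V4 → A →L[ℝ] B} (h : Lb G) {f : V4 → A} {p : ℝ≥0∞} (hf : LL p f) :
    LL p fun y => G y (f y) := fun K hK => by
  obtain ⟨C, hC⟩ := h.norm_le hK p
  exact ⟨h.aesm (hf K hK).1, (hC f).trans_lt (ENNReal.mul_lt_top ENNReal.coe_lt_top (hf K hK).2)⟩

theorem memLp_of_ll {g : V4 → A} {p : ℝ≥0∞} {K : Set V4} (hK : IsCompact K) (hg : LL p g)
    (h0 : ∀ y ∉ K, g y = 0) : MemLp g p volume := by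
  rw [← indicator_eq_self.2 fun y hy => by_contra fun h => hy (h0 y h),
    memLp_indicator_iff_restrict hK.measurableSet]
  exact hg K hK

theorem cut_sm (a b : M.A) {χ : X → ℝ} {R : ℝ} (hχ : M.Sm0 χ)
    (h0 : ∀ x ∉ M.ψ b '' ball 0 R, χ x = 0) {g : V4 → A} (hg : ∀ y ∈ M.O a b, ContDiffAt ℝ ∞ g y) :
    ContDiff ℝ ∞ fun y => χ (M.ψ a y) • g y :=
  M.contDiff_of_ext a b (isCompact_closedBall 0 R) (fun y hy => (hχ a).contDiffAt.smul (hg y hy))
    fun y hy => by rw [h0 _ fun k => hy (image_mono ball_subset_closedBall k), zero_smul]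

theorem zeta_sm (a b : M.A) {g : V4 → A} (hg : ∀ y ∈ M.O a b, ContDiffAt ℝ ∞ g y) :
    ContDiff ℝ ∞ fun y => M.zeta b (M.ψ a y) • g y :=
  cut_sm a b (M.sm0_zeta b) (fun _ => M.zeta_eq_zero b) hg

theorem theta_sm (a b : M.A) {g : V4 → A} (hg : ∀ y ∈ M.O a b, ContDiffAt ℝ ∞ g y) :
    ContDiff ℝ ∞ fun y => M.ext0 b theta (M.ψ a y) • g y :=
  cut_sm a b (M.sm0_ext0 b theta.contDiff theta.hasCompactSupport)
    (fun _ => M.ext0_eq_zero b fun _ => theta_zero) hg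

theorem sm_d {g : V4 → A} {y : V4} (h : ContDiffAt ℝ ∞ g y) (v : V4) :
    ContDiffAt ℝ ∞ (fun z => fderiv ℝ g z v) y :=
  (h.fderiv_right (m := ∞) le_rfl).clm_apply contDiffAt_const

theorem sum_e (w : V4) : ∑ j, w j • e j = w := by
  ext i; simp [e, Pi.single_apply]

/-- the inverse transition function -/
def Bun.tm (E : Bun M V) (a b : M.A) (y : V4) : V →L[ℝ] V := E.tr b a (M.τ a b y)

theorem Bun.sm_tm (E : Bun M V) {a b : M.A} {y : V4} (h : y ∈ M.O a b) :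
    ContDiffAt ℝ ∞ (E.tm a b) y := (E.sm_tr (M.τ_mem h)).comp y (M.contDiffAt_τ h)

theorem Bun.tm_apply (E : Bun M V) {a b : M.A} {y : V4} (h : y ∈ M.O a b) (v : V) :
    E.tm a b y v = E.u' a y (E.u b (M.τ a b y) v) := by
  rw [Bun.tm, Bun.tr, M.τ_τ h]; rfl

theorem Bun.d_lo (E : Bun M V) {s : X → V} (hs : s ∈ E.Sm) {a b : M.A} {y : V4} (h : y ∈ M.O a b)
    (v : V4) : fderiv ℝ (E.lo a s) y v = fderiv ℝ (E.tm a b) y v (E.lo b s (M.τ a b y)) +
      ∑ j, fderiv ℝ (M.τ a b) y v j • E.tm a b y (fderiv ℝ (E.lo b s) (M.τ a b y) (e j)) := by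
  have h1 : E.lo a s =ᶠ[𝓝 y] fun z => E.tm a b z (E.lo b s (M.τ a b z)) :=
    eventually_of_mem ((M.isOpen_O a b).mem_nhds h) fun z hz => E.lo_tr hz s
  have h2 := ((E.sm_tm h).differentiableAt (by simp)).hasFDerivAt.clm_apply
    (((hs b).differentiable (by simp) _).hasFDerivAt.comp y (M.differentiableAt_τ h).hasFDerivAt)
  rw [(h2.congr_of_eventuallyEq h1).fderiv, add_comm]
  simp only [← map_smul, ← map_sum, sum_e]
  rfl

theorem zeta_cases' (a b : M.A) (y : V4) : M.zeta b (M.ψ a y) = 0 ∨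
    y ∈ M.O a b ∧ M.ext0 b theta (M.ψ a y) = 1 := by
  rcases zeta_cases b (M.ψ a y) with h | ⟨z, hz, h⟩
  · exact .inl h
  · exact .inr ⟨⟨z, h⟩, by rw [← h, M.ext0_ψ_self, theta_one (hz.le.trans (by norm_num))]⟩

theorem Bun.nab_ψ' (E : Bun M V) {a b : M.A} {y : V4} (h : y ∈ M.O a b) (j : Fin 4) (s : X → V) :
    E.lo a (E.nab b j s) y =
      M.zeta b (M.ψ a y) • E.tm a b y (fderiv ℝ (E.lo b s) (M.τ a b y) (e j)) := by
  rw [Bun.lo, Bun.nab, ← M.τ_eq_inv h, map_smul, E.tm_apply h]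

/-- the derivatives in a chart are linear functions of the jet -/
theorem Bun.exists_D [FiniteDimensional ℝ V] (E : Bun M V) (a : M.A) :
    ∃ D : Fin 4 → V4 → Jt M V →L[ℝ] V, (∀ i, Lb (D i)) ∧ ∀ s ∈ E.Sm, ∀ i y,
      D i y (E.jet s (M.ψ a y)) = fderiv ℝ (E.lo a s) y (e i) := by
  refine ⟨fun i y => ∑ b, ((M.zeta b (M.ψ a y) • (fderiv ℝ (E.tm a b) y (e i)).comp
    (E.tr a b y)).comp ((E.u' a y).comp (jproj M V none)) + ∑ j, (M.ext0 b theta (M.ψ a y) •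
      fderiv ℝ (M.τ a b) y (e i) j) • (E.u' a y).comp (jproj M V (some (b, j)))), fun i =>
    lb_sum _ fun b => ((lb_cont (zeta_sm a b fun y hy => (sm_d (E.sm_tm hy) _).clm_comp
      (E.sm_tr hy)).continuous).comp ((E.lb_u' a).comp (lb_const _))).add (lb_sum _ fun j =>
        (lb_cont (theta_sm a b fun y hy => contDiffAt_pi.1 (sm_d (M.contDiffAt_τ hy) _)
          j).continuous).smul ((E.lb_u' a).comp (lb_const _))), fun s hs i y => ?_⟩
  rw [← sum_zeta_smul M (M.ψ a y) (fderiv ℝ _ y _), sum_apply]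
  refine Finset.sum_congr rfl fun b _ => ?_
  simp only [add_apply, sum_apply, smul_apply, ContinuousLinearMap.comp_apply, jproj,
    PiLp.proj_apply, Bun.jet]
  rcases zeta_cases' a b y with h | ⟨h, k⟩
  · simp [Bun.nab, h]
  · have := fun j => E.nab_ψ' h j s
    simp only [Bun.lo] at this
    simp only [this, k, one_smul, E.d_lo hs h, smul_add, Finset.smul_sum, smul_comm (M.zeta b _),
      Bun.tr, ContinuousLinearMap.comp_apply, E.u_u', Bun.lo, M.ψ_τ h]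

/-- the weighted derivatives in another chart -/
theorem Bun.exists_nab (E : Bun M V) (a b : M.A) (j : Fin 4) :
    ∃ (c : Fin 4 → V4 → ℝ) (N : V4 → V →L[ℝ] V), (∀ i, ContDiff ℝ ∞ (c i)) ∧ ContDiff ℝ ∞ N ∧
      ∀ s ∈ E.Sm, ∀ y, E.lo a (E.nab b j s) y =
        ∑ i, c i y • fderiv ℝ (E.lo a s) y (e i) + N y (E.lo a s y) := by
  refine ⟨fun i y => M.zeta b (M.ψ a y) • fderiv ℝ (M.τ b a) (M.τ a b y) (e j) i,
    fun y => M.zeta b (M.ψ a y) • (E.tm a b y).comp (fderiv ℝ (E.tm b a) (M.τ a b y) (e j)),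
    fun i => zeta_sm a b fun y hy => contDiffAt_pi.1 ((sm_d (M.contDiffAt_τ (M.τ_mem hy)) _).comp y
      (M.contDiffAt_τ hy)) i, zeta_sm a b fun y hy => (E.sm_tm hy).clm_comp
      ((sm_d (E.sm_tm (M.τ_mem hy)) _).comp y (M.contDiffAt_τ hy)), fun s hs y => ?_⟩
  rcases zeta_cases' a b y with h | ⟨h, -⟩
  · simp [Bun.nab, Bun.lo, h]
  · rw [E.nab_ψ' h, E.d_lo hs (M.τ_mem h), add_comm]
    simp only [map_add, map_sum, map_smul, smul_add, Finset.smul_sum, smul_assoc, M.τ_τ h,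
      E.tm_apply h, E.tm_apply (M.τ_mem h), E.u_u', E.u'_u, smul_apply,
      ContinuousLinearMap.comp_apply]

/-- the jet is a linear function of the derivatives in a chart -/
theorem Bun.exists_G [MeasurableSpace X] [BorelSpace X] [FiniteDimensional ℝ V] (E : Bun M V)
    (a : M.A) : ∃ (G₀ : V4 → V →L[ℝ] Jt M V) (G : Fin 4 → V4 → V →L[ℝ] Jt M V), Lb G₀ ∧
      (∀ i, Lb (G i)) ∧ (∀ y v, G₀ y v none = E.u a y v) ∧ (∀ i y v, G i y v none = 0) ∧
      ∀ s ∈ E.Sm, ∀ y, E.jet s (M.ψ a y) =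
        G₀ y (E.lo a s y) + ∑ i, G i y (fderiv ℝ (E.lo a s) y (e i)) := by
  choose c N h1 h2 h3 using E.exists_nab a
  refine ⟨fun y => (jinc M V none).comp (E.u a y) + ∑ p : M.A × Fin 4,
    (jinc M V (some p)).comp ((E.u a y).comp (N p.1 p.2 y)), fun i y => ∑ p : M.A × Fin 4,
      c p.1 p.2 i y • (jinc M V (some p)).comp (E.u a y), ((lb_const _).comp (E.lb_u a)).add
    (lb_sum _ fun p => (lb_const _).comp ((E.lb_u a).comp (lb_cont (h2 _ _).continuous))),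
    fun i => lb_sum _ fun p => (lb_cont (h1 _ _ i).continuous).smul ((lb_const _).comp (E.lb_u a)),
    fun y v => by simp [jinc], fun i y v => by simp [jinc], fun s hs y => ?_⟩
  ext (_ | p)
  · simp [jinc, Bun.jet, E.u_lo]
  · simp [jinc, Bun.jet, Pi.single_apply, ← E.u_lo a (E.nab p.1 p.2 s), h3 _ _ s hs, add_comm]

theorem Bun.jet_eq_zero (E : Bun M V) {s : X → V} {x : X} (h : s =ᶠ[𝓝 x] 0) : E.jet s x = 0 := by
  ext (_ | p)
  · exact h.eq_of_nhds
  · rcases zeta_cases p.1 x with k | ⟨y, -, rfl⟩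
    · simp [Bun.jet, Bun.nab, k]
    · have : E.lo p.1 s =ᶠ[𝓝 y] fun _ => 0 := ((M.continuous_ψ _).continuousAt.eventually h).mono
        fun z hz => by rw [Bun.lo, hz, Pi.zero_apply, map_zero]
      simp [Bun.jet, E.nab_ψ, this.fderiv_eq]

variable [MeasurableSpace X] [BorelSpace X]

theorem ae_range (a : M.A) {p : X → Prop} (h : ∀ᵐ y, p (M.ψ a y)) :
    ∀ᵐ x ∂M.mu, x ∈ range (M.ψ a) → p x := by
  rw [← ae_restrict_iff' (M.isOpen_range a).measurableSet, M.mu_restrict,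
    (M.measurableEmbedding_ψ a).ae_map_iff]
  exact (withDensity_absolutelyContinuous _ _).ae_le h

theorem ll_chart (a : M.A) {f : X → A} {p : ℝ≥0∞} (hf : MemLp f p M.mu) :
    LL p fun y => f (M.ψ a y) := fun K hK => by
  obtain ⟨C, hC⟩ := norm_chart a hK p
  exact ⟨(aesm_chart a hf.1).restrict, (hC _ f).trans_lt (ENNReal.mul_lt_top ENNReal.coe_lt_top hf.2)⟩

/-- approximation by jets of smooth sections -/
theorem Bun.approx [FiniteDimensional ℝ V] (E : Bun M V) (w : E.H1) : ∃ s : ℕ → X → V,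
    (∀ n, s n ∈ E.Sm) ∧ Tendsto (fun n => eLpNorm (E.jet (s n) - ⇑(w : LL2 M (Jt M V))) 2 M.mu)
      atTop (𝓝 0) ∧ ∀ᵐ x ∂M.mu, Tendsto (fun n => E.jet (s n) x) atTop
        (𝓝 ((w : LL2 M (Jt M V)) x)) := by
  obtain ⟨u, h1, h2⟩ := mem_closure_iff_seq_limit.1 (E.dense_rep w)
  choose s h3 h4 using h1
  have h5 : Tendsto (fun n => eLpNorm (E.jet (s n) - ⇑(w : LL2 M (Jt M V))) 2 M.mu) atTop (𝓝 0) :=
    ((Lp.tendsto_Lp_iff_tendsto_eLpNorm' _ _).1 ((continuous_subtype_val.tendsto w).comp h2)).congr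
      fun n => eLpNorm_congr_ae (EventuallyEq.sub (h4 n) .rfl)
  obtain ⟨k, hk, h6⟩ := (tendstoInMeasure_of_tendsto_eLpNorm two_ne_zero (fun n =>
    (E.bm_jet (h3 n)).1.aestronglyMeasurable) (Lp.aestronglyMeasurable _) h5).exists_seq_tendsto_ae
  exact ⟨_, fun n => h3 (k n), h5.comp hk.tendsto_atTop, h6⟩

/-- pointwise linear identities pass from jets to `H¹` -/
theorem Bun.ae_of_jet [FiniteDimensional ℝ V] (E : Bun M V) {G G' : X → Jt M V → A}
    (h1 : ∀ x, Continuous (G x)) (h2 : ∀ x, Continuous (G' x))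
    (h : ∀ s ∈ E.Sm, ∀ x, G x (E.jet s x) = G' x (E.jet s x)) (w : E.H1) :
    ∀ᵐ x ∂M.mu, G x ((w : LL2 M (Jt M V)) x) = G' x ((w : LL2 M (Jt M V)) x) := by
  obtain ⟨s, h3, -, h4⟩ := E.approx w
  exact h4.mono fun x hx => tendsto_nhds_unique (((h1 x).tendsto _).comp hx)
    ((((h2 x).tendsto _).comp hx).congr fun n => (h _ (h3 n) x).symm)

end Vale.Agent.P247E
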