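import Vale.Agent.P247E.QDefs

/-!
# P247E: the negative spinor bundle, the Dirac operator, the Hodge operator
-/

set_option linter.all false

open scoped ContDiff Topology ENNReal ComplexConjugate
open Set MeasureTheory Filter

noncomputable section

namespace Vale.Agent.P247E

open Vale.Agent.P204.GX Vale.Agent.P204.T4
open Vale.Agent.P247.H74 (e)
open Vale.Agent.P247.H647 (Sp En sig pau omM hat len jz symb cov)

theorem sgm_add (s t : V4) : sgm (s + t) = sgm s + sgm t := by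
  ext1 v
  show sgm (s + t) v = sgm s v + sgm t v
  simp only [sgm_apply, Pi.add_apply, Complex.ofReal_add, add_smul, Finset.sum_add_distrib]

theorem sgm_smul (c : ℝ) (t : V4) : sgm (c • t) = c • sgm t := by
  unfold sgm symb
  rw [Finset.smul_sum]
  refine Finset.sum_congr rfl fun i _ => ?_
  ext1 v
  ext j
  simp [mul_assoc]

/-- `sgm` as a continuous linear map -/
def sgmL : V4 →L[ℝ] En :=
  LinearMap.toContinuousLinearMap
    { toFun := sgm
      map_add' := sgm_add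
      map_smul' := sgm_smul }

@[simp] theorem sgmL_apply (t : V4) : sgmL t = sgm t := rfl

theorem sgm_e (c : Fin 4) : sgm (e c) = sig c := by
  ext1 v
  rw [sgm_apply, Finset.sum_eq_single c]
  · simp [e]
  · intro b _ hb; simp [e, Pi.single_eq_of_ne hb]
  · simp

theorem clm_vec {E : Type*} [NormedAddCommGroup E] [NormedSpace ℝ E] (L : V4 →L[ℝ] E) (v : V4) :
    L v = ∑ i, v i • L (e i) := by
  conv_lhs => rw [pi_eq_sum_univ v]
  rw [map_sum]
  refine Finset.sum_congr rfl fun i _ => ?_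
  rw [map_smul]
  congr 2
  funext j
  simp [e, Pi.single_apply, eq_comm]

theorem app_Rq_cq (p v : V4) : app (Rq (cq p)) (app (Rq p) v) = (∑ c, p c ^ 2) • v := by
  funext i
  fin_cases i <;>
    simp only [app_eq, Rq, cq, Fin.sum_univ_four, Fin.zero_eta, Fin.mk_one, Fin.reduceFinMk,
      Fin.isValue, Matrix.cons_val_zero, Matrix.cons_val_one, Matrix.cons_val, Matrix.cons_val',
      Matrix.cons_val_fin_one, Pi.smul_apply, smul_eq_mul] <;> ring

theorem app_Rq_cq' (p v : V4) : app (Rq p) (app (Rq (cq p)) v) = (∑ c, p c ^ 2) • v := by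
  funext i
  fin_cases i <;>
    simp only [app_eq, Rq, cq, Fin.sum_univ_four, Fin.zero_eta, Fin.mk_one, Fin.reduceFinMk,
      Fin.isValue, Matrix.cons_val_zero, Matrix.cons_val_one, Matrix.cons_val, Matrix.cons_val',
      Matrix.cons_val_fin_one, Pi.smul_apply, smul_eq_mul] <;> ring

theorem Rq_cq (p : V4) (i j : Fin 4) : Rq (cq p) i j = Rq p j i := by
  fin_cases i <;> fin_cases j <;> simp [Rq, cq]

theorem app_Rq_e0 (p : V4) : app (Rq p) (e 0) = p := by
  funext i
  fin_cases i <;> simp [app_eq, Rq, e]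

theorem continuous_cq : Continuous cq := by
  refine continuous_pi fun i => ?_
  fin_cases i <;> simp only [cq, Fin.zero_eta, Fin.mk_one, Fin.reduceFinMk, Fin.isValue,
    Matrix.cons_val_zero, Matrix.cons_val_one, Matrix.cons_val] <;> fun_prop

variable {X : Type} [MetricSpace X] (Q : QM X)

theorem QM.m_app (a : Q.A) (y v : V4) :
    app (Q.m a y) v = app (Rq (Q.p a y)) (app (Q.n a y) v) := by
  rw [Q.m_eq, app_mm]

theorem QM.m'_app (a : Q.A) (y v : V4) :
    app (Q.m' a y) v = app (Q.n' a y) (app (Rq (cq (Q.p a y))) v) := by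
  have h : app (Q.m a y) (app (Q.n' a y) (app (Rq (cq (Q.p a y))) v)) = v := by
    rw [Q.m_app, Q.n_n', app_Rq_cq', Q.p_unit, one_smul]
  conv_lhs => rw [← h]
  rw [Q.m'_m]

/-- the smooth frame vectors in the chart `a` -/
def QM.b (a : Q.A) (y : V4) (d : Fin 4) : V4 := app (Q.n' a y) (e d)

theorem QM.b_apply (a : Q.A) (y : V4) (d i : Fin 4) : Q.b a y d i = Q.n' a y i d := by
  simp [QM.b, app, e, Pi.single_apply]

theorem QM.b_smooth (a : Q.A) (d : Fin 4) : ContDiff ℝ ∞ fun y => Q.b a y d := by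
  rw [contDiff_pi]; intro i
  simp only [QM.b_apply]
  exact contDiff_pi.1 (contDiff_pi.1 (Q.n'_smooth a) i) d

/-- the measurable frame in terms of the smooth frame -/
theorem QM.fv_eq (a : Q.A) (y : V4) (c : Fin 4) :
    fv Q.toCM a y c = ∑ d, Rq (Q.p a y) c d • Q.b a y d := by
  funext i
  unfold fv
  rw [Q.m'_app]
  simp only [Finset.sum_apply, Pi.smul_apply, QM.b_apply, smul_eq_mul, app, Rq_cq, e,
    Pi.single_apply, mul_ite, mul_one, mul_zero, Finset.sum_ite_eq', Finset.mem_univ, if_true]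
  exact Finset.sum_congr rfl fun d _ => mul_comm _ _

theorem QM.p_trans {a b : Q.A} {y : V4} (h : y ∈ Q.O a b) :
    app (Rq (cq (Q.p b (Q.τ a b y)))) (Q.p a y) =
      app (Q.n b (Q.τ a b y)) (fderiv ℝ (Q.τ a b) y (Q.b a y 0)) := by
  have h1 : Q.b a y 0 = app (Q.m' a y) (Q.p a y) := by
    rw [Q.m'_app]
    conv_rhs => rw [← app_Rq_e0 (Q.p a y)]
    rw [app_Rq_e0]
    conv_rhs => enter [2, 2]; rw [← app_Rq_e0 (Q.p a y)]
    rw [app_Rq_cq, Q.p_unit, one_smul]; rfl
  rw [h1, fv_tau Q.toCM h, Q.m'_app, Q.n_n']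

theorem contDiff_app : ContDiff ℝ ∞ fun q : M4 × V4 => app q.1 q.2 := by
  unfold app
  fun_prop

/-- the bundle `S⁻ ⊗ L` -/
def QM.bm (L : LBc Q.toCM) : Bun Q.toCM Sp where
  u a y := reL (L.γ a y • sgm (Q.p a y))
  u' a y := reL (conj (L.γ a y) • sgm (cq (Q.p a y)))
  u_meas a := reL.continuous.comp_stronglyMeasurable ((L.γ_meas a).stronglyMeasurable.smul
    (sgmL.continuous.comp_stronglyMeasurable (Q.p_meas a).stronglyMeasurable))
  u'_meas a := reL.continuous.comp_stronglyMeasurable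
    ((Complex.continuous_conj.measurable.comp (L.γ_meas a)).stronglyMeasurable.smul
    ((sgmL.continuous.comp continuous_cq).comp_stronglyMeasurable (Q.p_meas a).stronglyMeasurable))
  u_u' a y v := by
    show L.γ a y • sgm (Q.p a y) (conj (L.γ a y) • sgm (cq (Q.p a y)) v) = v
    rw [map_smul, sgm_cq', Q.p_unit, smul_smul, L.mul_conj]; simp
  u'_u a y v := by
    show conj (L.γ a y) • sgm (cq (Q.p a y)) (L.γ a y • sgm (Q.p a y) v) = v
    rw [map_smul, sgm_cq, Q.p_unit, smul_smul, L.conj_mul]; simp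
  u_norm a y v := by
    show ‖L.γ a y • sgm (Q.p a y) v‖ = ‖v‖
    rw [norm_smul, L.γ_norm, one_mul]
    have h := norm_sgm_sq (Q.p a y) v
    rw [Q.p_unit, one_mul] at h
    exact (sq_eq_sq₀ (norm_nonneg _) (norm_nonneg _)).1 h
  trans a b := by
    have h1 : ContDiffOn ℝ ∞ (fun y => app (Q.n b (Q.τ a b y))
        (fderiv ℝ (Q.τ a b) y (Q.b a y 0))) (Q.O a b) := by
      intro y hy
      have h2 := Q.contDiffAt_τ hy
      have h3 : ContDiffAt ℝ ∞ (fun y => fderiv ℝ (Q.τ a b) y (Q.b a y 0)) y :=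
        (h2.fderiv_right (m := ∞) (by simp)).clm_apply (Q.b_smooth a 0).contDiffAt
      exact (contDiff_app.contDiffAt.comp y
        (((Q.n_smooth b).contDiffAt.comp y h2).prodMk h3)).contDiffWithinAt
    refine (reL.contDiff.comp_contDiffOn ((L.G_smooth a b).smul
      (sgmL.contDiff.comp_contDiffOn h1))).congr fun y hy => ?_
    ext1 v
    show conj (L.γ b (Q.τ a b y)) • sgm (cq (Q.p b (Q.τ a b y))) (L.γ a y • sgm (Q.p a y) v) =
      (conj (L.γ b (Q.τ a b y)) * L.γ a y) • sgm (app (Q.n b (Q.τ a b y))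
        (fderiv ℝ (Q.τ a b) y (Q.b a y 0))) v
    rw [map_smul, sgm_sgm, Q.p_trans hy, smul_smul]

/-- the local symbol of the Dirac operator -/
def QM.dM (a : Q.A) (i : Fin 4) (y : V4) : Sp →L[ℝ] Sp := reL (sgm fun d => Q.b a y d i)

/-- the local zero order term of the Dirac operator -/
def QM.dN (L : LBc Q.toCM) (a : Q.A) (y : V4) : Sp →L[ℝ] Sp :=
  reL ((-Complex.I) • sgm fun d => L.A a y (Q.b a y d))

theorem contDiff_sgm {Y : Type*} [NormedAddCommGroup Y] [NormedSpace ℝ Y] {t : Y → V4}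
    (h : ContDiff ℝ ∞ t) : ContDiff ℝ ∞ fun y => sgm (t y) := sgmL.contDiff.comp h

theorem contDiff_reL {Y : Type*} [NormedAddCommGroup Y] [NormedSpace ℝ Y] {t : Y → En}
    (h : ContDiff ℝ ∞ t) : ContDiff ℝ ∞ fun y => reL (t y) := reL.contDiff.comp h

theorem QM.dM_smooth (a : Q.A) (i : Fin 4) : ContDiff ℝ ∞ (Q.dM a i) :=
  contDiff_reL (contDiff_sgm (contDiff_pi.2 fun d => contDiff_pi.1 (Q.b_smooth a d) i))

theorem QM.dN_smooth (L : LBc Q.toCM) (a : Q.A) : ContDiff ℝ ∞ (Q.dN L a) := by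
  have h0 : ContDiff ℝ ∞ fun y => (fun d => L.A a y (Q.b a y d) : V4) :=
    contDiff_pi.2 fun d => (L.A_smooth a).clm_apply (Q.b_smooth a d)
  have h1 := (contDiff_sgm h0).const_smul (-Complex.I)
  exact contDiff_reL h1

theorem QM.locOp_dirac (L : LBc Q.toCM) (a : Q.A) (f : V4 → Sp) (y : V4) :
    locOp (Q.dM a) (Q.dN L a) f y = ∑ d, sig d (cov (L.A a) f y (Q.b a y d)) := by
  unfold locOp QM.dM QM.dN cov
  simp only [reL_apply, map_sub, Finset.sum_sub_distrib, sgm_apply, map_smul,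
    ContinuousLinearMap.smul_apply, Finset.smul_sum, smul_smul]
  rw [sub_eq_add_neg, ← Finset.sum_neg_distrib, Finset.sum_comm]
  congr 1
  · refine Finset.sum_congr rfl fun d _ => ?_
    rw [clm_vec (fderiv ℝ f y) (Q.b a y d), map_sum]
    refine Finset.sum_congr rfl fun i _ => ?_
    rw [← map_smul]
    congr 1
  · refine Finset.sum_congr rfl fun d _ => ?_
    rw [← neg_smul, neg_mul]

theorem QM.u_dirac (L : LBc Q.toCM) (a : Q.A) (f : V4 → Sp) (y : V4) :
    (Q.bm L).u a y (locOp (Q.dM a) (Q.dN L a) f y) =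
      ∑ c, sig c (L.γ a y • cov (L.A a) f y (fv Q.toCM a y c)) := by
  rw [Q.locOp_dirac]
  show L.γ a y • sgm (Q.p a y) _ = _
  simp only [Q.fv_eq, Vale.Agent.P247.H558.cov_sum_vec, Vale.Agent.P247.H558.cov_smul_vec,
    map_smul, map_sum, ← Finset.smul_sum]
  congr 1
  rw [Finset.sum_comm]
  refine Finset.sum_congr rfl fun d _ => ?_
  rw [← sgm_e d, sgm_sgm, sgm_apply]
  refine Finset.sum_congr rfl fun c _ => ?_
  congr 2
  simp [app, e, Pi.single_apply]

/-- the Dirac operator `∑ sig c ∇_c` -/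
def QM.dirac (L : LBc Q.toCM) : Op L.bp (Q.bm L) where
  Mi := Q.dM
  N := Q.dN L
  Mi_smooth a i := Q.dM_smooth a i
  N_smooth a := Q.dN_smooth L a
  compat s hs a b y hy := by
    rw [Q.u_dirac, Q.u_dirac]
    refine Finset.sum_congr rfl fun c _ => ?_
    have hs' : L.Sm s := hs
    have h := L.cov_tau hs' hy (fv Q.toCM a y c)
    rw [fv, fv_tau Q.toCM hy] at h
    exact congrArg (sig c) h

theorem QM.dirac_app (L : LBc Q.toCM) (s : X → Sp) (x : X) :
    (Q.dirac L).app s x = ∑ c, sig c (L.cv s x c) := by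
  have h := Q.u_dirac L (Q.ch x) (L.lo (Q.ch x) s) (Q.cy x)
  unfold Op.app LBc.cv
  exact h

/-- the bundles of the Hodge operator: one-forms `vec ∘ φ`, and `ℝ ⊕ Λ⁺` -/
abbrev QM.t1 : Bun Q.toCM Sp := Q.bm (LBc.triv Q.toCM)
abbrev QM.t0 : Bun Q.toCM Sp := (LBc.triv Q.toCM).bp

/-- `H φ = spn (div η, hat (d η))` for `η = vec ∘ φ`. -/
structure QM.IsHod [MeasurableSpace X] [BorelSpace X] (H : Op Q.t1 Q.t0) : Prop where
  symb : ∀ a i y (v w : Sp), inner ℝ (Q.dM a i y v) w = inner ℝ v (H.Mi a i y w)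
  div : ∀ φ ∈ Q.t1.Sm, ∀ f : X → ℝ, Q.Sm0 f →
    ∫ x, f x * vec (H.app φ x) 0 ∂Q.mu = - ∫ x, ∑ c, df Q.toCM f x c * vec (φ x) c ∂Q.mu
  curl : ∀ φ ∈ Q.t1.Sm, ∀ x (k : Fin 3),
    vec (H.app φ x) k.succ = hat (ent (Q.dX (fun x => vec (φ x)) x)) k

/-- the self-dual components of the curvature -/
def LBc.Fh {M : CM X} (L : LBc M) (x : X) : Fin 3 → ℝ := hat (ent (L.F x))

end Vale.Agent.P247E
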