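import Vale.Agent.P247E.Bq1
import Vale.Agent.P247E.Htp

/-!
# P247E: the Hodge operator
-/

set_option linter.all false

open scoped ContDiff Topology ENNReal ComplexConjugate
open Set MeasureTheory Filter

noncomputable section

namespace Vale.Agent.P247E

open Vale.Agent.P204.GX Vale.Agent.P204.T4
open Vale.Agent.P247.H74 (e)
open Vale.Agent.P247.H647 (Sp En sig pau omM hat len jz symb cov P3 sig_fin inner_sp)

namespace Hx

theorem vec_fin (φ : Sp) : vec φ = ![(φ 0).re, (φ 1).im, -(φ 1).re, (φ 0).im] := by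
  funext c
  fin_cases c <;> simp [vec, inner_sp, sig_fin, s0]

theorem inner_vec (φ ψ : Sp) : inner ℝ φ ψ = ∑ c, vec φ c * vec ψ c := by
  simp [vec_fin, PiLp.inner_apply, Fin.sum_univ_two, Fin.sum_univ_four, Complex.inner]
  ring

theorem vec_sgm (p : V4) (φ : Sp) : vec (sgm p φ) = app (Rq p) (vec φ) := by
  funext c
  fin_cases c <;> simp [vec_fin, sgm_fin, app_eq, Rq] <;> ring

theorem vec_s0 : vec s0 = e 0 := by
  funext c
  fin_cases c <;> simp [vec_fin, s0, e]

theorem vec_spn (t : V4) : vec (spn t) = t := by rw [spn, vec_sgm, vec_s0, app_Rq_e0]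

theorem vec_inj {φ ψ : Sp} (h : vec φ = vec ψ) : φ = ψ := by
  rw [vec_fin, vec_fin] at h
  have h0 := congrFun h 0
  have h1 := congrFun h 1
  have h2 := congrFun h 2
  have h3 := congrFun h 3
  ext i
  fin_cases i <;> apply Complex.ext <;> simp_all

/-- `vec` as a continuous linear map -/
def vecL : Sp →L[ℝ] V4 := ContinuousLinearMap.pi fun c => innerSL ℝ (sig c s0)

theorem vec_sig (c : Fin 4) : vec (sig c s0) = e c := by rw [← sgm_e]; exact vec_spn _

@[simp] theorem vecL_apply (φ : Sp) : vecL φ = vec φ := by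
  funext c
  simp [vecL, inner_vec, vec_sig, e, Pi.single_apply]

/-- `spn` as a continuous linear map -/
def spnL : V4 →L[ℝ] Sp := (reL.comp sgmL).flip s0

@[simp] theorem spnL_apply (t : V4) : spnL t = spn t := rfl

/-- the self-dual components of a two-form -/
def hc : L2 →L[ℝ] V4 := LinearMap.toContinuousLinearMap
  { toFun := fun A => ![0, A 0 + A 5, A 1 - A 4, A 2 + A 3]
    map_add' := fun A B => by funext i; fin_cases i <;> simp <;> ring
    map_smul' := fun c A => by funext i; fin_cases i <;> simp <;> ring }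

theorem hc_eq (A : L2) : hc A = ![0, A 0 + A 5, A 1 - A 4, A 2 + A 3] := rfl

theorem hc_succ (A : L2) (k : Fin 3) : hc A k.succ = hat (ent A) k := by
  fin_cases k <;> rfl

theorem hc_pull {q : V4} (hq : ∑ c, q c ^ 2 = 1) (A : L2) : hc (pull (Rq q) A) = hc A := by
  rw [← one_smul ℝ (hc A), ← hq]
  funext i
  fin_cases i <;> simp [hc_eq, pull_eq, ofEnt, pent, mn, Rq, Fin.sum_univ_four] <;> ring

theorem hc_wd (β t : V4) : app (Rq (cq β)) t = (app (Rq (cq β)) t 0) • e 0 + hc (wd β t) := by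
  funext i
  fin_cases i <;> simp [hc_eq, wd, app_eq, Rq, cq, e] <;> ring

theorem copp_Rq {q : V4} (hq : ∑ c, q c ^ 2 = 1) (t : V4) : copp (app (Rq q) t) (Rq q) = t := by
  conv_rhs => rw [← one_smul ℝ t, ← hq, ← app_Rq_cq]
  funext i
  simp only [copp, app, Rq_cq, mul_comm]

theorem adj_sgm (β : V4) (v w : Sp) : inner ℝ (sgm β v) w = inner ℝ v (sgm (cq β) w) := by
  simp only [inner_vec, vec_sgm, app, Rq_cq, Finset.sum_mul, Finset.mul_sum]
  rw [Finset.sum_comm]
  simp only [mul_assoc, mul_left_comm]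

theorem d1_copp {t : V4 → V4} {n : V4 → M4} {y : V4} (ht : DifferentiableAt ℝ t y)
    (hn : DifferentiableAt ℝ n y) : d1 (fun z => copp (t z) (n z)) y =
      ∑ i, wd (e i) (copp (fderiv ℝ t y (e i)) (n y)) + ∑ c, t y c • d1 (fun z => n z c) y := by
  have h : ∀ i j, pd i (fun z => copp (t z) (n z) j) y = copp (fderiv ℝ t y (e i)) (n y) j +
      ∑ c, t y c * pd i (fun z => n z c j) y := fun i j => by
    have h1 := fun c => differentiableAt_pi.1 ht c
    have h2 := fun c => differentiableAt_pi.1 (differentiableAt_pi.1 hn c) j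
    simp only [copp]
    rw [pd_sum fun c _ => (h1 c).fun_mul (h2 c), ← Finset.sum_add_distrib]
    refine Finset.sum_congr rfl fun c _ => ?_
    rw [P204.GX.pd_mul (h1 c) (h2 c), add_comm, pd, fderiv_apply ht]
    rfl
  funext k
  fin_cases k <;> simp [d1, h, ofEnt, wd, e, Fin.sum_univ_four] <;> ring

variable {X : Type} [MetricSpace X] (Q : QM X)

theorem t0_u (a : Q.A) (y : V4) (v : Sp) : Q.t0.u a y v = v := one_smul ℂ v

theorem vec_t1 (a : Q.A) (φ : X → Sp) (y : V4) :
    vec (φ (Q.ψ a y)) = app (Rq (Q.p a y)) (vec (Q.t1.lo a φ y)) := by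
  rw [← Q.t1.u_lo a φ, ← vec_sgm]
  exact congrArg vec (one_smul ℂ _)

theorem cf1_vec (a : Q.A) (φ : X → Sp) :
    Q.cf1 a (fun x => vec (φ x)) = fun y => copp (vec (Q.t1.lo a φ y)) (Q.n a y) := by
  funext y
  rw [CM.cf1, vec_t1, Q.m_eq, copp_mm, copp_Rq (Q.p_unit a y)]

theorem sm1_vec {φ : X → Sp} (h : φ ∈ Q.t1.Sm) : Q.Sm1 fun x => vec (φ x) := fun a => by
  rw [cf1_vec]
  simpa only [vecL_apply, Function.comp_def] using contDiff_copp.comp
    ((vecL.contDiff.comp (h a)).prodMk (Q.n_smooth a))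

theorem hc_m' (a : Q.A) (y : V4) (A : L2) : hc (pull (Q.m' a y) A) = hc (pull (Q.n' a y) A) := by
  rw [show Q.m' a y = mm (Q.n' a y) (Rq (cq (Q.p a y))) from
    m4_ext fun v => by rw [app_mm, Q.m'_app], pull_mm, hc_pull]
  rw [← Q.p_unit a y]
  simp [cq, Fin.sum_univ_four]

variable [MeasurableSpace X] [BorelSpace X]

/-- the formal adjoint of the Dirac operator -/
abbrev Ds : Op Q.t1 Q.t0 := (Q.dirac (LBc.triv Q.toCM)).adj

theorem Ds_Mi (a : Q.A) (i : Fin 4) (y : V4) (w : Sp) :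
    (Ds Q).Mi a i y w = -sgm (cq fun d => Q.b a y d i) w := ext_inner_left ℝ fun v => by
  rw [inner_neg_right, ← adj_sgm]
  exact (inner_neg_right _ _).trans (congrArg _ (inner_adjL (Q.dM a i y) v w))

/-- the zero order part -/
def hN (a : Q.A) (y : V4) : Sp →L[ℝ] Sp := spnL.comp
  ((∑ c, ((ContinuousLinearMap.proj c).comp vecL).smulRight
    (hc (pull (Q.n' a y) (d1 (fun z => Q.n a z c) y)))) -
    (((ContinuousLinearMap.proj 0).comp vecL).smulRight (e 0)).comp ((Ds Q).N a y))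

theorem hN_smooth (a : Q.A) : ContDiff ℝ ∞ (hN Q a) :=
  contDiff_const.clm_comp ((ContDiff.sum fun c _ => contDiff_const.smulRight
    (hc.contDiff.comp (contDiff_pull.comp ((Q.n'_smooth a).prodMk
      (contDiff_d1 (contDiff_pi.1 (Q.n_smooth a) c)))))).sub
    (contDiff_const.clm_comp ((Ds Q).N_smooth a)))

theorem loc_eq (a : Q.A) {φ : X → Sp} (h : φ ∈ Q.t1.Sm) (y : V4) :
    vec (locOp (fun i y => -(Ds Q).Mi a i y) (hN Q a) (Q.t1.lo a φ) y) =
      hc (Q.dX (fun x => vec (φ x)) (Q.ψ a y)) - vec ((Ds Q).app φ (Q.ψ a y)) 0 • e 0 := by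
  have d := ((h a).differentiable (by simp) y).hasFDerivAt
  have d2 : HasFDerivAt (fun y => vec (Q.t1.lo a φ y))
      (vecL.comp (fderiv ℝ (Q.t1.lo a φ) y)) y := by
    simpa only [Function.comp_def, vecL_apply] using vecL.hasFDerivAt.comp y d
  rw [Q.eq_pull_m' (Q.dX _) a, Q.cf_dX (sm1_vec Q h), cf1_vec, hc_m', (Ds Q).app_ψ h, t0_u,
    d1_copp d2.differentiableAt ((Q.n_smooth a).differentiable (by simp) y), d2.fderiv]
  have e1 : ∀ i : Fin 4, copp (e i) (Q.n' a y) = fun d => Q.b a y d i := fun i => by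
    funext d
    simp [copp, e, Pi.single_apply, Q.b_apply]
  have e2 : ∀ t, copp (copp t (Q.n a y)) (Q.n' a y) = t := fun t => by
    rw [← copp_mm, show mm (Q.n a y) (Q.n' a y) = oneM from
      m4_ext fun v => by rw [app_mm, Q.n_n', app_one], copp_one]
  simp only [← pullL_apply, ← vecL_apply, locOp, map_add, map_sum, map_smul, neg_apply, Ds_Mi,
    neg_neg, map_neg, hN, ContinuousLinearMap.comp_apply, sub_apply, sum_apply,
    ContinuousLinearMap.smulRight_apply, ContinuousLinearMap.proj_apply]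
  simp only [pullL_apply, vecL_apply, spnL_apply, vec_spn, vec_sgm, pull_wd, e1, e2, Pi.add_apply,
    Finset.sum_apply, Pi.neg_apply, add_smul, Finset.sum_smul, neg_smul, Finset.sum_neg_distrib]
  rw [Finset.sum_congr rfl fun i _ => hc_wd _ _, Finset.sum_add_distrib]
  abel

/-- the Hodge operator -/
def H : Op Q.t1 Q.t0 where
  Mi a i y := -(Ds Q).Mi a i y
  N := hN Q
  Mi_smooth a i := ((Ds Q).Mi_smooth a i).neg
  N_smooth := hN_smooth Q
  compat s hs a b y hy := vec_inj (by rw [t0_u, t0_u, loc_eq Q a hs, loc_eq Q b hs, Q.ψ_τ hy])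

theorem H_app {φ : X → Sp} (h : φ ∈ Q.t1.Sm) (x : X) : vec ((H Q).app φ x) =
    hc (Q.dX (fun x => vec (φ x)) x) - vec ((Ds Q).app φ x) 0 • e 0 := by
  have := loc_eq Q (Q.ch x) h (Q.cy x)
  rw [Q.ψ_cy] at this
  rw [← this, Op.app, t0_u]
  rfl

theorem triv_sm {M : CM X} {f : X → Sp} : f ∈ (LBc.triv M).bp.Sm ↔ SmF M f :=
  forall_congr' fun a => by
    rw [show (LBc.triv M).bp.lo a f = fun y => f (M.ψ a y) from
      funext fun y => by simp [LBc.bp_lo, LBc.lo, LBc.triv]]

theorem triv_cv {M : CM X} (f : X → Sp) (x : X) (c : Fin 4) :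
    (LBc.triv M).cv f x c = df M f x c := by
  have : ∀ a, (LBc.triv M).lo a f = fun y => f (M.ψ a y) := fun a =>
    funext fun y => by simp [LBc.lo, LBc.triv]
  rw [LBc.cv, cov, this]
  simp [LBc.triv, df]

theorem df_smul {M : CM X} {f : X → ℝ} (hf : M.Sm0 f) (v : Sp) (x : X) (c : Fin 4) :
    df M (fun x => f x • v) x c = df M f x c • v := by
  rw [df, fderiv_smul_const ((hf _).differentiable (by simp) _)]
  rfl

variable [CompactSpace X]

theorem isHod : Q.IsHod (H Q) := by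
  refine ⟨fun a i y v w => ?_, fun φ h f hf => ?_, fun φ h x k => ?_⟩
  · rw [show (H Q).Mi a i y = -(Ds Q).Mi a i y from rfl, neg_apply, Ds_Mi, neg_neg, QM.dM,
      reL_apply, adj_sgm]
  · have := (Q.dirac (LBc.triv Q.toCM)).isAdj_adj (fun x => f x • s0)
      (triv_sm.2 fun a => (hf a).smul contDiff_const) φ h
    simp only [Q.dirac_app, triv_cv, df_smul hf, sum_inner,
      ContinuousLinearMap.map_smul_of_tower, real_inner_smul_left] at this
    simp only [ inner_vec, vec_sig, vec_s0, e,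
      Pi.single_apply, ite_mul, one_mul, zero_mul, Finset.sum_ite_eq', Finset.mem_univ,
      if_true] at this
    rw [this, ← integral_neg]
    simp [H_app Q h, hc_eq, e]
  · simp [H_app Q h, hc_succ, e]

theorem Mi_eq {H : Op Q.t1 Q.t0} (h : Q.IsHod H) (a : Q.A) (i : Fin 4) (y : V4) :
    H.Mi a i y = -(Ds Q).Mi a i y := ContinuousLinearMap.ext fun w => ext_inner_left ℝ fun v =>
  (h.symb a i y v w).symm.trans ((isHod Q).symb a i y v w)

end Hx

open Hx in
theorem HODX (h2 : BQ2_statement) : HODX_statement := fun X _ _ _ _ _ Q L =>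
  ⟨⟨_, isHod Q⟩, fun H h a y ξ hξ => by
    simpa only [Mi_eq Q h, smul_neg, Finset.sum_neg_distrib, neg_apply, norm_neg] using
      CLA X _ _ _ _ _ rfl _ _ (Q.dirac (LBc.triv Q.toCM)).isAdj_adj
        (h2 X Q (LBc.triv Q.toCM)).2.2.2.2.2.2.2.2.2.1 a y ξ hξ⟩

end Vale.Agent.P247E
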