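import Vale.Agent.P247E.R.Apr
import Vale.Agent.P247E.Bq2
import Vale.Agent.P247E.Jac
import Vale.Agent.P247E.QSt1
import Vale.Agent.P247E.QKato
import Vale.Agent.P247E.QSolv
import Vale.Agent.P247E.QEig
import Vale.Agent.P247E.QFin
import Vale.Agent.P247E.Asmr
import Vale.Agent.P247E.Dict

/-!
# P247E: assembly of the Seiberg-Witten block
-/

set_option linter.all false

namespace Vale.Agent.P247E

theorem triv_of_ind (h : IND_statement) : TRIV_statement :=
  ASMR hodx SOLV h EIG (R.EXIST BQ2) (R.APR BQ2 ST1 KATO) (R.VAN BQ1 BQ2 ST1) FIN UNI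

theorem root_of_ind (h : IND_statement) : P247X.ROOT_statement := (RF dict BQ2 (triv_of_ind h)).1

theorem flat_of_ind (h : IND_statement) : P247X.FLAT_statement := (RF dict BQ2 (triv_of_ind h)).2

end Vale.Agent.P247E
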